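import Vale.Agent.P262.Const

/-!
Gaussian tail bounds: quadratic forms and sums of excesses over thresholds.
-/

open MeasureTheory ProbabilityTheory Finset RealInnerProductSpace

namespace Vale.Agent.P262

theorem gaussianReal_exp_sq {b : ℝ} (hb : b < 1 / 2) :
    Integrable (fun x : ℝ => Real.exp (b * x ^ 2)) (gaussianReal 0 1) ∧
      ∫ x, Real.exp (b * x ^ 2) ∂(gaussianReal 0 1) = Real.sqrt (1 / (1 - 2 * b)) := by
  have key : ∀ x : ℝ, gaussianPDFReal 0 1 x * Real.exp (b * x ^ 2)
      = (Real.sqrt (2 * Real.pi))⁻¹ * Real.exp (-(1 / 2 - b) * x ^ 2) := by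
    intro x
    rw [gaussianPDFReal_def]
    simp only [sub_zero, NNReal.coe_one, mul_one]
    rw [mul_assoc, ← Real.exp_add]
    congr 2
    ring
  constructor
  · rw [gaussianReal_of_var_ne_zero _ one_ne_zero, gaussianPDF_def,
      integrable_withDensity_iff_integrable_smul' (measurable_gaussianPDFReal 0 1).ennreal_ofReal
        (ae_of_all _ fun _ => ENNReal.ofReal_lt_top)]
    refine ((integrable_exp_neg_mul_sq (show 0 < 1 / 2 - b by linarith)).const_mul
      (Real.sqrt (2 * Real.pi))⁻¹).congr (ae_of_all _ fun x => ?_)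
    simp only [ENNReal.toReal_ofReal (gaussianPDFReal_nonneg _ _ _), smul_eq_mul, key]
  · rw [integral_gaussianReal_eq_integral_smul one_ne_zero]
    simp only [smul_eq_mul, key]
    rw [integral_const_mul, integral_gaussian, ← Real.sqrt_inv, ← Real.sqrt_mul (by positivity)]
    congr 1
    have h1 : 1 - 2 * b ≠ 0 := by linarith
    have h2 : (1 : ℝ) / 2 - b ≠ 0 := by linarith
    field_simp

theorem markov_ofReal {α : Type*} [MeasurableSpace α] (μ : Measure α) [IsFiniteMeasure μ]
    {F : α → ℝ} (hF : Integrable F μ) (h0 : ∀ x, 0 ≤ F x) {B t : ℝ} (hB : ∫ x, F x ∂μ ≤ B)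
    (ht : 0 < t) {s : Set α} (hs : ∀ x ∈ s, t ≤ F x) :
    μ s ≤ ENNReal.ofReal (B / t) := by
  refine (measure_mono (show s ⊆ {x | t ≤ F x} from hs)).trans ?_
  have h1 := mul_meas_ge_le_integral_of_nonneg (ae_of_all μ h0) hF t
  rw [← ofReal_measureReal (s := {x | t ≤ F x}) (measure_ne_top μ _)]
  refine ENNReal.ofReal_le_ofReal ?_
  rw [le_div_iff₀ ht, mul_comm]
  exact h1.trans hB

variable {E : Type*} [NormedAddCommGroup E] [InnerProductSpace ℝ E] [FiniteDimensional ℝ E]
  [MeasurableSpace E] [BorelSpace E]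

theorem map_inner_stdGaussian (a : E) :
    (stdGaussian E).map (fun g => ⟪a, g⟫) = gaussianReal 0 (‖a‖₊ ^ 2) := by
  have h := IsGaussian.map_eq_gaussianReal (μ := stdGaussian E) (innerSL ℝ a)
  rw [variance_dual_stdGaussian, innerSL_apply_norm, integral_strongDual_stdGaussian] at h
  rw [show (fun g => ⟪a, g⟫) = ⇑(innerSL ℝ a) from rfl, h]
  congr 1
  rw [← NNReal.coe_inj, Real.coe_toNNReal _ (sq_nonneg _)]
  simp

theorem exp_inner_sq_quarter {a : E} (ha : ‖a‖ = 1) :
    Integrable (fun g => Real.exp (⟪a, g⟫ ^ 2 / 4)) (stdGaussian E) ∧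
      ∫ g, Real.exp (⟪a, g⟫ ^ 2 / 4) ∂(stdGaussian E) = Real.sqrt 2 := by
  have hmap := map_inner_stdGaussian a
  have h1 : ‖a‖₊ ^ 2 = 1 := by rw [← NNReal.coe_inj]; simp [ha]
  rw [h1] at hmap
  obtain ⟨hint, hval⟩ := gaussianReal_exp_sq (show (1 / 4 : ℝ) < 1 / 2 by norm_num)
  rw [← hmap] at hint hval
  have hm : AEMeasurable (fun g => ⟪a, g⟫) (stdGaussian E) := by fun_prop
  rw [integrable_map_measure (by fun_prop) hm] at hint
  rw [integral_map hm (by fun_prop)] at hval
  refine ⟨hint.congr (ae_of_all _ fun g => by simp [div_eq_inv_mul]), ?_⟩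
  rw [show (2 : ℝ) = 1 / (1 - 2 * (1 / 4)) by norm_num, ← hval]
  simp [div_eq_inv_mul]

/-- Tail of a positive semidefinite quadratic form in a standard Gaussian vector. -/
theorem quad_tail {σ : Type*} (S : Finset σ) (a : σ → E) {T : ℝ} (hT : 0 < T)
    (h : ∑ u ∈ S, ‖a u‖ ^ 2 ≤ T) (X : ℝ) :
    stdGaussian E {g | X < ∑ u ∈ S, ⟪a u, g⟫ ^ 2}
      ≤ ENNReal.ofReal (Real.sqrt 2 * Real.exp (-X / (4 * T))) := by
  classical
  set S' := S.filter fun u => a u ≠ 0 with hS'
  let w : σ → ℝ := fun u => ‖a u‖ ^ 2 / T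
  let e : σ → E := fun u => ‖a u‖⁻¹ • a u
  have he : ∀ u ∈ S', ‖e u‖ = 1 := fun u hu => norm_smul_inv_norm (mem_filter.1 hu).2
  have hw : ∀ u, 0 ≤ w u := fun u => div_nonneg (sq_nonneg _) hT.le
  have hw1 : ∑ u ∈ S', w u ≤ 1 := by
    rw [← sum_div, div_le_one hT]
    exact (sum_le_sum_of_subset_of_nonneg (filter_subset _ _) fun _ _ _ => sq_nonneg _).trans h
  have hsum : ∀ g, (∑ u ∈ S, ⟪a u, g⟫ ^ 2) / (4 * T)
      = ∑ u ∈ S', w u * (⟪e u, g⟫ ^ 2 / 4) := by
    intro g
    rw [sum_div, hS', sum_filter]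
    refine sum_congr rfl fun u _ => ?_
    by_cases hu : a u = 0
    · simp [hu]
    · have : ‖a u‖ ≠ 0 := norm_ne_zero_iff.2 hu
      rw [if_pos hu]
      simp only [w, e, real_inner_smul_left]
      field_simp
  let F : E → ℝ := fun g => ∑ u ∈ S', w u * Real.exp (⟪e u, g⟫ ^ 2 / 4)
    + (1 - ∑ u ∈ S', w u)
  have hint : Integrable (fun g => ∑ u ∈ S', w u * Real.exp (⟪e u, g⟫ ^ 2 / 4))
      (stdGaussian E) :=
    integrable_finsetSum _ fun u hu => ((exp_inner_sq_quarter (he u hu)).1).const_mul _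
  have hexp : ∀ g, Real.exp ((∑ u ∈ S, ⟪a u, g⟫ ^ 2) / (4 * T)) ≤ F g := by
    intro g
    rw [hsum g]
    have := convexOn_exp.map_add_sum_le (t := S') (w := w)
      (p := fun u => ⟪e u, g⟫ ^ 2 / 4) (v := 1 - ∑ u ∈ S', w u) (q := (0 : ℝ))
      (fun u _ => hw u) (by ring) (fun u _ => trivial) (by linarith) trivial
    simpa [F, add_comm] using this
  have hF : ∫ g, F g ∂(stdGaussian E) ≤ Real.sqrt 2 := by
    simp only [F]
    rw [integral_add hint (integrable_const _), integral_finsetSum _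
      (fun u hu => ((exp_inner_sq_quarter (he u hu)).1).const_mul _)]
    rw [sum_congr rfl fun u hu => by
      rw [integral_const_mul, (exp_inner_sq_quarter (he u hu)).2]]
    rw [← sum_mul]
    simp only [integral_const, probReal_univ, smul_eq_mul, one_mul]
    nlinarith [Real.one_le_sqrt.2 (show (1 : ℝ) ≤ 2 by norm_num)]
  have := markov_ofReal (stdGaussian E) (F := F) (t := Real.exp (X / (4 * T)))
    (s := {g | X < ∑ u ∈ S, ⟪a u, g⟫ ^ 2}) (hint.add (integrable_const _))
    (fun g => (Real.exp_pos _).le.trans (hexp g)) hF (Real.exp_pos _)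
    (fun g hg => le_trans (Real.exp_le_exp.2 (by
      rw [div_le_div_iff_of_pos_right (by positivity)]; exact (le_of_lt hg))) (hexp g))
  refine this.trans (le_of_eq ?_)
  rw [div_eq_mul_inv, ← Real.exp_neg]
  ring_nf

variable {κ : Type*} [Fintype κ]

/-- The excess of one coordinate over a threshold. -/
noncomputable def excess (c x : ℝ) : ℝ := max (16 * |x| - c) 0 ^ 2

/-- A coordinate does not exceed its threshold, except with small probability. -/
theorem threshold_tail [DecidableEq κ] (S : Finset κ) (c : κ → ℝ) (hc : ∀ k, 0 ≤ c k) :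
    stdGaussian (EuclideanSpace ℝ κ) {g | ∃ k ∈ S, c k < 16 * |g k / sc|}
      ≤ ENNReal.ofReal (2 * ∑ k ∈ S, Real.exp (-(kap * c k ^ 2))) := by
  rw [mul_sum, ENNReal.ofReal_sum_of_nonneg fun k _ => by positivity]
  refine (measure_mono (t := ⋃ k ∈ S, {g | c k < 16 * |g k / sc|}) ?_).trans
    ((measure_biUnion_finset_le _ _).trans (sum_le_sum fun k _ => ?_))
  · intro g ⟨k, hk, h⟩
    exact Set.mem_biUnion hk h
  · have h := quad_tail (E := EuclideanSpace ℝ κ) {k}
      (fun k => EuclideanSpace.single k (1 : ℝ)) one_pos (by simp) ((c k * sc / 16) ^ 2)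
    refine (measure_mono ?_).trans (h.trans (ENNReal.ofReal_le_ofReal ?_))
    · intro g hg
      simp only [Set.mem_ofPred_eq, sum_singleton, EuclideanSpace.inner_single_left, map_one,
        one_mul] at hg ⊢
      rw [abs_div, abs_of_pos sc_pos, mul_div_assoc', lt_div_iff₀ sc_pos] at hg
      rw [← sq_abs (g k)]
      refine pow_lt_pow_left₀ ?_ (by have := hc k; have := sc_pos; positivity) two_ne_zero
      linarith
    · refine mul_le_mul (Real.sqrt_le_iff.2 ⟨by norm_num, by norm_num⟩) (Real.exp_le_exp.2 ?_)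
        (Real.exp_pos _).le (by norm_num)
      unfold kap
      nlinarith [mul_nonneg (sq_nonneg sc) (sq_nonneg (c k))]

/-- Tail of a sum of excesses. -/
theorem excess_tail (S : Finset κ) (c : κ → ℝ) (hc : ∀ k, 0 ≤ c k) (X : ℝ) :
    stdGaussian (EuclideanSpace ℝ κ) {g | X < ∑ k ∈ S, excess (c k) (g k / sc)}
      ≤ ENNReal.ofReal (Real.exp (-(lam * X) + 2 * ∑ k ∈ S, Real.exp (-(kap * c k ^ 2)))) := by
  classical
  let f : κ → ℝ → ℝ := fun k x =>
    if k ∈ S then 1 + Real.exp (-(kap * c k ^ 2)) * Real.exp (3 / 8 * x ^ 2) else 1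
  obtain ⟨hint, hval⟩ := gaussianReal_exp_sq (show (3 / 8 : ℝ) < 1 / 2 by norm_num)
  have hf : ∀ k, Integrable (f k) (gaussianReal 0 1) := by
    intro k
    by_cases hk : k ∈ S
    · simp only [f, if_pos hk]
      exact (integrable_const (1 : ℝ)).add (hint.const_mul _)
    · simp only [f, if_neg hk]
      exact integrable_const _
  have hfi : ∀ k, ∫ x, f k x ∂(gaussianReal 0 1)
      = if k ∈ S then 1 + 2 * Real.exp (-(kap * c k ^ 2)) else 1 := by
    intro k
    by_cases hk : k ∈ S
    · simp only [f, if_pos hk]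
      rw [integral_add (integrable_const _) (hint.const_mul _), integral_const_mul, hval,
        show (1 : ℝ) / (1 - 2 * (3 / 8)) = 2 ^ 2 by norm_num, Real.sqrt_sq (by norm_num)]
      simp [mul_comm]
    · simp only [f, if_neg hk]
      simp
  let F : (κ → ℝ) → ℝ := fun x => ∏ k, f k (x k)
  have hF0 : ∀ x, 0 ≤ F x := fun x => prod_nonneg fun k _ => by
    simp only [f]; split_ifs <;> positivity
  have hpt : ∀ (k : κ) (x : ℝ), k ∈ S →
      Real.exp (lam * excess (c k) (x / sc)) ≤ f k x := by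
    intro k x hk
    simp only [f, if_pos hk, excess]
    rcases le_or_gt (16 * |x / sc|) (c k) with h | h
    · rw [max_eq_right (by linarith)]
      simp only [zero_pow two_ne_zero, mul_zero, Real.exp_zero, le_add_iff_nonneg_right]
      positivity
    · rw [max_eq_left (by linarith)]
      refine le_trans ?_ (le_add_of_nonneg_left zero_le_one)
      rw [← Real.exp_add, Real.exp_le_exp]
      rw [abs_div, abs_of_pos sc_pos] at h ⊢
      have h1 : c k * sc < 16 * |x| := by
        rw [mul_div_assoc', lt_div_iff₀ sc_pos] at h; linarith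
      have h0 : 0 ≤ c k * sc := mul_nonneg (hc k) sc_pos.le
      have h2 : (c k * sc) ^ 2 ≤ 256 * x ^ 2 := by
        have := pow_le_pow_left₀ h0 h1.le 2
        rw [mul_pow 16, sq_abs] at this
        linarith
      have h3 : sc ^ 2 * (16 * (|x| / sc) - c k) ^ 2 ≤ 256 * x ^ 2 := by
        have h4 : sc ^ 2 * (16 * (|x| / sc) - c k) ^ 2 = (16 * |x| - c k * sc) ^ 2 := by
          have := sc_pos.ne'
          field_simp
        rw [h4, ← sq_abs x]
        nlinarith
      unfold lam kap
      nlinarith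
  rw [← map_pi_eq_stdGaussian, Measure.map_apply_of_aemeasurable (by fun_prop) ?_]
  swap
  · refine measurableSet_lt measurable_const (Finset.measurable_sum _ fun k _ => ?_)
    unfold excess
    fun_prop
  have hB : ∫ x, F x ∂(Measure.pi fun _ : κ => gaussianReal 0 1)
      ≤ Real.exp (2 * ∑ k ∈ S, Real.exp (-(kap * c k ^ 2))) := by
    simp only [F]
    rw [integral_fintype_prod_eq_prod]
    simp only [hfi]
    rw [prod_ite_mem, univ_inter, mul_sum, Real.exp_sum]
    exact Finset.prod_le_prod (fun k _ => by positivity) fun k _ => by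
      rw [add_comm]; exact Real.add_one_le_exp _
  refine (markov_ofReal _ (F := F) (t := Real.exp (lam * X)) (Integrable.fintype_prod hf) hF0 hB
    (Real.exp_pos _) fun x hx => ?_).trans (le_of_eq ?_)
  · simp only [Set.mem_preimage, Set.mem_ofPred_eq] at hx
    calc Real.exp (lam * X) ≤ Real.exp (lam * ∑ k ∈ S, excess (c k) (x k / sc)) :=
          Real.exp_le_exp.2 (mul_le_mul_of_nonneg_left hx.le (by unfold lam; positivity))
      _ = ∏ k ∈ S, Real.exp (lam * excess (c k) (x k / sc)) := by rw [mul_sum, Real.exp_sum]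
      _ ≤ ∏ k ∈ S, f k (x k) := Finset.prod_le_prod (fun k _ => (Real.exp_pos _).le)
          fun k hk => hpt k (x k) hk
      _ = F x := by
          simp only [F]
          refine prod_subset (subset_univ _) fun k _ hk => ?_
          simp [f, hk]
  · rw [← Real.exp_sub]
    congr 1
    ring_nf

end Vale.Agent.P262
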