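import Vale.Agent.P262.StarLemma

/-!
Balancing with respect to Gaussian bodies: signs with all boundary sums inside a body,
biased rounding into a body, and ordered partitions with all boundaries balanced.
-/

open MeasureTheory ProbabilityTheory Pointwise

namespace Vale.Agent.P262

variable {E : Type*} [NormedAddCommGroup E] [InnerProductSpace ℝ E]

theorem starBody_eq_add (K : Set E) (v : E) :
    starBody K v = {p | p + v ∈ K ∧ p - v ∈ K} + (fun σ : ℝ => σ • v) '' Set.Icc (-2 : ℝ) 2 := by
  ext x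
  constructor
  · rintro ⟨p, σ, hσ, h1, h2, rfl⟩
    exact Set.add_mem_add ⟨h1, h2⟩ (Set.mem_image_of_mem _ hσ)
  · rintro ⟨p, ⟨h1, h2⟩, _, ⟨σ, hσ, rfl⟩, rfl⟩
    exact ⟨p, σ, hσ, h1, h2, rfl⟩

theorem IsBody.starBody {K : Set E} (hK : IsBody K) (v : E) : IsBody (starBody K v) := by
  refine ⟨?_, ?_, ?_⟩
  · rw [starBody_eq_add]
    refine IsClosed.add_right_of_isCompact ?_ (isCompact_Icc.image (by fun_prop))
    exact IsClosed.inter (hK.closed.preimage (by fun_prop)) (hK.closed.preimage (by fun_prop))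
  · rintro x ⟨p, σ, hσ, h1, h2, rfl⟩ y ⟨q, τ, hτ, h3, h4, rfl⟩ a b ha hb hab
    refine ⟨a • p + b • q, a * σ + b * τ, convex_Icc _ _ hσ hτ ha hb hab, ?_, ?_, by module⟩
    · convert hK.convex h1 h3 ha hb hab using 1
      have : v = a • v + b • v := by rw [← add_smul, hab, one_smul]
      conv_lhs => rw [this]
      module
    · convert hK.convex h2 h4 ha hb hab using 1
      have : v = a • v + b • v := by rw [← add_smul, hab, one_smul]
      conv_lhs => rw [this]
      module
  · rintro x ⟨p, σ, hσ, h1, h2, rfl⟩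
    refine ⟨-p, -σ, ⟨by linarith [hσ.2], by linarith [hσ.1]⟩, ?_, ?_, by module⟩
    · convert hK.symm _ h2 using 1; module
    · convert hK.symm _ h1 using 1; module

theorem starBody_choose {K : Set E} (hK : Convex ℝ K) {v x : E} (hx : x ∈ starBody K v) :
    x + v ∈ K ∨ x - v ∈ K := by
  obtain ⟨p, σ, hσ, h1, h2, rfl⟩ := hx
  rcases le_total 0 σ with h | h
  · right
    have : ((σ / 2) • (p + v) + (1 - σ / 2) • (p - v) : E) ∈ K :=
      hK h1 h2 (by linarith) (by linarith [hσ.2]) (by ring)
    convert this using 1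
    module
  · left
    have : ((1 + σ / 2) • (p + v) + (-σ / 2) • (p - v) : E) ∈ K :=
      hK h1 h2 (by linarith [hσ.1]) (by linarith) (by ring)
    convert this using 1
    module

theorem IsBody.inter {K L : Set E} (hK : IsBody K) (hL : IsBody L) : IsBody (K ∩ L) :=
  ⟨hK.closed.inter hL.closed, hK.convex.inter hL.convex,
    fun x hx => ⟨hK.symm x hx.1, hL.symm x hx.2⟩⟩

theorem isBody_univ : IsBody (Set.univ : Set E) :=
  ⟨isClosed_univ, convex_univ, fun _ _ => trivial⟩

theorem IsBody.zero_mem {K : Set E} (hK : IsBody K) (h : K.Nonempty) : (0 : E) ∈ K := by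
  obtain ⟨x, hx⟩ := h
  have := hK.convex hx (hK.symm x hx) (show (0 : ℝ) ≤ 1 / 2 by norm_num)
    (show (0 : ℝ) ≤ 1 / 2 by norm_num) (by norm_num)
  simpa using this

theorem IsBody.add_mem_smul {K : Set E} (hK : IsBody K) {x y : E} {r t : ℝ} (hr : 0 ≤ r)
    (ht : 0 ≤ t) (hx : x ∈ r • K) (hy : y ∈ t • K) : x + y ∈ (r + t) • K := by
  rw [hK.convex.add_smul hr ht]
  exact Set.add_mem_add hx hy

variable [FiniteDimensional ℝ E] [MeasurableSpace E] [BorelSpace E]

theorem measure_ge_of_compl_le {K : Set E} (hK : IsClosed K)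
    (h : stdGaussian E Kᶜ ≤ ENNReal.ofReal (1 / 10)) :
    ENNReal.ofReal (9 / 10) ≤ stdGaussian E K := by
  have h1 : (1 : ENNReal) ≤ stdGaussian E K + stdGaussian E Kᶜ := by
    rw [measure_add_measure_compl hK.measurableSet, measure_univ]
  have h2 : (1 : ENNReal) = ENNReal.ofReal (9 / 10) + ENNReal.ofReal (1 / 10) := by
    rw [← ENNReal.ofReal_add (by norm_num) (by norm_num)]; norm_num
  rw [h2] at h1
  exact (ENNReal.add_le_add_iff_right ENNReal.ofReal_ne_top).1
    (h1.trans (add_le_add_right h _))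

theorem nonempty_of_compl_le {K : Set E} (hK : IsClosed K)
    (h : stdGaussian E Kᶜ ≤ ENNReal.ofReal (1 / 10)) : K.Nonempty := by
  by_contra h'
  rw [Set.not_nonempty_iff_eq_empty] at h'
  have := measure_ge_of_compl_le hK h
  rw [h', measure_empty, nonpos_iff_eq_zero, ENNReal.ofReal_eq_zero] at this
  norm_num at this

variable {ι : Type*}

/-- Backward step: a body from which every point can be carried into `C` by a signing of `S`. -/
theorem exists_back_body (z : ι → E) (hz : ∀ i, ‖z i‖ ≤ 1 / 4000) (S : Finset ι) {C : Set E}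
    (hC : IsBody C) (hm : stdGaussian E Cᶜ ≤ ENNReal.ofReal (1 / 10)) :
    ∃ C', IsBody C' ∧ stdGaussian E C'ᶜ ≤ stdGaussian E Cᶜ ∧
      ∀ x ∈ C', ∃ s : ι → ℝ, (∀ i, s i = 1 ∨ s i = -1) ∧ x + ∑ i ∈ S, s i • z i ∈ C := by
  classical
  induction S using Finset.induction generalizing C with
  | empty => exact ⟨C, hC, le_rfl, fun x hx => ⟨fun _ => 1, fun _ => Or.inl rfl, by simpa⟩⟩
  | insert a S ha ih =>
    have h1 : stdGaussian E (starBody C (z a))ᶜ ≤ stdGaussian E Cᶜ := by
      rw [prob_compl_eq_one_sub (hC.starBody _).closed.measurableSet,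
        prob_compl_eq_one_sub hC.closed.measurableSet]
      exact tsub_le_tsub_left (stdGaussian_le_starBody hC.closed hC.convex
        (measure_ge_of_compl_le hC.closed hm) (hz a)) _
    obtain ⟨C', hC', hle, hmem⟩ := ih (hC.starBody (z a)) (h1.trans hm)
    refine ⟨C', hC', hle.trans h1, fun x hx => ?_⟩
    obtain ⟨s, hs, hsC⟩ := hmem x hx
    have key : ∀ r : ℝ, ∑ i ∈ S, Function.update s a r i • z i = ∑ i ∈ S, s i • z i := fun r =>
      Finset.sum_congr rfl fun i hi => by
        rw [Function.update_of_ne (by rintro rfl; exact ha hi)]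
    have hupd : ∀ r : ℝ, r = 1 ∨ r = -1 →
        ∀ i, Function.update s a r i = 1 ∨ Function.update s a r i = -1 := fun r hr i => by
      by_cases hi : i = a
      · subst hi; simpa using hr
      · simpa [hi] using hs i
    rcases starBody_choose hC.convex hsC with h | h
    · refine ⟨Function.update s a 1, hupd 1 (Or.inl rfl), ?_⟩
      rw [Finset.sum_insert ha, key, Function.update_self]
      convert h using 1; module
    · refine ⟨Function.update s a (-1), hupd (-1) (Or.inr rfl), ?_⟩
      rw [Finset.sum_insert ha, key, Function.update_self]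
      convert h using 1; module

variable [Fintype ι]

/-- Signs with all boundary sums in `B` and the final one also in `C`. -/
theorem exists_signs (z : ι → E) (hz : ∀ i, ‖z i‖ ≤ 1 / 4000) (q : ι → ℕ) {B : Set E}
    (hB : IsBody B) (h0 : (0 : E) ∈ B) (n : ℕ) {C : Set E} (hC : IsBody C)
    (hm : stdGaussian E Cᶜ + n * stdGaussian E Bᶜ ≤ ENNReal.ofReal (1 / 10)) :
    ∃ s : ι → ℝ, (∀ i, s i = 1 ∨ s i = -1) ∧ (∀ j ≤ n, ∑ i with q i < j, s i • z i ∈ B) ∧
      ∑ i with q i < n, s i • z i ∈ C := by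
  classical
  induction n generalizing C with
  | zero =>
    refine ⟨fun _ => 1, fun _ => Or.inl rfl, fun j hj => ?_, ?_⟩
    · obtain rfl : j = 0 := Nat.le_zero.1 hj
      simpa using h0
    · simpa using hC.zero_mem (nonempty_of_compl_le hC.closed (le_self_add.trans hm))
  | succ n ih =>
    have hCB : stdGaussian E (C ∩ B)ᶜ ≤ stdGaussian E Cᶜ + stdGaussian E Bᶜ := by
      rw [Set.compl_inter]; exact measure_union_le _ _
    have hle : stdGaussian E Cᶜ + stdGaussian E Bᶜ + n * stdGaussian E Bᶜ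
        ≤ ENNReal.ofReal (1 / 10) := by
      refine le_trans (le_of_eq ?_) hm
      push_cast; ring
    obtain ⟨C', hC', hC'le, hmem⟩ := exists_back_body z hz (Finset.univ.filter (q · = n))
      (hC.inter hB) (hCB.trans (le_self_add.trans hle))
    obtain ⟨s, hs, hsB, hsC⟩ := ih hC'
      ((add_le_add_left (hC'le.trans hCB) _).trans hle)
    obtain ⟨t, ht, htC⟩ := hmem _ hsC
    refine ⟨fun i => if q i < n then s i else t i,
      fun i => by by_cases h : q i < n <;> simp [h, hs i, ht i], ?_, ?_⟩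
    all_goals
      have hlow : ∀ j ≤ n, ∑ i with q i < j, (if q i < n then s i else t i) • z i
          = ∑ i with q i < j, s i • z i := fun j hj => Finset.sum_congr rfl fun i hi => by
        rw [if_pos (lt_of_lt_of_le (Finset.mem_filter.1 hi).2 hj)]
      have htop : ∑ i with q i < n + 1, (if q i < n then s i else t i) • z i
          = ∑ i with q i < n, s i • z i + ∑ i with q i = n, t i • z i := by
        rw [Finset.sum_filter, Finset.sum_filter, Finset.sum_filter, ← Finset.sum_add_distrib]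
        refine Finset.sum_congr rfl fun i _ => ?_
        rcases lt_trichotomy (q i) n with h | h | h
        · simp [h, h.ne, Nat.lt_succ_of_lt h]
        · simp [h]
        · simp [h.not_gt, h.ne', show ¬ q i < n + 1 by omega]
    · intro j hj
      rcases Nat.lt_or_eq_of_le hj with h | h
      · rw [hlow j (by omega)]; exact hsB j (by omega)
      · subst h; rw [htop]; exact htC.2
    · rw [htop]; exact htC.1

/-- Biased rounding into a body. -/
theorem biased_balancing (z : ι → E) (p : ι → ℝ) (B : Set E)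
    (hB : IsBody B) (hp : ∀ i, p i ∈ Set.Icc (0 : ℝ) 1) (hz : ∀ i, ‖z i‖ ≤ 1 / 4000)
    (hm : stdGaussian E Bᶜ ≤ ENNReal.ofReal (1 / 10)) :
    ∃ c : ι → Bool, ∑ i, ((if c i then (1 : ℝ) else 0) - p i) • z i ∈ B := by
  classical
  have hne := nonempty_of_compl_le hB.closed hm
  have h0 := hB.zero_mem hne
  have dyadic : ∀ m : ℕ, ∀ a : ι → ℕ, (∀ i, a i ≤ 2 ^ m) → ∃ c : ι → Bool,
      ∑ i, ((if c i then (2 : ℝ) ^ m else 0) - a i) • z i ∈ ((2 : ℝ) ^ m - 1) • B := by
    intro m
    induction m with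
    | zero =>
      intro a ha
      refine ⟨fun i => decide (a i = 1), ?_⟩
      rw [show ((2 : ℝ) ^ 0 - 1) = 0 by norm_num, Set.zero_smul_set hne]
      refine Finset.sum_eq_zero fun i _ => ?_
      rcases Nat.le_one_iff_eq_zero_or_eq_one.1 (by simpa using ha i) with h | h <;> simp [h]
    | succ m ih =>
      intro a ha
      obtain ⟨s, hs, hsB, -⟩ := exists_signs (fun i => if a i % 2 = 1 then z i else 0)
        (fun i => by split_ifs; exacts [hz i, by simp]) (fun _ => 0) hB h0 1 (isBody_univ (E := E))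
        (by simpa using hm)
      have hsB' : ∑ i, s i • (if a i % 2 = 1 then z i else 0) ∈ (1 : ℝ) • B := by
        rw [one_smul]; simpa using hsB 1 le_rfl
      let a' : ι → ℕ := fun i =>
        if a i % 2 = 1 then (if s i = 1 then (a i + 1) / 2 else (a i - 1) / 2) else a i / 2
      have ha' : ∀ i, a' i ≤ 2 ^ m := fun i => by
        have := ha i; rw [pow_succ] at this
        simp only [a']; split_ifs <;> omega
      have hrel : ∀ i, (a i : ℝ) = 2 * a' i - (if a i % 2 = 1 then s i else 0) := fun i => by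
        rcases Nat.even_or_odd' (a i) with ⟨k, hk | hk⟩
        · have : a i % 2 ≠ 1 := by omega
          have h2 : a' i = k := by simp only [a', if_neg this]; omega
          rw [if_neg this, h2, hk]; push_cast; ring
        · have : a i % 2 = 1 := by omega
          rcases hs i with h | h
          · have h2 : a' i = k + 1 := by simp only [a', if_pos this, if_pos h]; omega
            rw [if_pos this, h2, hk, h]; push_cast; ring
          · have h2 : a' i = k := by
              simp only [a', if_pos this, if_neg (show s i ≠ 1 by rw [h]; norm_num)]; omega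
            rw [if_pos this, h2, hk, h]; push_cast; ring
      obtain ⟨c, hc⟩ := ih a' ha'
      refine ⟨c, ?_⟩
      have h2 : (2 : ℝ) • ∑ i, ((if c i then (2 : ℝ) ^ m else 0) - a' i) • z i
          ∈ (2 * ((2 : ℝ) ^ m - 1)) • B := by
        rw [mul_smul]; exact Set.smul_mem_smul_set hc
      have h3 := hB.add_mem_smul (by linarith [one_le_pow₀ (M₀ := ℝ) one_le_two (n := m)])
        zero_le_one h2 hsB'
      rw [show (2 : ℝ) * (2 ^ m - 1) + 1 = 2 ^ (m + 1) - 1 by ring] at h3
      convert h3 using 1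
      rw [Finset.smul_sum, ← Finset.sum_add_distrib]
      refine Finset.sum_congr rfl fun i _ => ?_
      rw [hrel i]
      rcases Bool.eq_false_or_eq_true (c i) with h | h <;> simp only [h, if_true, if_false,
        Bool.false_eq_true] <;> split_ifs <;> module
  by_contra h
  push Not at h
  let a : ℕ → ι → ℕ := fun m i => ⌊p i * 2 ^ m⌋₊
  have hlim : ∀ i, Filter.Tendsto (fun m => (a m i : ℝ) / 2 ^ m) Filter.atTop (nhds (p i)) :=
    fun i => (tendsto_nat_floor_mul_div_atTop (hp i).1).comp
      (tendsto_pow_atTop_atTop_of_one_lt (one_lt_two (α := ℝ)))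
  have hev : ∀ c : ι → Bool, ∀ᶠ m in Filter.atTop,
      ∑ i, ((if c i then (1 : ℝ) else 0) - (a m i : ℝ) / 2 ^ m) • z i ∈ Bᶜ := fun c => by
    refine (tendsto_finsetSum _ fun i _ => ?_).eventually_mem
      (hB.closed.isOpen_compl.mem_nhds (h c))
    exact (tendsto_const_nhds.sub (hlim i)).smul_const (z i)
  obtain ⟨m, hm'⟩ := (Filter.eventually_all.2 hev).exists
  obtain ⟨c, hc⟩ := dyadic m (a m) fun i => Nat.floor_le_of_le (by
    push_cast; exact mul_le_of_le_one_left (by positivity) (hp i).2)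
  refine hm' c ?_
  obtain ⟨y, hy, hye⟩ := hc
  have hpow : (1 : ℝ) ≤ 2 ^ m := one_le_pow₀ one_le_two
  have hy' : (1 - 1 / (2 : ℝ) ^ m) • y + (1 / (2 : ℝ) ^ m) • (0 : E) ∈ B := by
    refine hB.convex hy h0 ?_ (by positivity) (by ring)
    rw [sub_nonneg, div_le_one (by positivity)]; exact hpow
  convert hy' using 1
  rw [smul_zero, add_zero, show (1 : ℝ) - 1 / 2 ^ m = (1 / 2 ^ m) * (2 ^ m - 1) by field_simp,
    mul_smul]
  simp only at hye
  rw [hye, Finset.smul_sum]
  refine Finset.sum_congr rfl fun i _ => ?_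
  rw [smul_smul]
  congr 1
  split_ifs <;> field_simp <;> ring

/-- Splitting a finite family into `2 * m` ordered parts with every boundary balanced. -/
theorem ordered_partition (z : ι → E) (B : Set E) (hB : IsBody B)
    (hz : ∀ i, ‖z i‖ ≤ 1 / 4000) {m : ℕ} (hm0 : 0 < m)
    (hm : (m : ENNReal) * stdGaussian E Bᶜ ≤ ENNReal.ofReal (1 / 10)) :
    ∃ π : ι → Fin (2 * m), ∀ j ≤ 2 * m,
      (∑ i with (π i : ℕ) < j, z i) - ((j : ℝ) / (2 * m : ℕ)) • ∑ i, z i ∈ B := by
  classical
  have hB1 : stdGaussian E Bᶜ ≤ ENNReal.ofReal (1 / 10) :=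
    le_trans (le_mul_of_one_le_left zero_le (by exact_mod_cast hm0)) hm
  have h0 := hB.zero_mem (nonempty_of_compl_le hB.closed hB1)
  let D : (ι → Fin (2 * m)) → ℕ → E := fun π j =>
    (∑ i with (π i : ℕ) < j, z i) - ((j : ℝ) / (2 * m : ℕ)) • ∑ i, z i
  have step : ∀ (π : ι → Fin (2 * m)) (r : ℝ),
      (∀ j ≤ 2 * m, ∃ y ∈ B, ‖D π j - y‖ ≤ r) →
      ∃ π' : ι → Fin (2 * m), ∀ j ≤ 2 * m, ∃ y ∈ B, ‖D π' j - y‖ ≤ r / 2 := by
    intro π r hπ
    obtain ⟨s, hs, hsB, -⟩ := exists_signs z hz (fun i => (π i : ℕ) / 2) hB h0 m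
      (isBody_univ (E := E)) (by simpa using hm)
    refine ⟨fun i => ⟨if s i = 1 then (π i : ℕ) / 2 else 2 * m - 1 - (π i : ℕ) / 2,
      by have := (π i).isLt; split_ifs <;> omega⟩, ?_⟩
    set π' : ι → Fin (2 * m) := fun i => ⟨if s i = 1 then (π i : ℕ) / 2
      else 2 * m - 1 - (π i : ℕ) / 2, by have := (π i).isLt; split_ifs <;> omega⟩ with hπ'
    have low : ∀ j ≤ m, D π' j
        = (1 / 2 : ℝ) • (D π (2 * j) + ∑ i with (π i : ℕ) / 2 < j, s i • z i) := by
      intro j hj
      have hset : ∑ i with (π' i : ℕ) < j, z i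
          = (1 / 2 : ℝ) • (∑ i with (π i : ℕ) < 2 * j, z i
            + ∑ i with (π i : ℕ) / 2 < j, s i • z i) := by
        simp only [Finset.sum_filter]
        rw [← Finset.sum_add_distrib, Finset.smul_sum]
        refine Finset.sum_congr rfl fun i _ => ?_
        have := (π i).isLt
        rcases hs i with h | h
        · simp only [hπ', h, if_true]
          by_cases hq : (π i : ℕ) / 2 < j
          · rw [if_pos hq, if_pos (by omega), if_pos hq]; module
          · rw [if_neg hq, if_neg (by omega), if_neg hq]; module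
        · simp only [hπ', h, show (-1 : ℝ) ≠ 1 by norm_num, if_false]
          by_cases hq : (π i : ℕ) / 2 < j
          · rw [if_neg (by omega), if_pos (by omega), if_pos hq]; module
          · rw [if_neg (by omega), if_neg (by omega), if_neg hq]; module
      simp only [D, hset]
      push_cast
      module
    have high : ∀ j ≤ m, D π' (2 * m - j)
        = (1 / 2 : ℝ) • (-D π (2 * j) + ∑ i with (π i : ℕ) / 2 < j, s i • z i) := by
      intro j hj
      have hset : ∑ i with (π' i : ℕ) < 2 * m - j, z i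
          = ∑ i, z i - (1 / 2 : ℝ) • (∑ i with (π i : ℕ) < 2 * j, z i
            - ∑ i with (π i : ℕ) / 2 < j, s i • z i) := by
        simp only [Finset.sum_filter]
        rw [← Finset.sum_sub_distrib, Finset.smul_sum, ← Finset.sum_sub_distrib]
        refine Finset.sum_congr rfl fun i _ => ?_
        have := (π i).isLt
        rcases hs i with h | h
        · simp only [hπ', h, if_true]
          by_cases hq : (π i : ℕ) / 2 < j
          · rw [if_pos (by omega), if_pos (by omega), if_pos hq]; module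
          · rw [if_pos (by omega), if_neg (by omega), if_neg hq]; module
        · simp only [hπ', h, show (-1 : ℝ) ≠ 1 by norm_num, if_false]
          by_cases hq : (π i : ℕ) / 2 < j
          · rw [if_neg (by omega), if_pos (by omega), if_pos hq]; module
          · rw [if_pos (by omega), if_neg (by omega), if_neg hq]; module
      have hm' : (m : ℝ) ≠ 0 := Nat.cast_ne_zero.2 hm0.ne'
      have hcast : ((2 * m - j : ℕ) : ℝ) / (2 * m : ℕ) = 1 - (j : ℝ) / (2 * m : ℕ) := by
        rw [Nat.cast_sub (by omega)]; push_cast; field_simp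
      simp only [D, hset, hcast]
      push_cast
      module
    intro j hj
    have key : ∀ k ≤ m, ∀ w : E, (w = D π (2 * k) ∨ w = -D π (2 * k)) →
        ∃ y ∈ B, ‖(1 / 2 : ℝ) • (w + ∑ i with (π i : ℕ) / 2 < k, s i • z i) - y‖ ≤ r / 2 := by
      intro k hk w hw
      obtain ⟨y, hy, hyr⟩ := hπ (2 * k) (by omega)
      obtain ⟨y', hy', hyr'⟩ : ∃ y' ∈ B, ‖w - y'‖ ≤ r := by
        rcases hw with rfl | rfl
        · exact ⟨y, hy, hyr⟩
        · exact ⟨-y, hB.symm y hy, by rwa [neg_sub_neg, norm_sub_rev]⟩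
      refine ⟨_, hB.convex hy' (hsB k hk) (show (0 : ℝ) ≤ 1 / 2 by norm_num)
        (show (0 : ℝ) ≤ 1 / 2 by norm_num) (by norm_num), ?_⟩
      rw [show ∀ u x : E, (1 / 2 : ℝ) • (w + x) - ((1 / 2 : ℝ) • u + (1 / 2 : ℝ) • x)
        = (1 / 2 : ℝ) • (w - u) from fun u x => by module]
      rw [norm_smul]; norm_num; linarith
    change ∃ y ∈ B, ‖D π' j - y‖ ≤ r / 2
    rcases le_total j m with h | h
    · rw [low j h]; exact key j h _ (Or.inl rfl)
    · obtain ⟨k, hk, rfl⟩ : ∃ k ≤ m, j = 2 * m - k := ⟨2 * m - j, by omega, by omega⟩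
      rw [high k hk]; exact key k hk _ (Or.inr rfl)
  let π0 : ι → Fin (2 * m) := fun _ => ⟨0, by omega⟩
  let r0 : ℝ := ∑ j ∈ Finset.range (2 * m + 1), ‖D π0 j‖
  have hn : ∀ n : ℕ, ∃ π, ∀ j ≤ 2 * m, ∃ y ∈ B, ‖D π j - y‖ ≤ r0 / 2 ^ n := by
    intro n
    induction n with
    | zero =>
      refine ⟨π0, fun j hj => ⟨0, h0, ?_⟩⟩
      simpa using Finset.single_le_sum (f := fun j => ‖D π0 j‖) (fun _ _ => norm_nonneg _)
        (Finset.mem_range.2 (Nat.lt_succ_of_le hj))
    | succ n ih =>
      obtain ⟨π, hπ⟩ := ih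
      obtain ⟨π', hπ'⟩ := step π _ hπ
      exact ⟨π', fun j hj => by simpa [pow_succ, div_div] using hπ' j hj⟩
  by_contra h
  push Not at h
  have hev : ∀ π : ι → Fin (2 * m), ∀ᶠ n : ℕ in Filter.atTop,
      ¬ ∀ j ≤ 2 * m, ∃ y ∈ B, ‖D π j - y‖ ≤ r0 / 2 ^ n := by
    intro π
    obtain ⟨j, hj, hjB⟩ := h π
    obtain ⟨δ, hδ, hball⟩ := Metric.isOpen_iff.1 hB.closed.isOpen_compl _ hjB
    have ht : Filter.Tendsto (fun n : ℕ => r0 / (2 : ℝ) ^ n) Filter.atTop (nhds 0) :=
      tendsto_const_nhds.div_atTop (tendsto_pow_atTop_atTop_of_one_lt one_lt_two)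
    filter_upwards [ht.eventually (gt_mem_nhds hδ)] with n hn' hall
    obtain ⟨y, hy, hyr⟩ := hall j hj
    refine hball (Metric.mem_ball.2 ?_) hy
    rw [dist_comm, dist_eq_norm]
    exact lt_of_le_of_lt hyr hn'
  obtain ⟨n, hn'⟩ := (Filter.eventually_all.2 hev).exists
  obtain ⟨π, hπ⟩ := hn n
  exact hn' π hπ

end Vale.Agent.P262
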