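import Vale.Agent.P262.Const

/-!
Weighted norms of matrices on a set of coordinates, and solving the bias equations.
-/

open Finset

namespace Vale.Agent.P262

variable {d : ℕ}

/-- The rescaled restriction of a matrix to `F × F`. -/
noncomputable def wvec (F : Finset (Fin d)) (q : Fin d → ℝ) (X : Fin d → Fin d → ℝ) :
    EuclideanSpace ℝ (Fin d × Fin d) :=
  WithLp.toLp 2 fun p => if p.1 ∈ F ∧ p.2 ∈ F then
    X p.1 p.2 / (Real.sqrt (q p.1) * Real.sqrt (q p.2)) ^ 3 else 0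

/-- The weighted norm of a matrix on `F × F`. -/
noncomputable def wn (F : Finset (Fin d)) (q : Fin d → ℝ) (X : Fin d → Fin d → ℝ) : ℝ :=
  ‖wvec F q X‖

theorem wn_nonneg (F : Finset (Fin d)) (q : Fin d → ℝ) (X : Fin d → Fin d → ℝ) :
    0 ≤ wn F q X := norm_nonneg _

theorem wn_add_le (F : Finset (Fin d)) (q : Fin d → ℝ) (X Y : Fin d → Fin d → ℝ) :
    wn F q (fun u w => X u w + Y u w) ≤ wn F q X + wn F q Y := by
  refine le_trans (le_of_eq ?_) (norm_add_le (wvec F q X) (wvec F q Y))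
  rw [wn]
  congr 1
  ext p
  simp only [wvec, PiLp.add_apply]
  split_ifs <;> ring

theorem wn_const_mul (F : Finset (Fin d)) (q : Fin d → ℝ) (c : ℝ) (X : Fin d → Fin d → ℝ) :
    wn F q (fun u w => c * X u w) = |c| * wn F q X := by
  rw [wn, wn, ← Real.norm_eq_abs, ← norm_smul]
  congr 1
  ext p
  simp only [wvec, PiLp.smul_apply, smul_eq_mul]
  split_ifs <;> ring

theorem wn_congr {F : Finset (Fin d)} (q : Fin d → ℝ) {X Y : Fin d → Fin d → ℝ}
    (h : ∀ u ∈ F, ∀ w ∈ F, X u w = Y u w) : wn F q X = wn F q Y := by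
  rw [wn, wn]
  congr 1
  ext p
  simp only [wvec]
  split_ifs with hp
  · rw [h p.1 hp.1 p.2 hp.2]
  · rfl

theorem sqrt_mul_sqrt_cube_sq {a b : ℝ} (ha : 0 ≤ a) (hb : 0 ≤ b) :
    ((Real.sqrt a * Real.sqrt b) ^ 3) ^ 2 = a ^ 3 * b ^ 3 := by
  rw [← pow_mul, mul_pow, show (3 * 2 : ℕ) = 2 * 3 from rfl, pow_mul, pow_mul, Real.sq_sqrt ha,
    Real.sq_sqrt hb]

theorem wn_sq (F : Finset (Fin d)) (q : Fin d → ℝ) (hq : ∀ u, 0 ≤ q u)
    (X : Fin d → Fin d → ℝ) :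
    wn F q X ^ 2 = ∑ u ∈ F, ∑ w ∈ F, X u w ^ 2 / (q u ^ 3 * q w ^ 3) := by
  rw [wn, EuclideanSpace.real_norm_sq_eq, ← sum_product']
  rw [show (∑ p ∈ F ×ˢ F, X p.1 p.2 ^ 2 / (q p.1 ^ 3 * q p.2 ^ 3))
    = ∑ p : Fin d × Fin d, if p ∈ F ×ˢ F then X p.1 p.2 ^ 2 / (q p.1 ^ 3 * q p.2 ^ 3) else 0 by
      rw [Fintype.sum_ite_mem]]
  refine sum_congr rfl fun p _ => ?_
  simp only [wvec, mem_product]
  split_ifs
  · rw [div_pow, sqrt_mul_sqrt_cube_sq (hq _) (hq _)]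
  · simp

theorem wn_mono {F F' : Finset (Fin d)} (h : F' ⊆ F) (q : Fin d → ℝ) (hq : ∀ u, 0 ≤ q u)
    (X : Fin d → Fin d → ℝ) : wn F' q X ≤ wn F q X := by
  rw [← pow_le_pow_iff_left₀ (wn_nonneg _ _ _) (wn_nonneg _ _ _) two_ne_zero, wn_sq _ _ hq,
    wn_sq _ _ hq]
  refine (sum_le_sum fun u _ => sum_le_sum_of_subset_of_nonneg h fun w _ _ => ?_).trans
    (sum_le_sum_of_subset_of_nonneg h fun u _ _ => sum_nonneg fun w _ => ?_)
  all_goals
    have := hq u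
    have := hq w
    positivity

theorem wn_scale (F : Finset (Fin d)) (q : Fin d → ℝ) (hq : ∀ u, 0 ≤ q u) {μ : ℝ} (hμ : 0 < μ)
    (X : Fin d → Fin d → ℝ) : wn F (fun u => q u / μ) X = μ ^ 3 * wn F q X := by
  have hq' : ∀ u, 0 ≤ q u / μ := fun u => div_nonneg (hq u) hμ.le
  rw [← pow_left_inj₀ (wn_nonneg _ _ _) (mul_nonneg (pow_nonneg hμ.le _) (wn_nonneg _ _ _))
    two_ne_zero, mul_pow, wn_sq _ _ hq', wn_sq _ _ hq, mul_sum]
  refine sum_congr rfl fun u _ => ?_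
  rw [mul_sum]
  refine sum_congr rfl fun w _ => ?_
  rw [div_pow, div_pow, div_mul_div_comm, div_div_eq_mul_div]
  ring

/-- The weighted bilinear Cauchy-Schwarz bound. -/
theorem abs_form_le_wn (F : Finset (Fin d)) (q : Fin d → ℝ) (hq : ∀ u ∈ F, 1 ≤ q u)
    (hq0 : ∀ u, 0 ≤ q u) (X : Fin d → Fin d → ℝ) (y : Fin d → ℝ) :
    |∑ u ∈ F, ∑ w ∈ F, X u w * y u * y w| ≤ wn F q X * ∑ u ∈ F, q u ^ 4 * y u ^ 2 := by
  have h3 : ∑ u ∈ F, q u ^ 3 * y u ^ 2 ≤ ∑ u ∈ F, q u ^ 4 * y u ^ 2 :=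
    sum_le_sum fun u hu => mul_le_mul_of_nonneg_right
      (pow_le_pow_right₀ (hq u hu) (by norm_num)) (sq_nonneg _)
  refine le_trans ?_ (mul_le_mul_of_nonneg_left h3 (wn_nonneg _ _ _))
  have h0 : 0 ≤ ∑ u ∈ F, q u ^ 3 * y u ^ 2 :=
    sum_nonneg fun u _ => mul_nonneg (pow_nonneg (hq0 u) _) (sq_nonneg _)
  refine abs_le_of_sq_le_sq ?_ (mul_nonneg (wn_nonneg _ _ _) h0)
  rw [mul_pow, wn_sq F q hq0, sq (∑ u ∈ F, q u ^ 3 * y u ^ 2), sum_mul_sum,
    ← sum_product', ← sum_product', ← sum_product']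
  refine sum_sq_le_sum_mul_sum_of_sq_le_mul _ (fun p _ => ?_) (fun p _ => ?_) fun p hp => ?_
  · exact div_nonneg (sq_nonneg _) (mul_nonneg (pow_nonneg (hq0 _) _) (pow_nonneg (hq0 _) _))
  · exact mul_nonneg (mul_nonneg (pow_nonneg (hq0 _) _) (sq_nonneg _))
      (mul_nonneg (pow_nonneg (hq0 _) _) (sq_nonneg _))
  · have h1 := hq p.1 (mem_product.1 hp).1
    have h2 := hq p.2 (mem_product.1 hp).2
    apply le_of_eq
    field_simp

/-- Solving the bias equation for a coercive matrix. -/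
theorem exists_solve (F : Finset (Fin d)) (q : Fin d → ℝ) (hq : ∀ u ∈ F, 1 ≤ q u)
    (H : Fin d → Fin d → ℝ) {k : ℝ} (hk : 0 < k)
    (hH : ∀ y : Fin d → ℝ, k * ∑ u ∈ F, q u ^ 4 * y u ^ 2
      ≤ ∑ u ∈ F, ∑ w ∈ F, H u w * y u * y w) (t : Fin d → ℝ) :
    ∃ y : Fin d → ℝ, (∀ u ∈ F, ∑ w ∈ F, H u w * y w = t u) ∧
      k ^ 2 * ∑ u ∈ F, q u ^ 4 * y u ^ 2 ≤ ∑ u ∈ F, t u ^ 2 / q u ^ 4 := by
  classical
  let L : (F → ℝ) →ₗ[ℝ] (F → ℝ) :=
    { toFun := fun z u => ∑ w : F, H u w * z w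
      map_add' := fun z z' => by ext u; simp [mul_add, sum_add_distrib]
      map_smul' := fun c z => by ext u; simp [mul_sum, mul_left_comm] }
  let ext0 : (F → ℝ) → Fin d → ℝ := fun z u => if h : u ∈ F then z ⟨u, h⟩ else 0
  have hext : ∀ z, ∀ u ∈ F, ∑ w ∈ F, H u w * ext0 z w = ∑ w : F, H u w * z w := by
    intro z u hu
    rw [← sum_coe_sort F]
    refine sum_congr rfl fun w _ => ?_
    simp [ext0, w.2]
  have hinj : Function.Injective L := by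
    rw [← LinearMap.ker_eq_bot, LinearMap.ker_eq_bot']
    intro z hz
    have h1 := hH (ext0 z)
    have h2 : ∑ u ∈ F, ∑ w ∈ F, H u w * ext0 z u * ext0 z w = 0 := by
      refine sum_eq_zero fun u hu => ?_
      have h3 : ∑ w : F, H u w * z w = 0 := congrFun hz ⟨u, hu⟩
      rw [← hext z u hu] at h3
      calc ∑ w ∈ F, H u w * ext0 z u * ext0 z w
          = ext0 z u * ∑ w ∈ F, H u w * ext0 z w := by
            rw [mul_sum]; exact sum_congr rfl fun w _ => by ring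
        _ = 0 := by rw [h3, mul_zero]
    rw [h2] at h1
    have h4 : ∑ u ∈ F, q u ^ 4 * ext0 z u ^ 2 = 0 :=
      le_antisymm (nonpos_of_mul_nonpos_right h1 hk) (sum_nonneg fun u hu =>
        mul_nonneg (pow_nonneg (zero_le_one.trans (hq u hu)) _) (sq_nonneg _))
    ext u
    have h5 := (sum_eq_zero_iff_of_nonneg fun u hu =>
      mul_nonneg (pow_nonneg (zero_le_one.trans (hq u hu)) _) (sq_nonneg _)).1 h4 u u.2
    rcases mul_eq_zero.1 h5 with h | h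
    · exact absurd (pow_eq_zero_iff (four_ne_zero) |>.1 h) (by linarith [hq u u.2])
    · simpa [ext0, u.2] using pow_eq_zero_iff two_ne_zero |>.1 h
  obtain ⟨z, hz⟩ := (LinearMap.injective_iff_surjective.1 hinj) (fun u : F => t u)
  refine ⟨ext0 z, fun u hu => (hext z u hu).trans (congrFun hz ⟨u, hu⟩), ?_⟩
  set y := ext0 z with hy
  have hsol : ∀ u ∈ F, ∑ w ∈ F, H u w * y w = t u :=
    fun u hu => (hext z u hu).trans (congrFun hz ⟨u, hu⟩)
  have h1 := hH y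
  have h2 : ∑ u ∈ F, ∑ w ∈ F, H u w * y u * y w = ∑ u ∈ F, t u * y u := by
    refine sum_congr rfl fun u hu => ?_
    rw [← hsol u hu, sum_mul]
    exact sum_congr rfl fun w _ => by ring
  rw [h2] at h1
  set P := ∑ u ∈ F, q u ^ 4 * y u ^ 2
  set Q := ∑ u ∈ F, t u ^ 2 / q u ^ 4
  have hP : 0 ≤ P := sum_nonneg fun u hu =>
    mul_nonneg (pow_nonneg (zero_le_one.trans (hq u hu)) _) (sq_nonneg _)
  have hcs : (∑ u ∈ F, t u * y u) ^ 2 ≤ Q * P :=
    sum_sq_le_sum_mul_sum_of_sq_le_mul F (fun u _ => by positivity)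
      (fun u hu => mul_nonneg (pow_nonneg (zero_le_one.trans (hq u hu)) _) (sq_nonneg _))
      fun u hu => by
        have : q u ≠ 0 := by linarith [hq u hu]
        apply le_of_eq
        field_simp
  rcases eq_or_lt_of_le hP with h | h
  · rw [← h, mul_zero]; exact sum_nonneg fun u _ => by positivity
  · have h5 : (k * P) ^ 2 ≤ Q * P := (pow_le_pow_left₀ (by positivity) h1 2).trans hcs
    refine le_of_mul_le_mul_right ?_ h
    linarith

/-- A matrix with entries bounded by `c` has small weighted norm. -/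
theorem wn_le_of_abs_le (F : Finset (Fin d)) (q : Fin d → ℝ) (hq : ∀ u, 0 ≤ q u)
    (X : Fin d → Fin d → ℝ) (f : Fin d → ℝ)
    (h : ∀ u ∈ F, ∀ w ∈ F, X u w ^ 2 ≤ f u * f w) :
    wn F q X ^ 2 ≤ (∑ u ∈ F, f u / q u ^ 3) ^ 2 := by
  rw [wn_sq F q hq, sq, sum_mul_sum]
  refine sum_le_sum fun u hu => sum_le_sum fun w hw => ?_
  rw [div_mul_div_comm]
  exact div_le_div_of_nonneg_right (h u hu w hw)
    (mul_nonneg (pow_nonneg (hq u) _) (pow_nonneg (hq w) _))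

end Vale.Agent.P262
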