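import Vale.Agent.P262.Schedule
import Vale.Agent.P262.Tail
import Vale.Agent.P262.Linear
import Vale.Agent.P262.Balance

/-!
The lifted vectors and the bodies used for one step of the partition.
-/

open MeasureTheory ProbabilityTheory Finset RealInnerProductSpace

namespace Vale.Agent.P262

variable {ι : Type*} [Fintype ι] {d : ℕ} (v : ι → Fin d → ℝ)

/-- The diagonal of the second-moment matrix. -/
def mom (u : Fin d) : ℝ := ∑ k, v k u ^ 2

theorem mom_nonneg (u : Fin d) : 0 ≤ mom v u := sum_nonneg fun _ _ => sq_nonneg _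

/-- The second-moment matrix of a subfamily. -/
def Gm (A : Finset ι) (u w : Fin d) : ℝ := ∑ k ∈ A, v k u * v k w

/-- Energy of a vector on the old coordinates. -/
noncomputable def fold (i : ℕ) (k : ι) : ℝ :=
  ∑ u ∈ (Fs (mom v) i)ᶜ, v k u ^ 2 / qq (mom v) i u

/-- Energy of a vector on the coordinates born in step `i`. -/
noncomputable def fborn (i : ℕ) (k : ι) : ℝ :=
  ∑ u ∈ born (mom v) i, v k u ^ 2 / qq (mom v) (i + 1) u

/-- Old-coordinate energy of a subfamily. -/
noncomputable def Xi (A : Finset ι) (i : ℕ) : ℝ := ∑ k ∈ A, fold v i k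

/-- Threshold for the old-coordinate energy of one vector. -/
noncomputable def tau (A : Finset ι) (i : ℕ) : ℝ := eta * Xi v A i / 2 ^ wid (mom v) i

/-- Vectors removed in step `i`. -/
def IsBig (A : Finset ι) (i : ℕ) (k : ι) : Prop :=
  tau v A i < fold v i k ∨ 1 < fborn v i k * Real.sqrt (wid (mom v) i)

open Classical in
/-- The scalar features of a vector. -/
noncomputable def feat (A : Finset ι) (i : ℕ) (k : ι) : Fin 4 → ℝ :=
  ![if IsBig v A i k then 0 else fold v i k / tau v A i,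
    if IsBig v A i k then 0 else fborn v i k * Real.sqrt (wid (mom v) i),
    if IsBig v A i k then 1 else 0,
    fborn v (i + 1) k / theta ^ wid (mom v) (i + 1)]

/-- The deviation of the vector sum. -/
def ev (A : Finset ι) (x : ι → ℝ) (u : Fin d) : ℝ := ∑ k ∈ A, x k * v k u

/-- The deviation of a scalar feature. -/
noncomputable def sv (A : Finset ι) (i : ℕ) (x : ι → ℝ) (j : Fin 4) : ℝ :=
  ∑ k ∈ A, x k * feat v A i k j

/-- The deviation of the second-moment matrix. -/
def Zm (A : Finset ι) (x : ι → ℝ) (u w : Fin d) : ℝ := ∑ k ∈ A, x k * (v k u * v k w)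

/-- The conditions on the deviations in step `i`. -/
def Cond (N i : ℕ) (A : Finset ι) (e e' : Fin d → ℝ) (s : Fin 4 → ℝ)
    (Z : Fin d → Fin d → ℝ) : Prop :=
  (∑ u ∈ (Fs (mom v) i)ᶜ, e' u ^ 2 / qq (mom v) i u ≤ K2 * wid (mom v) i * Xi v A i) ∧
  (∀ j, |s j| ≤ K3 * Real.sqrt (wid (mom v) i)) ∧
  (∑ u ∈ Fs (mom v) (i + 2), ∑ w ∈ Fs (mom v) (i + 2),
      Z u w ^ 2 / (qq (mom v) (i + 1) u ^ 3 * qq (mom v) (i + 1) w ^ 3) ≤ eps) ∧
  (∀ n ∈ Ioc i N, ∑ u ∈ Fs (mom v) i, excess (cth (mom v) n u) (e u)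
      ≤ K5 * ((Bud (mom v) n : ℝ) - Bud (mom v) i)) ∧
  (∑ u ∈ Fs (mom v) (i + 1), excess (qq (mom v) (i + 1) u) (e u) ≤ K7 * wid (mom v) i)

/-- A good coefficient vector for step `i`. -/
def Good (N i : ℕ) (A : Finset ι) (x : ι → ℝ) : Prop :=
  Cond v N i A (ev v A x) (ev v A x) (sv v A i x) (Zm v A x)

/-- The additional conditions for the two extreme parts. -/
def CondPeel (i : ℕ) (e : Fin d → ℝ) (Z : Fin d → Fin d → ℝ) : Prop :=
  (∑ u ∈ Fs (mom v) (i + 1), ∑ w ∈ Fs (mom v) (i + 1),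
      Z u w ^ 2 / (qq (mom v) i u ^ 3 * qq (mom v) i w ^ 3) ≤ eps) ∧
  (∀ u ∈ Fs (mom v) (i + 1), 16 * |e u| ≤ qq (mom v) (i + 1) u / 4)

/-- The index type of the lifted space. -/
abbrev LiftIdx (ι : Type*) (d : ℕ) : Type _ := (Fin d ⊕ ι) ⊕ (Fin 4 ⊕ Fin d × Fin d)

open Classical in
/-- The lifted vector. -/
noncomputable def lift (A : Finset ι) (i : ℕ) (k : ι) : EuclideanSpace ℝ (LiftIdx ι d) :=
  WithLp.toLp 2 (fun c => sc * Sum.elim
    (Sum.elim (v k) (fun k' => if k' = k then 1 else 0))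
    (Sum.elim (feat v A i k) (fun p => v k p.1 * v k p.2)) c)

/-- The vector part of a point of the lifted space. -/
noncomputable def pe (y : EuclideanSpace ℝ (LiftIdx ι d)) (u : Fin d) : ℝ :=
  y (.inl (.inl u)) / sc

/-- The vector part read from the coefficient block. -/
noncomputable def pe' (A : Finset ι) (y : EuclideanSpace ℝ (LiftIdx ι d)) (u : Fin d) : ℝ :=
  ∑ k ∈ A, y (.inl (.inr k)) / sc * v k u

/-- The scalar part of a point of the lifted space. -/
noncomputable def ps (y : EuclideanSpace ℝ (LiftIdx ι d)) (j : Fin 4) : ℝ :=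
  y (.inr (.inl j)) / sc

/-- The matrix part of a point of the lifted space. -/
noncomputable def pz (y : EuclideanSpace ℝ (LiftIdx ι d)) (u w : Fin d) : ℝ :=
  y (.inr (.inr (u, w))) / sc

/-- The body for one step. -/
def stepBody (N i : ℕ) (A : Finset ι) : Set (EuclideanSpace ℝ (LiftIdx ι d)) :=
  {y | Cond v N i A (pe y) (pe' v A y) (ps y) (pz y)}

/-- The additional body for the two extreme parts. -/
def peelBody (i : ℕ) : Set (EuclideanSpace ℝ (LiftIdx ι d)) :=
  {y | CondPeel v i (pe y) (pz y)}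

/-! ### Convexity -/

section Convexity

variable {E : Type*} [NormedAddCommGroup E] [InnerProductSpace ℝ E]

theorem isBody_quad {σ : Type*} (S : Finset σ) (L : σ → E → ℝ)
    (hc : ∀ k, Continuous (L k)) (hl : ∀ k (a b : ℝ) x y, L k (a • x + b • y) = a * L k x + b * L k y)
    (w : σ → ℝ) (hw : ∀ k ∈ S, 0 ≤ w k) (c : ℝ) :
    IsBody {x : E | ∑ k ∈ S, L k x ^ 2 / w k ≤ c} := by
  refine ⟨isClosed_le (by fun_prop) continuous_const, ?_, ?_⟩
  · intro x hx y hy a b ha hb hab
    simp only [Set.mem_ofPred_eq] at hx hy ⊢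
    calc ∑ k ∈ S, L k (a • x + b • y) ^ 2 / w k
        ≤ ∑ k ∈ S, (a * (L k x ^ 2 / w k) + b * (L k y ^ 2 / w k)) := by
          refine sum_le_sum fun k hk => ?_
          rw [hl, ← mul_div_assoc, ← mul_div_assoc, ← add_div]
          refine div_le_div_of_nonneg_right ?_ (hw k hk)
          obtain rfl : b = 1 - a := by linarith
          nlinarith [mul_nonneg (mul_nonneg ha hb) (sq_nonneg (L k x - L k y))]
      _ = a * ∑ k ∈ S, L k x ^ 2 / w k + b * ∑ k ∈ S, L k y ^ 2 / w k := by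
          rw [sum_add_distrib, ← mul_sum, ← mul_sum]
      _ ≤ a * c + b * c := by gcongr
      _ = c := by rw [← add_mul, hab, one_mul]
  · intro x hx
    have hneg : ∀ k, L k (-x) = -L k x := fun k => by
      have := hl k (-1) 0 x x
      simpa using this
    simpa [hneg] using hx

theorem isBody_excess {σ : Type*} (S : Finset σ) (L : σ → E → ℝ)
    (hc : ∀ k, Continuous (L k)) (hl : ∀ k (a b : ℝ) x y, L k (a • x + b • y) = a * L k x + b * L k y)
    (t : σ → ℝ) (c : ℝ) :
    IsBody {x : E | ∑ k ∈ S, excess (t k) (L k x) ≤ c} := by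
  refine ⟨isClosed_le (by unfold excess; fun_prop) continuous_const, ?_, ?_⟩
  · intro x hx y hy a b ha hb hab
    simp only [Set.mem_ofPred_eq] at hx hy ⊢
    calc ∑ k ∈ S, excess (t k) (L k (a • x + b • y))
        ≤ ∑ k ∈ S, (a * excess (t k) (L k x) + b * excess (t k) (L k y)) := by
          refine sum_le_sum fun k _ => ?_
          unfold excess
          rw [hl]
          set p := max (16 * |L k x| - t k) 0
          set r := max (16 * |L k y| - t k) 0
          have h1 : max (16 * |a * L k x + b * L k y| - t k) 0 ≤ a * p + b * r := by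
            refine max_le ?_ (by positivity)
            have h2 : |a * L k x + b * L k y| ≤ a * |L k x| + b * |L k y| := by
              refine (abs_add_le _ _).trans ?_
              rw [abs_mul, abs_mul, abs_of_nonneg ha, abs_of_nonneg hb]
            have h3 := mul_le_mul_of_nonneg_left (le_max_left (16 * |L k x| - t k) 0) ha
            have h4 := mul_le_mul_of_nonneg_left (le_max_left (16 * |L k y| - t k) 0) hb
            have h5 : t k = a * t k + b * t k := by rw [← add_mul, hab, one_mul]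
            linarith
          refine (pow_le_pow_left₀ (le_max_right _ _) h1 2).trans ?_
          obtain rfl : b = 1 - a := by linarith
          nlinarith [mul_nonneg (mul_nonneg ha hb) (sq_nonneg (p - r))]
      _ = a * ∑ k ∈ S, excess (t k) (L k x) + b * ∑ k ∈ S, excess (t k) (L k y) := by
          rw [sum_add_distrib, ← mul_sum, ← mul_sum]
      _ ≤ a * c + b * c := by gcongr
      _ = c := by rw [← add_mul, hab, one_mul]
  · intro x hx
    have hneg : ∀ k, L k (-x) = -L k x := fun k => by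
      have := hl k (-1) 0 x x
      simpa using this
    simpa [hneg, excess] using hx

theorem isBody_abs {σ : Type*} (S : Finset σ) (L : σ → E → ℝ)
    (hc : ∀ k, Continuous (L k)) (hl : ∀ k (a b : ℝ) x y, L k (a • x + b • y) = a * L k x + b * L k y)
    (t : σ → ℝ) : IsBody {x : E | ∀ k ∈ S, |L k x| ≤ t k} := by
  refine ⟨?_, ?_, ?_⟩
  · simp only [Set.ofPred_forall]
    exact isClosed_iInter fun k => isClosed_iInter fun _ =>
      isClosed_le (by fun_prop) continuous_const
  · intro x hx y hy a b ha hb hab k hk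
    rw [hl]
    refine (abs_add_le _ _).trans ?_
    rw [abs_mul, abs_mul, abs_of_nonneg ha, abs_of_nonneg hb]
    calc a * |L k x| + b * |L k y| ≤ a * t k + b * t k := by
          gcongr
          · exact hx k hk
          · exact hy k hk
      _ = t k := by rw [← add_mul, hab, one_mul]
  · intro x hx k hk
    have hneg : L k (-x) = -L k x := by
      have := hl k (-1) 0 x x
      simpa using this
    rw [hneg, abs_neg]
    exact hx k hk

end Convexity

theorem isBody_stepBody (N i : ℕ) (A : Finset ι) : IsBody (stepBody v N i A) := by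
  have h1 := isBody_quad (E := EuclideanSpace ℝ (LiftIdx ι d)) (Fs (mom v) i)ᶜ
    (fun u y => pe' v A y u) (fun u => by unfold pe'; fun_prop)
    (fun u a b x y => by
      simp only [pe', PiLp.add_apply, PiLp.smul_apply, smul_eq_mul, mul_sum, ← sum_add_distrib]
      exact sum_congr rfl fun k _ => by ring)
    (fun u => qq (mom v) i u) (fun u _ => qq_nonneg _ _ _) (K2 * wid (mom v) i * Xi v A i)
  have h2 := isBody_abs (E := EuclideanSpace ℝ (LiftIdx ι d)) (univ : Finset (Fin 4))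
    (fun j y => ps y j) (fun j => by unfold ps; fun_prop)
    (fun j a b x y => by simp [ps, add_div, mul_div_assoc])
    (fun _ => K3 * Real.sqrt (wid (mom v) i))
  have h3 := isBody_quad (E := EuclideanSpace ℝ (LiftIdx ι d))
    (Fs (mom v) (i + 2) ×ˢ Fs (mom v) (i + 2))
    (fun p y => pz y p.1 p.2) (fun j => by unfold pz; fun_prop)
    (fun j a b x y => by simp [pz, add_div, mul_div_assoc])
    (fun p => qq (mom v) (i + 1) p.1 ^ 3 * qq (mom v) (i + 1) p.2 ^ 3)
    (fun p _ => mul_nonneg (pow_nonneg (qq_nonneg _ _ _) _) (pow_nonneg (qq_nonneg _ _ _) _)) eps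
  have h4 : ∀ n : ℕ, IsBody {y : EuclideanSpace ℝ (LiftIdx ι d) |
      ∑ u ∈ Fs (mom v) i, excess (cth (mom v) n u) (pe y u)
        ≤ K5 * ((Bud (mom v) n : ℝ) - Bud (mom v) i)} := fun n =>
    isBody_excess _ (fun u y => pe y u) (fun j => by unfold pe; fun_prop)
      (fun j a b x y => by simp [pe, add_div, mul_div_assoc]) _ _
  have h5 := isBody_excess (E := EuclideanSpace ℝ (LiftIdx ι d)) (Fs (mom v) (i + 1))
    (fun u y => pe y u) (fun j => by unfold pe; fun_prop)
    (fun j a b x y => by simp [pe, add_div, mul_div_assoc])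
    (fun u => qq (mom v) (i + 1) u) (K7 * wid (mom v) i)
  have h4' : IsBody (⋂ n ∈ Ioc i N, {y : EuclideanSpace ℝ (LiftIdx ι d) |
      ∑ u ∈ Fs (mom v) i, excess (cth (mom v) n u) (pe y u)
        ≤ K5 * ((Bud (mom v) n : ℝ) - Bud (mom v) i)}) :=
    ⟨isClosed_biInter fun n _ => (h4 n).closed, convex_iInter₂ fun n _ => (h4 n).convex,
      fun x hx => Set.mem_iInter₂.2 fun n hn => (h4 n).symm x (Set.mem_iInter₂.1 hx n hn)⟩
  convert h1.inter (h2.inter (h3.inter (h4'.inter h5))) using 1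
  ext y
  simp only [stepBody, Cond, Set.mem_ofPred_eq, Set.mem_inter_iff, Set.mem_iInter, mem_univ,
    forall_const, sum_product]

theorem isBody_peelBody (i : ℕ) : IsBody (peelBody (ι := ι) v i) := by
  have h3 := isBody_quad (E := EuclideanSpace ℝ (LiftIdx ι d))
    (Fs (mom v) (i + 1) ×ˢ Fs (mom v) (i + 1))
    (fun p y => pz y p.1 p.2) (fun j => by unfold pz; fun_prop)
    (fun j a b x y => by simp [pz, add_div, mul_div_assoc])
    (fun p => qq (mom v) i p.1 ^ 3 * qq (mom v) i p.2 ^ 3)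
    (fun p _ => mul_nonneg (pow_nonneg (qq_nonneg _ _ _) _) (pow_nonneg (qq_nonneg _ _ _) _)) eps
  have h2 := isBody_abs (E := EuclideanSpace ℝ (LiftIdx ι d)) (Fs (mom v) (i + 1))
    (fun u y => 16 * pe y u) (fun j => by unfold pe; fun_prop)
    (fun j a b x y => by simp [pe]; ring)
    (fun u => qq (mom v) (i + 1) u / 4)
  convert h3.inter h2 using 1
  ext y
  simp only [peelBody, CondPeel, Set.mem_ofPred_eq, Set.mem_inter_iff, sum_product, abs_mul,
    Nat.abs_ofNat]

/-! ### Measures -/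

theorem sum_exp_kap_le {g : Fin d → ℝ} (m : ℕ) :
    ∑ u ∈ Fs g (m + 1), Real.exp (-(kap * qq g (m + 1) u ^ 2)) ≤ eps / kap := by
  have hk : 0 < kap := by norm_num [kap, sc]
  rw [le_div_iff₀ hk, sum_mul]
  refine (sum_le_sum fun u hu => ?_).trans (sum_inv_qq_le g m)
  have h1 := (mem_Fs_succ g).1 hu
  have h2 := Real.add_one_le_exp (kap * qq g (m + 1) u ^ 2)
  have h3 : kap * qq g (m + 1) u ≤ Real.exp (kap * qq g (m + 1) u ^ 2) := by
    nlinarith [mul_le_mul_of_nonneg_left (le_self_pow₀ h1 two_ne_zero) hk.le]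
  rw [Real.exp_neg, inv_mul_eq_div, div_le_iff₀ (Real.exp_pos _), inv_mul_eq_div,
    le_div_iff₀ (by linarith)]
  exact h3

theorem exp_neg_le_small {x : ℝ} (hx : 16 ≤ x) : Real.exp (-x) ≤ 1 / 10 ^ 6 := by
  refine (Real.exp_le_exp.2 (neg_le_neg hx)).trans ?_
  rw [Real.exp_neg, one_div]
  refine inv_anti₀ (by norm_num) ?_
  rw [show (16 : ℝ) = ((16 : ℕ) : ℝ) * 1 by norm_num, Real.exp_nat_mul]
  refine le_trans ?_ (pow_le_pow_left₀ (by norm_num)
    (le_trans (by norm_num) Real.exp_one_gt_d9.le : (2.7 : ℝ) ≤ Real.exp 1) 16)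
  norm_num

theorem exp_neg_le_small_mul {x W : ℝ} (h : W + 16 ≤ x) :
    Real.exp (-x) ≤ Real.exp (-W) / 10 ^ 6 := by
  have h1 := exp_neg_le_small (x := x - W) (by linarith)
  calc Real.exp (-x) = Real.exp (-W) * Real.exp (-(x - W)) := by rw [← Real.exp_add]; ring_nf
    _ ≤ Real.exp (-W) * (1 / 10 ^ 6) := mul_le_mul_of_nonneg_left h1 (Real.exp_pos _).le
    _ = _ := by ring

theorem sqrt_two_le : Real.sqrt 2 ≤ 3 / 2 :=
  Real.sqrt_le_iff.2 ⟨by norm_num, by norm_num⟩

theorem two_pow_mul_exp_le (W : ℕ) : (2 : ℝ) ^ W * Real.exp (-(W : ℝ)) ≤ 1 := by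
  rw [Real.exp_neg, mul_inv_le_iff₀ (Real.exp_pos _), one_mul,
    show ((W : ℝ)) = (W : ℝ) * 1 by ring, Real.exp_nat_mul]
  exact pow_le_pow_left₀ (by norm_num) (le_trans (by norm_num) Real.exp_one_gt_d9.le) W

theorem sqrt_two_mul_exp_le {x W : ℝ} (h : W + 16 ≤ x) :
    Real.sqrt 2 * Real.exp (-x) ≤ 2 * Real.exp (-W) / 10 ^ 6 := by
  rw [mul_div_assoc]
  exact mul_le_mul (sqrt_two_le.trans (by norm_num)) (exp_neg_le_small_mul h)
    (Real.exp_pos _).le (by norm_num)

/-- The coordinates of the vector part inside the lifted index type. -/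
def coordEmb (ι : Type*) (d : ℕ) : Fin d ↪ LiftIdx ι d :=
  ⟨fun u => .inl (.inl u), fun a b h => by simpa using h⟩

@[simp] theorem coordEmb_apply {ι : Type*} {d : ℕ} (u : Fin d) :
    coordEmb ι d u = .inl (.inl u) := rfl

theorem measure_quad_part (i : ℕ) (A : Finset ι) :
    stdGaussian (EuclideanSpace ℝ (LiftIdx ι d))
      {y | K2 * wid (mom v) i * Xi v A i < ∑ u ∈ (Fs (mom v) i)ᶜ, pe' v A y u ^ 2 / qq (mom v) i u}
      ≤ ENNReal.ofReal (2 * Real.exp (-(wid (mom v) i : ℝ)) / 10 ^ 6) := by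
  classical
  let a : Fin d → EuclideanSpace ℝ (LiftIdx ι d) := fun u =>
    WithLp.toLp 2 (Sum.elim (Sum.elim 0
      (fun k => if k ∈ A then v k u / (sc * Real.sqrt (qq (mom v) i u)) else 0)) 0)
  have hsum : ∑ u ∈ (Fs (mom v) i)ᶜ, ‖a u‖ ^ 2 = Xi v A i / sc ^ 2 := by
    simp only [a, EuclideanSpace.real_norm_sq_eq, Fintype.sum_sum_type, Sum.elim_inl,
      Sum.elim_inr, Pi.zero_apply, zero_pow two_ne_zero, sum_const_zero, zero_add, add_zero,
      ite_pow, Fintype.sum_ite_mem]
    rw [sum_comm, Xi, sum_div]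
    refine sum_congr rfl fun k _ => ?_
    rw [fold, sum_div]
    refine sum_congr rfl fun u _ => ?_
    rw [div_pow, mul_pow, Real.sq_sqrt (qq_nonneg _ _ _), div_div, mul_comm (sc ^ 2)]
  have hin : ∀ y u, ⟪a u, y⟫ ^ 2 = pe' v A y u ^ 2 / qq (mom v) i u := by
    intro y u
    have : ⟪a u, y⟫ = pe' v A y u / Real.sqrt (qq (mom v) i u) := by
      simp only [a, PiLp.inner_apply, RCLike.inner_apply, conj_trivial, Fintype.sum_sum_type,
        Sum.elim_inl, Sum.elim_inr, Pi.zero_apply, mul_zero, sum_const_zero, zero_add, add_zero,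
        mul_ite, Fintype.sum_ite_mem, pe', sum_div]
      exact sum_congr rfl fun k _ => by ring
    rw [this, div_pow, Real.sq_sqrt (qq_nonneg _ _ _)]
  have hXi : 0 ≤ Xi v A i :=
    sum_nonneg fun k _ => sum_nonneg fun u _ => div_nonneg (sq_nonneg _) (qq_nonneg _ _ _)
  simp only [← hin]
  rcases eq_or_lt_of_le hXi with h | h
  · rw [← h] at hsum
    have hz : ∀ u ∈ (Fs (mom v) i)ᶜ, a u = 0 := fun u hu => by
      exact norm_eq_zero.1 ((pow_eq_zero_iff two_ne_zero).1
        ((sum_eq_zero_iff_of_nonneg fun u _ => sq_nonneg ‖a u‖).1 (by simpa using hsum) u hu))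
    refine (measure_mono (t := ∅) ?_).trans (by simp)
    intro y hy
    simp only [Set.mem_ofPred_eq, ← h, mul_zero] at hy
    rw [sum_eq_zero fun u hu => by simp [hz u hu]] at hy
    exact absurd hy (lt_irrefl _)
  · refine (quad_tail _ a (by have := sc_pos; positivity) hsum.le _).trans
      (ENNReal.ofReal_le_ofReal ?_)
    have hW : (2 : ℝ) ≤ wid (mom v) i := by exact_mod_cast two_le_wid _ i
    have h1 : -(K2 * wid (mom v) i * Xi v A i) / (4 * (Xi v A i / sc ^ 2))
        = -(K2 * sc ^ 2 / 4 * wid (mom v) i) := by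
      field_simp
    rw [h1]
    exact sqrt_two_mul_exp_le (by norm_num [K2, sc]; linarith)

theorem measure_scalar_part (i : ℕ) (j : Fin 4) :
    stdGaussian (EuclideanSpace ℝ (LiftIdx ι d))
      {y | K3 * Real.sqrt (wid (mom v) i) < |ps y j|}
      ≤ ENNReal.ofReal (2 * Real.exp (-(wid (mom v) i : ℝ)) / 10 ^ 6) := by
  classical
  have h := quad_tail (E := EuclideanSpace ℝ (LiftIdx ι d)) {j}
    (fun j => EuclideanSpace.single (.inr (.inl j)) (1 : ℝ)) one_pos (by simp)
    ((K3 * sc) ^ 2 * wid (mom v) i)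
  refine (measure_mono ?_).trans (h.trans (ENNReal.ofReal_le_ofReal ?_))
  · intro y hy
    simp only [Set.mem_ofPred_eq, sum_singleton, EuclideanSpace.inner_single_left, map_one,
      one_mul, ps, abs_div, abs_of_pos sc_pos, lt_div_iff₀ sc_pos] at hy ⊢
    rw [← sq_abs (y _)]
    refine lt_of_eq_of_lt ?_ (pow_lt_pow_left₀ hy (by
      have := sc_pos
      have : (0 : ℝ) ≤ K3 := by norm_num [K3]
      positivity) two_ne_zero)
    rw [show K3 * Real.sqrt (wid (mom v) i) * sc = K3 * sc * Real.sqrt (wid (mom v) i) by ring,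
      mul_pow _ (Real.sqrt _), Real.sq_sqrt (Nat.cast_nonneg _)]
  · have hW : (2 : ℝ) ≤ wid (mom v) i := by exact_mod_cast two_le_wid _ i
    rw [neg_div]
    exact sqrt_two_mul_exp_le (by norm_num [K3, sc]; linarith)

theorem measure_matrix_tail (F : Finset (Fin d)) (q : Fin d → ℝ) (hq : ∀ u, 0 ≤ q u) {T : ℝ}
    (hT : 0 < T) (h : (∑ u ∈ F, 1 / q u ^ 3) ^ 2 ≤ T) (X : ℝ) :
    stdGaussian (EuclideanSpace ℝ (LiftIdx ι d))
      {y | X < ∑ u ∈ F, ∑ w ∈ F, pz y u w ^ 2 / (q u ^ 3 * q w ^ 3)}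
      ≤ ENNReal.ofReal (Real.sqrt 2 * Real.exp (-(X * sc ^ 2 / (4 * T)))) := by
  classical
  let a : Fin d × Fin d → EuclideanSpace ℝ (LiftIdx ι d) := fun p =>
    EuclideanSpace.single (.inr (.inr p)) (1 / (sc * Real.sqrt (q p.1 ^ 3 * q p.2 ^ 3)))
  have hnn : ∀ p : Fin d × Fin d, 0 ≤ q p.1 ^ 3 * q p.2 ^ 3 := fun p =>
    mul_nonneg (pow_nonneg (hq _) _) (pow_nonneg (hq _) _)
  have hsum : ∑ p ∈ F ×ˢ F, ‖a p‖ ^ 2 ≤ T / sc ^ 2 := by
    refine le_trans (le_of_eq ?_) (div_le_div_of_nonneg_right h (sq_nonneg _))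
    rw [sq (∑ u ∈ F, 1 / q u ^ 3), sum_mul_sum, ← sum_product', sum_div]
    refine sum_congr rfl fun p _ => ?_
    simp only [a, PiLp.norm_single, Real.norm_eq_abs, sq_abs]
    rw [div_pow, mul_pow, Real.sq_sqrt (hnn p), div_mul_div_comm, one_pow, mul_one, div_div,
      mul_comm (sc ^ 2)]
  have h1 := quad_tail (F ×ˢ F) a (by have := sc_pos; positivity) hsum X
  refine (measure_mono ?_).trans (h1.trans (ENNReal.ofReal_le_ofReal (le_of_eq ?_)))
  · intro y hy
    simp only [Set.mem_ofPred_eq] at hy ⊢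
    refine lt_of_lt_of_eq hy ?_
    rw [← sum_product']
    refine sum_congr rfl fun p _ => ?_
    simp only [a, EuclideanSpace.inner_single_left, conj_trivial, pz, Prod.mk.eta]
    rw [div_pow, mul_pow, div_pow, one_pow, mul_pow, Real.sq_sqrt (hnn p)]
    field_simp
  · congr 2
    field_simp

theorem sum_inv_cube_le (g : Fin d → ℝ) (m : ℕ) :
    ∑ u ∈ Fs g (m + 1), 1 / qq g (m + 1) u ^ 3 ≤ eps ^ 3 := by
  calc ∑ u ∈ Fs g (m + 1), 1 / qq g (m + 1) u ^ 3
      ≤ ∑ u ∈ Fs g (m + 1), eps ^ 2 * (qq g (m + 1) u)⁻¹ := by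
        refine sum_le_sum fun u hu => ?_
        have h1 := (mem_Fs_succ g).1 hu
        have h2 : 0 ≤ (qq g (m + 1) u)⁻¹ := by positivity
        rw [one_div, ← inv_pow, pow_succ]
        exact mul_le_mul_of_nonneg_right (pow_le_pow_left₀ h2 (inv_qq_le_eps g hu) 2) h2
    _ = eps ^ 2 * ∑ u ∈ Fs g (m + 1), (qq g (m + 1) u)⁻¹ := by rw [mul_sum]
    _ ≤ eps ^ 2 * eps := mul_le_mul_of_nonneg_left (sum_inv_qq_le g m) (sq_nonneg _)
    _ = eps ^ 3 := by ring

theorem sum_inv_cube_prev_le (g : Fin d → ℝ) (m : ℕ) :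
    ∑ u ∈ Fs g (m + 1), 1 / qq g m u ^ 3 ≤ eps ^ 3 / (theta ^ wid g m) ^ 3 := by
  refine le_trans (le_of_eq ?_)
    (div_le_div_of_nonneg_right (sum_inv_cube_le g m) (by have := theta_pos; positivity))
  rw [sum_div]
  refine sum_congr rfl fun u _ => ?_
  have := theta_pos
  rw [qq_succ, div_pow, one_div_div, div_div, mul_comm, ← div_div, div_self (by positivity)]

theorem measure_matrix_part (i : ℕ) :
    stdGaussian (EuclideanSpace ℝ (LiftIdx ι d))
      {y | eps < ∑ u ∈ Fs (mom v) (i + 2), ∑ w ∈ Fs (mom v) (i + 2),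
        pz y u w ^ 2 / (qq (mom v) (i + 1) u ^ 3 * qq (mom v) (i + 1) w ^ 3)}
      ≤ ENNReal.ofReal (2 * Real.exp (-(wid (mom v) i : ℝ)) / 10 ^ 6) := by
  have hth := theta_pos
  have heps := eps_pos
  set W' := wid (mom v) (i + 1) with hW'
  have hT : 0 < eps ^ 6 / 2 ^ W' := by positivity
  have hsum : (∑ u ∈ Fs (mom v) (i + 2), 1 / qq (mom v) (i + 1) u ^ 3) ^ 2
      ≤ eps ^ 6 / 2 ^ W' := by
    have h := sum_inv_cube_prev_le (mom v) (i + 1)
    refine (pow_le_pow_left₀ (sum_nonneg fun u _ => by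
      have := qq_nonneg (mom v) (i + 1) u; positivity) h 2).trans ?_
    rw [div_pow, ← pow_mul, ← hW']
    refine div_le_div_of_nonneg_left (by positivity) (by positivity) ?_
    rw [← theta_pow_four, ← pow_mul, ← pow_mul, ← pow_mul]
    exact pow_le_pow_right₀ one_lt_theta.le (by omega)
  refine (measure_matrix_tail _ _ (fun u => qq_nonneg _ _ u) hT hsum _).trans
    (ENNReal.ofReal_le_ofReal ?_)
  refine sqrt_two_mul_exp_le ?_
  have h16 : (wid (mom v) i : ℝ) ≤ 16 * 2 ^ W' := by exact_mod_cast wid_le_sixteen (mom v) i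
  have hW : (2 : ℝ) ≤ wid (mom v) i := by exact_mod_cast two_le_wid _ i
  rw [mul_div_assoc', div_div_eq_mul_div, le_div_iff₀ (by positivity)]
  have h2 : ((wid (mom v) i : ℝ) + 16) * (4 * eps ^ 6) ≤ (9 * (16 * 2 ^ W')) * (4 * eps ^ 6) :=
    mul_le_mul_of_nonneg_right (by linarith) (by positivity)
  refine h2.trans ?_
  have h3 : 9 * 16 * 4 * eps ^ 6 ≤ eps * sc ^ 2 := by norm_num [eps, sc]
  nlinarith [mul_le_mul_of_nonneg_right h3 (pow_nonneg (zero_le_two (α := ℝ)) W')]

theorem excess_anti {c c' : ℝ} (h : c' ≤ c) (x : ℝ) : excess c x ≤ excess c' x :=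
  pow_le_pow_left₀ (le_max_right _ _) (max_le_max (by linarith) le_rfl) 2

/-- The event that the excesses at budget `k` are too large. -/
def excessEvent (i n k : ℕ) : Set (EuclideanSpace ℝ (LiftIdx ι d)) :=
  {y | K5 * (k : ℝ) < ∑ u ∈ Fs (mom v) i, excess (cth (mom v) n u) (pe y u)}

theorem measure_excessEvent {i n k : ℕ} (hin : i < n) (hk : Bud (mom v) n ≤ Bud (mom v) i + k) :
    (stdGaussian (EuclideanSpace ℝ (LiftIdx ι d)) (excessEvent v i n k)
        ≤ ENNReal.ofReal (2 * Real.exp (-(36 : ℝ)) ^ k)) ∧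
      (k = 0 → stdGaussian (EuclideanSpace ℝ (LiftIdx ι d)) (excessEvent v i n k)
        ≤ ENNReal.ofReal (2 * (eps / kap))) := by
  classical
  let c : LiftIdx ι d → ℝ := Sum.elim (Sum.elim (cth (mom v) n) 0) 0
  have hc : ∀ p, 0 ≤ c p := by
    rintro ((u | _) | _) <;> simp [c, cth_nonneg]
  obtain ⟨m, rfl⟩ : ∃ m, n = m + 1 := ⟨n - 1, by omega⟩
  have hsub : Fs (mom v) (m + 1) ⊆ Fs (mom v) i := Fs_anti _ hin.le
  have hsplit : ∑ u ∈ Fs (mom v) i, Real.exp (-(kap * cth (mom v) (m + 1) u ^ 2))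
      ≤ ((Fs (mom v) i \ Fs (mom v) (m + 1)).card : ℝ) + eps / kap := by
    rw [← sum_sdiff hsub]
    refine add_le_add ?_ ?_
    · refine (sum_le_card_nsmul _ _ (1 : ℝ) fun u hu => ?_).trans (by simp)
      rw [cth, if_neg (mem_sdiff.1 hu).2]
      simp
    · refine le_trans (le_of_eq (sum_congr rfl fun u hu => ?_)) (sum_exp_kap_le m)
      rw [cth, if_pos hu]
  have hcard : ((Fs (mom v) i \ Fs (mom v) (m + 1)).card : ℝ) ≤ k := by
    have := card_sdiff_Fs (mom v) (i := i) (n := m + 1) hin.le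
    exact_mod_cast (by omega : (Fs (mom v) i \ Fs (mom v) (m + 1)).card ≤ k)
  have hek : eps / kap ≤ 1 / 100 := by norm_num [eps, kap, sc]
  constructor
  · refine (measure_mono ?_).trans ((excess_tail ((Fs (mom v) i).map (coordEmb ι d)) c hc (K5 * k)).trans
      (ENNReal.ofReal_le_ofReal ?_))
    · intro y hy
      simpa [excessEvent, c, pe] using hy
    · rw [sum_map]
      simp only [c, coordEmb_apply, Sum.elim_inl]
      calc Real.exp (-(lam * (K5 * k))
            + 2 * ∑ u ∈ Fs (mom v) i, Real.exp (-(kap * cth (mom v) (m + 1) u ^ 2)))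
          ≤ Real.exp ((k : ℝ) * (-36) + 1 / 2) := by
            refine Real.exp_le_exp.2 ?_
            have h1 : 38 * (k : ℝ) ≤ lam * (K5 * k) := by
              rw [← mul_assoc]
              exact mul_le_mul_of_nonneg_right (by norm_num [lam, K5, sc]) (Nat.cast_nonneg _)
            linarith
        _ ≤ 2 * Real.exp (-(36 : ℝ)) ^ k := by
            rw [Real.exp_add, Real.exp_nat_mul, mul_comm]
            refine mul_le_mul_of_nonneg_right ?_ (by positivity)
            exact (Real.exp_bound_div_one_sub_of_interval (by norm_num) (by norm_num)).trans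
              (by norm_num)
  · intro hk0
    subst hk0
    refine (measure_mono ?_).trans ((threshold_tail ((Fs (mom v) i).map (coordEmb ι d)) c hc).trans
      (ENNReal.ofReal_le_ofReal ?_))
    · intro y hy
      simp only [excessEvent, Set.mem_ofPred_eq, Nat.cast_zero, mul_zero] at hy
      obtain ⟨u, hu, hpos⟩ := exists_ne_zero_of_sum_ne_zero hy.ne'
      refine ⟨(coordEmb ι d) u, mem_map_of_mem _ hu, ?_⟩
      by_contra hle
      simp [c, not_lt] at hle
      simp [excess, pe, hle] at hpos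
    · rw [sum_map]
      simp only [c, coordEmb_apply, Sum.elim_inl]
      refine mul_le_mul_of_nonneg_left ?_ zero_le_two
      rw [Nat.cast_zero] at hcard
      linarith

theorem measure_excess_part (N i : ℕ) :
    stdGaussian (EuclideanSpace ℝ (LiftIdx ι d))
      {y | ∃ n ∈ Ioc i N, K5 * ((Bud (mom v) n : ℝ) - Bud (mom v) i)
        < ∑ u ∈ Fs (mom v) i, excess (cth (mom v) n u) (pe y u)}
      ≤ ENNReal.ofReal (6 * Real.exp (-(wid (mom v) i : ℝ)) / 10 ^ 6) := by
  classical
  set g := mom v with hg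
  rcases le_or_gt N i with hN | hN
  · rw [Ioc_eq_empty (by omega)]; simp
  set M := Bud g N - Bud g i with hM
  set Sk : ℕ → Finset ℕ := fun k => (Ioc i N).filter fun n => Bud g n ≤ Bud g i + k with hSk
  have hne : ∀ k, cost g i ≤ k → (Sk k).Nonempty := fun k hk =>
    ⟨i + 1, mem_filter.2 ⟨mem_Ioc.2 ⟨by omega, hN⟩, by rw [Bud_succ]; omega⟩⟩
  set nk : ℕ → ℕ := fun k => if h : (Sk k).Nonempty then (Sk k).max' h else i + 1 with hnk
  have hnk' : ∀ k, cost g i ≤ k → i < nk k ∧ Bud g (nk k) ≤ Bud g i + k := by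
    intro k hk
    simp only [hnk, dif_pos (hne k hk)]
    have := mem_filter.1 ((Sk k).max'_mem (hne k hk))
    exact ⟨(mem_Ioc.1 this.1).1, this.2⟩
  have hcover : {y : EuclideanSpace ℝ (LiftIdx ι d) | ∃ n ∈ Ioc i N,
      K5 * ((Bud g n : ℝ) - Bud g i) < ∑ u ∈ Fs g i, excess (cth g n u) (pe y u)}
      ⊆ ⋃ k ∈ Ico (cost g i) (M + 1), excessEvent v i (nk k) k := by
    rintro y ⟨n, hn, hy⟩
    obtain ⟨h1, h2⟩ := mem_Ioc.1 hn
    have hb1 : Bud g (i + 1) ≤ Bud g n := Bud_mono g h1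
    have hb2 : Bud g n ≤ Bud g N := Bud_mono g h2
    rw [Bud_succ] at hb1
    set k := Bud g n - Bud g i with hk
    refine Set.mem_biUnion (x := k) (mem_Ico.2 ⟨by omega, by omega⟩) ?_
    simp only [excessEvent, Set.mem_ofPred_eq]
    refine lt_of_le_of_lt (le_of_eq ?_) (hy.trans_le (sum_le_sum fun u _ => excess_anti ?_ _))
    · rw [hk, Nat.cast_sub (by omega)]
    · refine cth_anti g ?_ u
      simp only [hnk, dif_pos (hne k (by omega))]
      exact le_max' _ _ (mem_filter.2 ⟨hn, by omega⟩)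
  refine (measure_mono hcover).trans ((measure_biUnion_finset_le _ _).trans ?_)
  set r : ℝ := Real.exp (-(36 : ℝ)) with hr
  have hr0 : 0 ≤ r := (Real.exp_pos _).le
  have hr1 : r ≤ 1 / 2 := (exp_neg_le_small (by norm_num)).trans (by norm_num)
  have hgeo : ∀ b, ∑ k ∈ Ico b (M + 1), 2 * r ^ k ≤ 4 * r ^ b := by
    intro b
    rw [← mul_sum]
    have := geom_sum_Ico_le_of_lt_one (m := b) (n := M + 1) hr0 (by linarith)
    have h2 : r ^ b / (1 - r) ≤ 2 * r ^ b := by
      rw [div_le_iff₀ (by linarith)]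
      nlinarith [pow_nonneg hr0 b]
    linarith
  rcases Nat.eq_zero_or_pos (cost g i) with hb | hb
  · have hW : wid g i = 2 := by
      have := two_le_wid g i
      unfold cost at hb
      omega
    rw [hb, Nat.Ico_zero_eq_range, sum_range_succ']
    refine (add_le_add (sum_le_sum fun k _ => (measure_excessEvent v (hnk' (k + 1) (by omega)).1
      (hnk' (k + 1) (by omega)).2).1)
      ((measure_excessEvent v (hnk' 0 (by omega)).1 (hnk' 0 (by omega)).2).2 rfl)).trans ?_
    rw [← ENNReal.ofReal_sum_of_nonneg (fun k _ => by positivity),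
      ← ENNReal.ofReal_add (sum_nonneg fun k _ => by positivity) (by norm_num [eps, kap, sc])]
    refine ENNReal.ofReal_le_ofReal ?_
    have h1 : ∑ k ∈ range M, 2 * r ^ (k + 1) ≤ 4 * r ^ 1 := by
      refine le_trans (le_of_eq ?_) (hgeo 1)
      rw [sum_Ico_eq_sum_range]
      simp [add_comm]
    have h2 : r ≤ Real.exp (-(wid g i : ℝ)) / 10 ^ 6 := exp_neg_le_small_mul (by rw [hW]; norm_num)
    have h3 : 2 * (eps / kap) ≤ Real.exp (-(wid g i : ℝ)) / 10 ^ 6 := by
      rw [hW, le_div_iff₀ (by norm_num), Real.exp_neg]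
      have h9 : Real.exp ((2 : ℕ) : ℝ) ≤ 9 := by
        rw [show ((2 : ℕ) : ℝ) = 1 + 1 by norm_num, Real.exp_add]
        nlinarith [Real.exp_one_lt_d9, Real.exp_pos 1]
      refine le_trans ?_ (inv_anti₀ (Real.exp_pos _) h9)
      norm_num [eps, kap, sc]
    rw [pow_one] at h1
    calc _ ≤ 4 * r + 2 * (eps / kap) := by linarith
      _ ≤ _ := by
        rw [mul_div_assoc]
        nlinarith [Real.exp_pos (-(wid g i : ℝ))]
  · refine (sum_le_sum fun k hk => (measure_excessEvent v (hnk' k (mem_Ico.1 hk).1).1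
      (hnk' k (mem_Ico.1 hk).1).2).1).trans ?_
    rw [← ENNReal.ofReal_sum_of_nonneg (fun k _ => by positivity)]
    refine ENNReal.ofReal_le_ofReal ((hgeo _).trans ?_)
    rw [hr, ← Real.exp_nat_mul, mul_div_assoc, mul_neg]
    refine mul_le_mul (by norm_num) (exp_neg_le_small_mul ?_) (Real.exp_pos _).le (by norm_num)
    have h1 := wid_le g i
    have h2 : (1 : ℝ) ≤ cost g i := by exact_mod_cast hb
    linarith

theorem measure_surv_part (i : ℕ) :
    stdGaussian (EuclideanSpace ℝ (LiftIdx ι d))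
      {y | K7 * wid (mom v) i
        < ∑ u ∈ Fs (mom v) (i + 1), excess (qq (mom v) (i + 1) u) (pe y u)}
      ≤ ENNReal.ofReal (2 * Real.exp (-(wid (mom v) i : ℝ)) / 10 ^ 6) := by
  classical
  let c : LiftIdx ι d → ℝ := Sum.elim (Sum.elim (qq (mom v) (i + 1)) 0) 0
  have hc : ∀ p, 0 ≤ c p := by
    rintro ((u | _) | _) <;> simp [c, qq_nonneg]
  refine (measure_mono ?_).trans ((excess_tail ((Fs (mom v) (i + 1)).map (coordEmb ι d)) c hc
    (K7 * wid (mom v) i)).trans (ENNReal.ofReal_le_ofReal ?_))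
  · intro y hy
    simpa [c, pe] using hy
  · rw [sum_map]
    simp only [c, coordEmb_apply, Sum.elim_inl]
    have h1 := sum_exp_kap_le (g := mom v) i
    have hek : eps / kap ≤ 1 / 100 := by norm_num [eps, kap, sc]
    have hW : (2 : ℝ) ≤ wid (mom v) i := by exact_mod_cast two_le_wid _ i
    have h2 : 38 * (wid (mom v) i : ℝ) ≤ lam * (K7 * wid (mom v) i) := by
      rw [← mul_assoc]
      exact mul_le_mul_of_nonneg_right (by norm_num [lam, K7, sc]) (Nat.cast_nonneg _)
    calc _ ≤ Real.exp (-(36 * (wid (mom v) i : ℝ))) := Real.exp_le_exp.2 (by linarith)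
      _ ≤ Real.exp (-(wid (mom v) i : ℝ)) / 10 ^ 6 := exp_neg_le_small_mul (by linarith)
      _ ≤ _ := by
        refine div_le_div_of_nonneg_right ?_ (by norm_num)
        linarith [Real.exp_pos (-(wid (mom v) i : ℝ))]

theorem measure_stepBody (N i : ℕ) (A : Finset ι) :
    ((2 ^ wid (mom v) i : ℕ) : ENNReal)
      * stdGaussian (EuclideanSpace ℝ (LiftIdx ι d)) (stepBody v N i A)ᶜ
      ≤ ENNReal.ofReal (1 / 100) := by
  set Ew := Real.exp (-(wid (mom v) i : ℝ)) with hE
  have hE0 : 0 ≤ Ew := (Real.exp_pos _).le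
  have hsub : (stepBody v N i A)ᶜ ⊆
      {y | K2 * wid (mom v) i * Xi v A i
        < ∑ u ∈ (Fs (mom v) i)ᶜ, pe' v A y u ^ 2 / qq (mom v) i u} ∪
      ((⋃ j : Fin 4, {y | K3 * Real.sqrt (wid (mom v) i) < |ps y j|}) ∪
      ({y | eps < ∑ u ∈ Fs (mom v) (i + 2), ∑ w ∈ Fs (mom v) (i + 2),
        pz y u w ^ 2 / (qq (mom v) (i + 1) u ^ 3 * qq (mom v) (i + 1) w ^ 3)} ∪
      ({y | ∃ n ∈ Ioc i N, K5 * ((Bud (mom v) n : ℝ) - Bud (mom v) i)
        < ∑ u ∈ Fs (mom v) i, excess (cth (mom v) n u) (pe y u)} ∪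
      {y | K7 * wid (mom v) i
        < ∑ u ∈ Fs (mom v) (i + 1), excess (qq (mom v) (i + 1) u) (pe y u)}))) := by
    intro y hy
    simp only [Set.mem_union, Set.mem_iUnion, Set.mem_ofPred_eq]
    by_contra h
    push Not at h
    exact hy ⟨h.1, h.2.1, h.2.2.1, h.2.2.2.1, h.2.2.2.2⟩
  have h : stdGaussian (EuclideanSpace ℝ (LiftIdx ι d)) (stepBody v N i A)ᶜ
      ≤ ENNReal.ofReal (20 * Ew / 10 ^ 6) := by
    refine (measure_mono hsub).trans ?_
    refine (measure_union_le _ _).trans ((add_le_add (measure_quad_part v i A)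
      ((measure_union_le _ _).trans (add_le_add ((measure_iUnion_fintype_le _ _).trans
        (sum_le_sum fun j _ => measure_scalar_part v i j))
      ((measure_union_le _ _).trans (add_le_add (measure_matrix_part v i)
      ((measure_union_le _ _).trans (add_le_add (measure_excess_part v N i)
        (measure_surv_part v i)))))))).trans ?_)
    rw [sum_const, card_univ, Fintype.card_fin, nsmul_eq_mul, ← ENNReal.ofReal_natCast,
      ← ENNReal.ofReal_mul (Nat.cast_nonneg _)]
    repeat rw [← ENNReal.ofReal_add (by positivity) (by positivity)]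
    exact ENNReal.ofReal_le_ofReal (le_of_eq (by push_cast; ring))
  refine (mul_le_mul' le_rfl h).trans ?_
  rw [← ENNReal.ofReal_natCast, ← ENNReal.ofReal_mul (Nat.cast_nonneg _)]
  refine ENNReal.ofReal_le_ofReal ?_
  push_cast
  have := two_pow_mul_exp_le (wid (mom v) i)
  rw [← hE] at this
  nlinarith

theorem measure_peelBody (i : ℕ) :
    stdGaussian (EuclideanSpace ℝ (LiftIdx ι d)) (peelBody (ι := ι) v i)ᶜ
      ≤ ENNReal.ofReal (1 / 100) := by
  classical
  let c : LiftIdx ι d → ℝ := Sum.elim (Sum.elim (fun u => qq (mom v) (i + 1) u / 4) 0) 0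
  have hc : ∀ p, 0 ≤ c p := by
    rintro ((u | _) | _) <;> simp [c, qq_nonneg, div_nonneg]
  have hsub : (peelBody (ι := ι) v i)ᶜ ⊆
      {y | eps < ∑ u ∈ Fs (mom v) (i + 1), ∑ w ∈ Fs (mom v) (i + 1),
        pz y u w ^ 2 / (qq (mom v) i u ^ 3 * qq (mom v) i w ^ 3)} ∪
      {y | ∃ p ∈ (Fs (mom v) (i + 1)).map (coordEmb ι d), c p < 16 * |y p / sc|} := by
    intro y hy
    simp only [Set.mem_union, Set.mem_ofPred_eq]
    by_contra h
    push Not at h
    exact hy ⟨h.1, fun u hu => by simpa [c, pe] using h.2 _ (mem_map_of_mem _ hu)⟩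
  have hth := theta_pos
  have heps := eps_pos
  have hsum : (∑ u ∈ Fs (mom v) (i + 1), 1 / qq (mom v) i u ^ 3) ^ 2 ≤ eps ^ 6 := by
    refine (pow_le_pow_left₀ (sum_nonneg fun u _ => by
      have := qq_nonneg (mom v) i u; positivity)
      ((sum_inv_cube_prev_le (mom v) i).trans (div_le_self (by positivity)
        (one_le_pow₀ (one_le_pow₀ one_lt_theta.le)))) 2).trans (le_of_eq (by ring))
  refine (measure_mono hsub).trans ((measure_union_le _ _).trans ((add_le_add
    (measure_matrix_tail _ _ (fun u => qq_nonneg _ _ u) (pow_pos heps 6) hsum _)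
    (threshold_tail _ c hc)).trans ?_))
  rw [← ENNReal.ofReal_add (by positivity) (mul_nonneg zero_le_two
    (sum_nonneg fun _ _ => (Real.exp_pos _).le))]
  refine ENNReal.ofReal_le_ofReal ?_
  have h1 : Real.exp (-(eps * sc ^ 2 / (4 * eps ^ 6))) ≤ 1 / 10 ^ 6 :=
    exp_neg_le_small (by norm_num [eps, sc])
  rw [sum_map]
  simp only [c, coordEmb_apply, Sum.elim_inl]
  have h2 : ∑ u ∈ Fs (mom v) (i + 1), Real.exp (-(kap * (qq (mom v) (i + 1) u / 4) ^ 2))
      ≤ 16 * (eps / kap) := by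
    have hk : 0 < kap := by norm_num [kap, sc]
    rw [mul_div_assoc', le_div_iff₀ hk, sum_mul]
    refine (sum_le_sum fun u hu => ?_).trans
      (le_trans (le_of_eq (mul_sum _ _ _).symm)
        (mul_le_mul_of_nonneg_left (sum_inv_qq_le (mom v) i) (by norm_num : (0 : ℝ) ≤ 16)))
    have h1 := (mem_Fs_succ (mom v)).1 hu
    rw [Real.exp_neg, inv_mul_eq_div, ← div_eq_mul_inv, div_le_div_iff₀ (Real.exp_pos _)
      (by linarith)]
    nlinarith [Real.add_one_le_exp (kap * (qq (mom v) (i + 1) u / 4) ^ 2),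
      mul_le_mul_of_nonneg_left (le_self_pow₀ h1 two_ne_zero) hk.le]
  have h3 : 16 * (eps / kap) ≤ 1 / 1000 := by norm_num [eps, kap, sc]
  nlinarith [mul_le_mul sqrt_two_le h1 (Real.exp_pos _).le (by norm_num)]

/-! ### The lifted vectors -/

theorem feat_bound {A : Finset ι} {i : ℕ} {k : ι} (hk : ∑ u, v k u ^ 2 ≤ 1) (j : Fin 4) :
    |feat v A i k j| ≤ 1 := by
  have hf : 0 ≤ fold v i k := sum_nonneg fun u _ => div_nonneg (sq_nonneg _) (qq_nonneg _ _ _)
  have hb : ∀ n, 0 ≤ fborn v n k := fun n =>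
    sum_nonneg fun u _ => div_nonneg (sq_nonneg _) (qq_nonneg _ _ _)
  fin_cases j
  · simp only [feat]
    simp only [Fin.zero_eta, Matrix.cons_val_zero]
    split_ifs with h
    · simp
    · simp only [IsBig, not_or, not_lt] at h
      have ht : 0 ≤ tau v A i := hf.trans h.1
      rw [abs_of_nonneg (div_nonneg hf ht)]
      exact div_le_one_of_le₀ h.1 ht
  · simp only [feat]
    simp only [Fin.mk_one, Matrix.cons_val_one, Matrix.cons_val_zero]
    split_ifs with h
    · simp
    · simp only [IsBig, not_or, not_lt] at h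
      rw [abs_of_nonneg (mul_nonneg (hb i) (Real.sqrt_nonneg _))]
      exact h.2
  · simp only [feat]
    simp
    split_ifs <;> simp
  · simp only [feat]
    simp
    rw [abs_div, abs_of_nonneg (hb _), abs_of_pos (pow_pos theta_pos _),
      div_le_one (pow_pos theta_pos _), fborn]
    have hcalc : ∀ u ∈ born (mom v) (i + 1), v k u ^ 2 / qq (mom v) (i + 1 + 1) u
        ≤ v k u ^ 2 * theta ^ wid (mom v) (i + 1) := by
      intro u hu
      have h1 := (mem_Fs_succ (mom v)).1 (mem_sdiff.1 hu).1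
      rw [qq_succ _ (i + 1), div_div_eq_mul_div]
      exact div_le_self (mul_nonneg (sq_nonneg _) (pow_nonneg theta_pos.le _)) h1
    refine (sum_le_sum hcalc).trans ?_
    rw [← sum_mul]
    refine mul_le_of_le_one_left (pow_nonneg theta_pos.le _) ?_
    exact (sum_le_sum_of_subset_of_nonneg (subset_univ _) fun _ _ _ => sq_nonneg _).trans hk

theorem norm_lift_le {A : Finset ι} {i : ℕ} {k : ι} (hk : ∑ u, v k u ^ 2 ≤ 1) :
    ‖lift v A i k‖ ≤ 1 / 4000 := by
  classical
  have h : ‖lift v A i k‖ ^ 2 ≤ (4 * sc) ^ 2 := by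
    simp only [lift, EuclideanSpace.real_norm_sq_eq, mul_pow, Fintype.sum_sum_type,
      Sum.elim_inl, Sum.elim_inr, ← mul_sum, ite_pow, one_pow, zero_pow two_ne_zero,
      sum_ite_eq', mem_univ, if_true, Fintype.sum_prod_type, ← mul_add]
    rw [mul_comm (4 ^ 2 : ℝ)]
    refine mul_le_mul_of_nonneg_left ?_ (sq_nonneg _)
    have h4 : ∑ j, feat v A i k j ^ 2 ≤ 4 := by
      refine (sum_le_card_nsmul _ _ (1 : ℝ) fun j _ => ?_).trans (by simp)
      rw [← sq_abs]
      exact pow_le_one₀ (abs_nonneg _) (feat_bound v hk j)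
    have h1 : ∑ u, v k u ^ 2 * ∑ w, v k w ^ 2 ≤ 1 := by
      rw [← sum_mul]
      exact mul_le_one₀ hk (sum_nonneg fun _ _ => sq_nonneg _) hk
    linarith
  have h2 := (pow_le_pow_iff_left₀ (norm_nonneg _) (by norm_num [sc]) two_ne_zero).1 h
  exact h2.trans (by norm_num [sc])

theorem good_of_mem [DecidableEq ι] {N i : ℕ} {A A' : Finset ι} (hA : A' ⊆ A) {x : ι → ℝ}
    (hx : ∀ k ∉ A', x k = 0)
    (h : ∑ k, x k • (if k ∈ A' then lift v A i k else 0) ∈ stepBody v N i A) :
    Good v N i A x ∧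
      (∑ k, x k • (if k ∈ A' then lift v A i k else 0) ∈ peelBody v i →
        CondPeel v i (ev v A x) (Zm v A x)) := by
  classical
  set y := ∑ k, x k • (if k ∈ A' then lift v A i k else 0) with hy
  have hy' : y = ∑ k ∈ A, x k • lift v A i k := by
    rw [hy, ← sum_subset (subset_univ A) (fun k _ hk => by rw [hx k fun h => hk (hA h), zero_smul])]
    refine sum_congr rfl fun k _ => ?_
    by_cases hk : k ∈ A'
    · rw [if_pos hk]
    · rw [hx k hk, zero_smul, zero_smul]
  have happ : ∀ c, y c = ∑ k ∈ A, x k * (sc * Sum.elim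
      (Sum.elim (v k) (fun k' => if k' = k then 1 else 0))
      (Sum.elim (feat v A i k) (fun p => v k p.1 * v k p.2)) c) := by
    intro c
    rw [hy', WithLp.ofLp_sum, Finset.sum_apply]
    exact sum_congr rfl fun k _ => by simp only [lift, PiLp.smul_apply, smul_eq_mul]; congr!
  have hsc := sc_pos.ne'
  have he : pe y = ev v A x := by
    ext u
    simp only [pe, ev, happ, Sum.elim_inl, sum_div]
    exact sum_congr rfl fun k _ => by field_simp
  have he' : pe' v A y = ev v A x := by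
    ext u
    simp only [pe', ev, happ, Sum.elim_inl, Sum.elim_inr]
    refine sum_congr rfl fun k hk => ?_
    simp only [mul_ite, mul_one, mul_zero, sum_ite_eq, hk, if_true]
    field_simp
  have hs : ps y = sv v A i x := by
    ext j
    simp only [ps, sv, happ, Sum.elim_inl, Sum.elim_inr, sum_div]
    exact sum_congr rfl fun k _ => by field_simp
  have hz : pz y = Zm v A x := by
    ext u w
    simp only [pz, Zm, happ, Sum.elim_inr, sum_div]
    exact sum_congr rfl fun k _ => by field_simp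
  refine ⟨?_, fun hp => ?_⟩
  · have h' : Cond v N i A (pe y) (pe' v A y) (ps y) (pz y) := h
    rwa [he, he', hs, hz] at h'
  · have h' : CondPeel v i (pe y) (pz y) := hp
    rwa [he, hz] at h'

/-- Choosing an extreme part with prescribed bias. -/
theorem exists_peel [DecidableEq ι] (hv : ∀ k, ∑ u, v k u ^ 2 ≤ 1) (N i : ℕ) {A A' : Finset ι} (hA : A' ⊆ A)
    (p : ι → ℝ) (hp : ∀ k ∈ A', p k ∈ Set.Icc (0 : ℝ) 1) :
    ∃ S ⊆ A', ∃ x : ι → ℝ, (∀ k ∉ A', x k = 0) ∧
      (∀ k, x k = (if k ∈ S then (1 : ℝ) else 0) - (if k ∈ A' then p k else 0)) ∧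
      Good v N i A x ∧ CondPeel v i (ev v A x) (Zm v A x) := by
  classical
  have hbody := (isBody_stepBody v N i A).inter (isBody_peelBody v i)
  have hm : stdGaussian (EuclideanSpace ℝ (LiftIdx ι d))
      (stepBody v N i A ∩ peelBody v i)ᶜ ≤ ENNReal.ofReal (1 / 10) := by
    rw [Set.compl_inter]
    refine (measure_union_le _ _).trans (le_trans (add_le_add
      (le_trans ?_ (measure_stepBody v N i A)) (measure_peelBody v i)) ?_)
    · exact le_mul_of_one_le_left zero_le (by exact_mod_cast Nat.one_le_two_pow)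
    · rw [← ENNReal.ofReal_add (by norm_num) (by norm_num)]
      exact ENNReal.ofReal_le_ofReal (by norm_num)
  obtain ⟨c, hc⟩ := biased_balancing (fun k => if k ∈ A' then lift v A i k else 0)
    (fun k => if k ∈ A' then p k else 0) _ hbody
    (fun k => by
      by_cases hk : k ∈ A'
      · simpa [hk] using hp k hk
      · simp [hk])
    (fun k => by
      by_cases hk : k ∈ A'
      · simpa [hk] using norm_lift_le v (hv k)
      · simp [hk]) hm
  refine ⟨A'.filter fun k => c k = true, filter_subset _ _,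
    fun k => if k ∈ A' then (if c k then (1 : ℝ) else 0) - p k else 0,
    fun k hk => by simp [hk], fun k => by by_cases hk : k ∈ A' <;> simp [hk], ?_⟩
  have heq : ∑ k, (if k ∈ A' then (if c k then (1 : ℝ) else 0) - p k else 0) •
      (if k ∈ A' then lift v A i k else 0)
      = ∑ k, ((if c k then (1 : ℝ) else 0) - (if k ∈ A' then p k else 0)) •
        (if k ∈ A' then lift v A i k else 0) :=
    sum_congr rfl fun k _ => by by_cases hk : k ∈ A' <;> simp [hk]
  rw [← heq] at hc
  obtain ⟨h1, h2⟩ := good_of_mem v hA (fun k hk => by simp [hk]) hc.1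
  exact ⟨h1, h2 hc.2⟩

/-- Splitting the middle into consecutive parts with balanced boundaries. -/
theorem exists_middle [DecidableEq ι] (hv : ∀ k, ∑ u, v k u ^ 2 ≤ 1) (N i : ℕ) {A A' : Finset ι} (hA : A' ⊆ A) :
    ∃ π : ι → Fin (2 * (2 ^ (wid (mom v) i - 1) - 1)),
      ∀ j ≤ 2 * (2 ^ (wid (mom v) i - 1) - 1), Good v N i A (fun k => if k ∈ A' then
        (if (π k : ℕ) < j then (1 : ℝ) else 0)
          - (j : ℝ) / (2 * (2 ^ (wid (mom v) i - 1) - 1) : ℕ) else 0) := by
  classical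
  have hW := two_le_wid (mom v) i
  set m := 2 ^ (wid (mom v) i - 1) - 1 with hm
  have hm0 : 0 < m := by
    have : 2 ^ 1 ≤ 2 ^ (wid (mom v) i - 1) := Nat.pow_le_pow_right two_pos (by omega)
    omega
  have hmle : m ≤ 2 ^ wid (mom v) i :=
    (Nat.sub_le _ _).trans (Nat.pow_le_pow_right two_pos (Nat.sub_le _ _))
  obtain ⟨π, hπ⟩ := ordered_partition (fun k => if k ∈ A' then lift v A i k else 0) _
    (isBody_stepBody v N i A)
    (fun k => by
      by_cases hk : k ∈ A'
      · simpa [hk] using norm_lift_le v (hv k)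
      · simp [hk]) hm0
    ((mul_le_mul' (Nat.cast_le.2 hmle) le_rfl).trans ((measure_stepBody v N i A).trans
      (ENNReal.ofReal_le_ofReal (by norm_num))))
  refine ⟨π, fun j hj => (good_of_mem v hA (fun k hk => by simp [hk]) ?_).1⟩
  convert hπ j hj using 1
  rw [smul_sum, sum_filter, ← sum_sub_distrib]
  refine sum_congr rfl fun k _ => ?_
  by_cases hk : k ∈ A'
  · by_cases hlt : (π k : ℕ) < j <;> simp [hk, hlt, sub_smul]
  · simp [hk]

end Vale.Agent.P262
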