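import Vale.Agent.P262.Node

/-!
Elementary estimates for the positions of new and old end points.
-/

open Finset

namespace Vale.Agent.P262

/-- Growth of the factor on a surviving coordinate covers the excess over the threshold. -/
theorem point_surv {p V x cn S0 S1 T f f' co L oa ob oa' ob' : ℝ} (hcn : 0 ≤ cn)
    (hf : 0 ≤ f) (hf' : 2 ≤ f') (hp : |p| ≤ max (V - cn) 0 + x) (hx : 0 ≤ x)
    (hV : V ≤ max (max oa ob) (f * Real.sqrt S0))
    (hoa : cn < 2 * oa → oa' = oa) (hob : cn < 2 * ob → ob' = ob)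
    (hoaS : oa' ^ 2 ≤ S1) (hobS : ob' ^ 2 ≤ S1) (hS0 : S0 ≤ S1)
    (hS0or : S0 = 0 ∨ (co / 2) ^ 2 ≤ S0) (hL : x - cn ≤ L)
    (hgrow : f * (co / 2) + L ≤ f' * (co / 2)) (hff : f ≤ f') (hco : 0 ≤ co)
    (hT : S1 ≤ T) (hTx : cn < 2 * x → S1 + x ^ 2 ≤ T) :
    |p| ≤ max x (f' * Real.sqrt T) := by
  rcases le_or_gt V cn with hV' | hV'
  · rw [max_eq_right (by linarith : V - cn ≤ 0), zero_add] at hp
    exact hp.trans (le_max_left _ _)
  refine le_trans ?_ (le_max_right _ _)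
  rw [max_eq_left (by linarith : 0 ≤ V - cn)] at hp
  have hsq : ∀ {o : ℝ}, o ^ 2 ≤ S1 → 0 ≤ o → o ≤ Real.sqrt S1 := fun h1 h2 => by
    rw [← Real.sqrt_sq h2]; exact Real.sqrt_le_sqrt h1
  have hcase : V ≤ Real.sqrt S1 ∨ V ≤ f * Real.sqrt S0 := by
    rcases le_max_iff.1 hV with h | h
    · rcases le_max_iff.1 h with h1 | h1
      · left
        have h2 := hoa (by linarith)
        rw [h2] at hoaS
        exact h1.trans (hsq hoaS (by linarith))
      · left
        have h2 := hob (by linarith)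
        rw [h2] at hobS
        exact h1.trans (hsq hobS (by linarith))
    · exact Or.inr h
  have hT0 : 0 ≤ Real.sqrt T := Real.sqrt_nonneg _
  rcases le_or_gt x cn with hxc | hxc
  · have h1 : |p| ≤ V := by linarith
    rcases hcase with h | h
    · calc |p| ≤ Real.sqrt S1 := h1.trans h
        _ ≤ 1 * Real.sqrt T := by rw [one_mul]; exact Real.sqrt_le_sqrt hT
        _ ≤ f' * Real.sqrt T := mul_le_mul_of_nonneg_right (by linarith) hT0
    · exact (h1.trans h).trans (mul_le_mul hff (Real.sqrt_le_sqrt (hS0.trans hT))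
        (Real.sqrt_nonneg _) (by linarith))
  · have hT' := hTx (by linarith)
    have hS1 : 0 ≤ S1 := le_trans (sq_nonneg _) hoaS
    rcases hcase with h | h
    · have h2 : x ≤ Real.sqrt T := by
        rw [← Real.sqrt_sq hx]; exact Real.sqrt_le_sqrt (by linarith)
      have h3 : Real.sqrt S1 ≤ Real.sqrt T := Real.sqrt_le_sqrt hT
      calc |p| ≤ 2 * Real.sqrt T := by linarith
        _ ≤ f' * Real.sqrt T := mul_le_mul_of_nonneg_right hf' hT0
    · have hpos : S0 ≠ 0 := by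
        intro h0
        rw [h0, Real.sqrt_zero, mul_zero] at h
        linarith
      have h4 : co / 2 ≤ Real.sqrt T := by
        rw [← Real.sqrt_sq (show 0 ≤ co / 2 by linarith)]
        exact Real.sqrt_le_sqrt ((hS0or.resolve_left hpos).trans (hS0.trans hT))
      have h5 : f * Real.sqrt S0 ≤ f * Real.sqrt T :=
        mul_le_mul_of_nonneg_left (Real.sqrt_le_sqrt (hS0.trans hT)) hf
      have h6 := mul_le_mul_of_nonneg_left h4 (show 0 ≤ f' - f by linarith)
      linarith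

/-- Squaring step on a lost coordinate. -/
theorem point_lost {p V z S T w k k' : ℝ} (hp : |p| ≤ V + z)
    (hV : V ≤ k * Real.sqrt S) (hS : 0 ≤ S) (hw : 0 < w) (hT : S + z ^ 2 / w ≤ T)
    (hk' : 0 ≤ k') (hkk : k ^ 2 + w ≤ k' ^ 2) :
    |p| ≤ k' * Real.sqrt T := by
  have h1 : |p| ≤ k * Real.sqrt S + z := by linarith
  refine h1.trans ?_
  have hT0 : 0 ≤ T := le_trans (by positivity) hT
  refine le_of_sq_le_sq ?_ (by positivity)
  rw [mul_pow, Real.sq_sqrt hT0]
  calc (k * Real.sqrt S + z) ^ 2 ≤ (k ^ 2 + w) * (S + z ^ 2 / w) := by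
        have hsq := Real.sq_sqrt hS
        have h2 : (k * Real.sqrt S + z) ^ 2
            = k ^ 2 * S + 2 * (k * Real.sqrt S * z) + z ^ 2 := by
          rw [add_sq, mul_pow, hsq]; ring
        have h3 : (k ^ 2 + w) * (S + z ^ 2 / w)
            = k ^ 2 * S + (w * S + k ^ 2 * z ^ 2 / w) + z ^ 2 := by
          field_simp
          ring
        have h4 : 2 * (k * Real.sqrt S * z) ≤ w * S + k ^ 2 * z ^ 2 / w := by
          rw [← sub_nonneg]
          have h5 : w * S + k ^ 2 * z ^ 2 / w - 2 * (k * Real.sqrt S * z)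
              = (w * Real.sqrt S - k * z) ^ 2 / w := by
            field_simp
            rw [sub_sq, mul_pow, mul_pow, hsq]
            ring
          rw [h5]; positivity
        linarith
    _ ≤ k' ^ 2 * T := mul_le_mul hkk hT (by positivity) (sq_nonneg _)

theorem sq_le_four_mul_two_pow (n : ℕ) : n ^ 2 ≤ 4 * 2 ^ n := by
  induction n with
  | zero => simp
  | succ n ih =>
    rcases Nat.lt_or_ge n 3 with h | h
    · interval_cases n <;> norm_num
    · rw [pow_succ 2]; nlinarith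

variable {d : ℕ} (g : Fin d → ℝ)

theorem sqrt_wid_le (i : ℕ) : Real.sqrt (wid g i) ≤ 3 / 2 * theta ^ wid g i := by
  have hth := theta_pos
  rw [Real.sqrt_le_iff]
  refine ⟨by positivity, le_of_sq_le_sq ?_ (by positivity)⟩
  have h : ((wid g i : ℝ)) ^ 2 ≤ 4 * 2 ^ wid g i := by exact_mod_cast sq_le_four_mul_two_pow _
  have h2 : ((3 / 2 * theta ^ wid g i) ^ 2) ^ 2 = 81 / 16 * 2 ^ wid g i := by
    rw [← pow_mul, mul_pow, ← pow_mul theta, mul_comm (wid g i), pow_mul theta,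
      show theta ^ (2 * 2) = 2 from theta_pow_four]
    norm_num
  rw [h2]
  linarith [pow_pos (show (0 : ℝ) < 2 by norm_num) (wid g i)]

theorem theta_sq_le_pow (i : ℕ) : 139 / 100 ≤ theta ^ wid g i := by
  calc (139 / 100 : ℝ) ≤ (59 / 50) ^ 2 := by norm_num
    _ ≤ theta ^ 2 := pow_le_pow_left₀ (by norm_num) le_theta 2
    _ ≤ theta ^ wid g i := pow_le_pow_right₀ one_lt_theta.le (two_le_wid g i)

theorem posFac_nonneg (i : ℕ) (u : Fin d) : 0 ≤ posFac g i u := by
  unfold posFac; split_ifs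
  · have := le_min eps_pos.le (inv_nonneg.2 (qq_nonneg g i u))
    have : (0 : ℝ) ≤ Kphi := by norm_num [Kphi]
    positivity
  · exact Real.sqrt_nonneg _

theorem two_le_posFac {i : ℕ} {u : Fin d} (hu : u ∈ Fs g i) :
    2 ≤ posFac g i u ∧ posFac g i u ≤ 3 := by
  rw [posFac, if_pos hu]
  have h1 : 0 ≤ min eps (qq g i u)⁻¹ := le_min eps_pos.le (inv_nonneg.2 (qq_nonneg g i u))
  have h2 : Kphi * min eps (qq g i u)⁻¹ ≤ 1 :=
    (mul_le_mul_of_nonneg_left (min_le_left _ _) (by norm_num [Kphi])).trans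
      (by norm_num [Kphi, eps])
  have h3 : 0 ≤ Kphi * min eps (qq g i u)⁻¹ := mul_nonneg (by norm_num [Kphi]) h1
  constructor <;> linarith

theorem posFac_grow {i : ℕ} {u : Fin d} (hu : u ∈ Fs g (i + 1)) :
    posFac g i u ≤ posFac g (i + 1) u ∧
      posFac g i u * (qq g i u / 2) + Kx * Real.sqrt (wid g i)
        ≤ posFac g (i + 1) u * (qq g i u / 2) := by
  have hu' : u ∈ Fs g i := Fs_anti g (Nat.le_succ i) hu
  rw [posFac, posFac, if_pos hu, if_pos hu', min_eq_right (inv_qq_le_eps g hu)]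
  set q := qq g i u
  set q' := qq g (i + 1) u
  set μ := theta ^ wid g i
  have hμ : 139 / 100 ≤ μ := theta_sq_le_pow g i
  have hq' : 1 ≤ q' := (mem_Fs_succ g).1 hu
  have hq : q = μ * q' := by
    have h := qq_succ g i u
    change q' = q / μ at h
    rw [h]
    field_simp
  have h1 : Kphi * min eps q⁻¹ ≤ Kphi * q⁻¹ :=
    mul_le_mul_of_nonneg_left (min_le_right _ _) (by norm_num [Kphi])
  have hinv : q⁻¹ ≤ (100 / 139) * q'⁻¹ := by
    rw [hq, mul_inv]
    exact mul_le_mul_of_nonneg_right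
      ((inv_anti₀ (by norm_num) hμ).trans (by norm_num)) (by positivity)
  have h2 := mul_le_mul_of_nonneg_left hinv (show (0 : ℝ) ≤ Kphi by norm_num [Kphi])
  have h0 : 0 ≤ Kphi * q'⁻¹ :=
    mul_nonneg (by norm_num [Kphi]) (inv_nonneg.2 (zero_le_one.trans hq'))
  refine ⟨by linarith, ?_⟩
  have h3 : (Kphi * q'⁻¹ - Kphi * min eps q⁻¹) * (q / 2) ≥ 39 / 278 * Kphi * μ := by
    have h4 : 39 / 139 * Kphi * q'⁻¹ ≤ Kphi * q'⁻¹ - Kphi * min eps q⁻¹ := by linarith
    refine le_trans (le_of_eq ?_) (mul_le_mul_of_nonneg_right h4 (div_nonneg (qq_nonneg g i u) zero_le_two))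
    rw [hq]
    field_simp
    ring
  have h5 : Kx * Real.sqrt (wid g i) ≤ 39 / 278 * Kphi * μ := by
    refine (mul_le_mul_of_nonneg_left (sqrt_wid_le g i) (by norm_num [Kx])).trans ?_
    norm_num [Kx, Kphi]
    linarith [pow_pos theta_pos (wid g i)]
  linarith

theorem posFac_sq_of_lost {i : ℕ} {u : Fin d} (hu : u ∉ Fs g (i + 1)) :
    posFac g (i + 1) u ^ 2 = 60 - 10 * qq g (i + 1) u ∧ qq g (i + 1) u < 1 := by
  have h1 : qq g (i + 1) u < 1 := by rw [mem_Fs_succ, not_le] at hu; exact hu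
  rw [posFac, if_neg hu, Real.sq_sqrt (by linarith)]
  exact ⟨rfl, h1⟩

theorem posFac_le_lost {i : ℕ} {u : Fin d} (hu : u ∉ Fs g (i + 1)) :
    posFac g i u ^ 2 + (if u ∈ Fs g i then 1 else qq g i u) ≤ posFac g (i + 1) u ^ 2 ∧
      1 ≤ posFac g i u := by
  obtain ⟨h1, h2⟩ := posFac_sq_of_lost g hu
  rw [h1]
  by_cases hu' : u ∈ Fs g i
  · rw [if_pos hu']
    obtain ⟨h3, h4⟩ := two_le_posFac g hu'
    exact ⟨by nlinarith, by linarith⟩
  · rw [if_neg hu', posFac, if_neg hu']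
    have h3 : qq g i u < 1 := by
      rw [mem_Fs] at hu'; push Not at hu'; exact hu'.2
    have h4 : qq g (i + 1) u ≤ 100 / 139 * qq g i u := by
      rw [qq_succ, div_le_iff₀ (pow_pos theta_pos _)]
      nlinarith [theta_sq_le_pow g i, qq_nonneg g i u]
    rw [Real.sq_sqrt (by linarith)]
    exact ⟨by linarith [qq_nonneg g i u], Real.one_le_sqrt.2 (by linarith)⟩

theorem sh_nonneg {n : ℕ} {o : Fin d → ℝ} (ho : ∀ u, 0 ≤ o u) (u : Fin d) :
    0 ≤ sh g n o u := by
  unfold sh; split_ifs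
  · exact ho u
  · exact le_rfl

theorem sh_sq_mono {i j : ℕ} (h : i ≤ j) (o : Fin d → ℝ) (u : Fin d) :
    sh g i o u ^ 2 ≤ sh g j o u ^ 2 := by
  unfold sh
  by_cases hi : cth g i u < 2 * o u
  · rw [if_pos hi, if_pos (lt_of_le_of_lt (cth_anti g h u) hi)]
  · rw [if_neg hi, zero_pow two_ne_zero]; exact sq_nonneg _

theorem sh_or {n : ℕ} {o : Fin d → ℝ} {u : Fin d} :
    sh g n o u ^ 2 = 0 ∨ (cth g n u / 2) ^ 2 ≤ sh g n o u ^ 2 := by
  unfold sh; split_ifs with h
  · right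
    exact pow_le_pow_left₀ (div_nonneg (cth_nonneg g n u) zero_le_two) (by linarith) 2
  · left; simp

theorem sh_eq_of_lost {n : ℕ} {o : Fin d → ℝ} {u : Fin d} (ho : 0 ≤ o u)
    (hu : u ∉ Fs g n) : sh g n o u = o u := by
  unfold sh cth
  rw [if_neg hu]
  split_ifs with h
  · rfl
  · linarith

end Vale.Agent.P262
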