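import Vale.Agent.P262.Split
import Vale.Agent.P262.Point

/-!
The scalar and matrix conditions of the children of a node.
-/

open Finset

namespace Vale.Agent.P262

variable {ι : Type*} [Fintype ι] {d : ℕ} (v : ι → Fin d → ℝ)

omit [Fintype ι] in
theorem abs_sum_mul_le (A : Finset ι) {δ f : ι → ℝ} {B : ℝ} (hδ : ∀ k, |δ k| ≤ B)
    (hf : ∀ k ∈ A, 0 ≤ f k) : |∑ k ∈ A, δ k * f k| ≤ B * ∑ k ∈ A, f k := by
  refine (abs_sum_le_sum_abs _ _).trans ?_
  rw [mul_sum]
  refine sum_le_sum fun k hk => ?_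
  rw [abs_mul, abs_of_nonneg (hf k hk)]
  exact mul_le_mul_of_nonneg_right (hδ k) (hf k hk)

theorem fold_nonneg (i : ℕ) (k : ι) : 0 ≤ fold v i k :=
  sum_nonneg fun _ _ => div_nonneg (sq_nonneg _) (qq_nonneg _ _ _)

theorem fborn_nonneg (i : ℕ) (k : ι) : 0 ≤ fborn v i k :=
  sum_nonneg fun _ _ => div_nonneg (sq_nonneg _) (qq_nonneg _ _ _)

theorem Xi_nonneg (A : Finset ι) (i : ℕ) : 0 ≤ Xi v A i :=
  sum_nonneg fun _ _ => fold_nonneg v i _

theorem tau_nonneg (A : Finset ι) (i : ℕ) : 0 ≤ tau v A i := by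
  have := Xi_nonneg v A i
  unfold tau
  have : 0 ≤ eta := by norm_num [eta]
  positivity

theorem pow_wid (g : Fin d → ℝ) (i : ℕ) : (2 : ℝ) ^ wid g i = (theta ^ wid g i) ^ 4 := by
  rw [← theta_pow_four, ← pow_mul, ← pow_mul, mul_comm]

theorem four_le_pow_wid (g : Fin d → ℝ) (i : ℕ) : (4 : ℝ) ≤ 2 ^ wid g i := by
  calc (4 : ℝ) = 2 ^ 2 := by norm_num
    _ ≤ _ := pow_le_pow_right₀ one_le_two (two_le_wid g i)

theorem one_le_sqrt_wid (g : Fin d → ℝ) (i : ℕ) : 1 ≤ Real.sqrt (wid g i) :=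
  Real.one_le_sqrt.2 (by exact_mod_cast le_trans one_le_two (two_le_wid g i))

theorem sqrt_wid_le_sq_next (g : Fin d → ℝ) (i : ℕ) :
    Real.sqrt (wid g i) ≤ 4 * (theta ^ wid g (i + 1)) ^ 2 := by
  rw [Real.sqrt_le_iff]
  refine ⟨by positivity, ?_⟩
  rw [mul_pow, ← pow_mul _ 2, show (theta ^ wid g (i + 1)) ^ (2 * 2) = 2 ^ wid g (i + 1) from
    (pow_wid g (i + 1)).symm]
  calc ((wid g i : ℕ) : ℝ) ≤ 16 * 2 ^ wid g (i + 1) := by exact_mod_cast wid_le_sixteen g i
    _ = _ := by norm_num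

variable {v} {N i : ℕ} {A : Finset ι} {a b : Fin d → ℝ}

theorem Node.diag_le (h : Node v N i A a b) {u : Fin d} (hu : u ∈ Fs (mom v) (i + 1)) :
    Gm v A u u ≤ 2 * qq (mom v) i u ^ 4 := by
  set g := mom v
  set q := qq g i
  have h1 := abs_form_le_wn (Fs g (i + 1)) q
    (fun u hu => ((mem_Fs_succ g).1 hu).trans (qq_succ_le g i u))
    (qq_nonneg g i) (fun u w => Gm v A u w - if u = w then q u ^ 4 else 0)
    (fun w => if w = u then 1 else 0)
  simp only [mul_ite, mul_one, mul_zero, sum_ite_eq', hu, if_true, ite_pow, one_pow,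
    zero_pow two_ne_zero] at h1
  have h3 : 0 ≤ q u ^ 4 := pow_nonneg (qq_nonneg g i u) _
  have hr : rho ≤ 1 := by
    have := Real.sqrt_le_iff.2 ⟨by norm_num, show eps ≤ (1 / 10 ^ 9 : ℝ) ^ 2 by norm_num [eps]⟩
    unfold rho; linarith
  have h2 : wn (Fs g (i + 1)) q (fun u w => Gm v A u w - if u = w then q u ^ 4 else 0) * q u ^ 4
      ≤ 1 * q u ^ 4 := mul_le_mul_of_nonneg_right (h.matrix.trans hr) h3
  linarith [(abs_le.1 h1).2]

/-- A bounded test takes nearly its average on each part. -/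
theorem Cut.part_scalar (C : Cut v N i A a b) {j : ℕ} (hj : j < 2 ^ wid (mom v) i) (f : ι → ℝ)
    (hf : ∀ k ∈ A, 0 ≤ f k) {D : ℝ} (hD : ∀ x, Good v N i A x → |∑ k ∈ A, x k * f k| ≤ D) :
    |∑ k ∈ A with C.part k = j, f k - (∑ k ∈ A, f k) / 2 ^ wid (mom v) i|
      ≤ 24 * eps ^ 2 / 2 ^ wid (mom v) i * ∑ k ∈ A, f k + 4 * D := by
  obtain ⟨a1, a2, ha1, ha2, j1, hj1, j2, hj2, heq⟩ := C.part_eq j hj
  rw [heq f]
  have h1 := abs_sum_mul_le A C.δ1_abs hf
  have h2 := abs_sum_mul_le A C.δ2_abs hf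
  have hz : ∀ (a y z : ℝ), |a| ≤ 1 → |a * (y + z)| ≤ |y| + |z| := fun a y z ha => by
    rw [abs_mul]
    exact (mul_le_of_le_one_left (abs_nonneg _) ha).trans (abs_add_le _ _)
  have h3 := hD _ C.good1
  have h4 := hD _ C.good2
  have h5 := hD _ (C.goodξ j1 hj1)
  have h6 := hD _ (C.goodξ j2 hj2)
  set s := ∑ k ∈ A, f k
  set M : ℝ := 2 ^ wid (mom v) i
  rw [show s / M + a1 * (∑ k ∈ A, C.δ1 k * f k + ∑ k ∈ A, C.x1 k * f k)
      + a2 * (∑ k ∈ A, C.δ2 k * f k + ∑ k ∈ A, C.x2 k * f k)
      + (∑ k ∈ A, C.ξ j1 k * f k - ∑ k ∈ A, C.ξ j2 k * f k) - s / M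
    = a1 * (∑ k ∈ A, C.δ1 k * f k + ∑ k ∈ A, C.x1 k * f k)
      + a2 * (∑ k ∈ A, C.δ2 k * f k + ∑ k ∈ A, C.x2 k * f k)
      + (∑ k ∈ A, C.ξ j1 k * f k - ∑ k ∈ A, C.ξ j2 k * f k) by ring]
  refine (abs_add_three _ _ _).trans ?_
  refine (add_le_add (add_le_add (hz _ _ _ ha1) (hz _ _ _ ha2)) (abs_sub _ _)).trans ?_
  rw [show 24 * eps ^ 2 / M * s = 12 * eps ^ 2 / M * s + 12 * eps ^ 2 / M * s by ring]
  linarith

open Classical in
/-- The removed vectors of one part. -/
noncomputable def Cut.removed (C : Cut v N i A a b) (j : ℕ) : Finset ι :=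
  A.filter fun k => C.part k = j ∧ IsBig v A i k

open Classical in
/-- The vectors of one part passed on to the child. -/
noncomputable def Cut.child (C : Cut v N i A a b) (j : ℕ) : Finset ι :=
  A.filter fun k => C.part k = j ∧ ¬ IsBig v A i k

open Classical in
theorem Cut.sum_child (C : Cut v N i A a b) (j : ℕ) (f : ι → ℝ) :
    ∑ k ∈ C.child j, f k = ∑ k ∈ A with C.part k = j, (if IsBig v A i k then 0 else f k) := by
  rw [Cut.child, sum_filter, sum_filter]
  refine sum_congr rfl fun k _ => ?_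
  split_ifs <;> tauto

theorem Cut.sum_child_le (C : Cut v N i A a b) (j : ℕ) (f : ι → ℝ) (hf : ∀ k, 0 ≤ f k) :
    ∑ k ∈ C.child j, f k ≤ ∑ k ∈ A with C.part k = j, f k := by
  classical
  rw [Cut.sum_child]
  exact sum_le_sum fun k _ => by split_ifs <;> simp [hf k]

open Classical in
theorem Cut.card_removed (C : Cut v N i A a b) (h : Node v N i A a b) {j : ℕ}
    (hj : j < 2 ^ wid (mom v) i) :
    ((C.removed j).card : ℝ) ≤ Kc * Real.sqrt (wid (mom v) i) := by
  set W := wid (mom v) i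
  set sW := Real.sqrt (W : ℝ) with hsW
  have hsW1 : 1 ≤ sW := one_le_sqrt_wid _ i
  set M : ℝ := 2 ^ W
  have hM : (4 : ℝ) ≤ M := four_le_pow_wid _ i
  let f : ι → ℝ := fun k => if IsBig v A i k then 1 else 0
  have hcard : ((C.removed j).card : ℝ) = ∑ k ∈ A with C.part k = j, f k := by
    simp only [Cut.removed, f, sum_ite, sum_const_zero, add_zero, sum_const, nsmul_eq_mul,
      mul_one, filter_filter]
  have hD : ∀ x, Good v N i A x → |∑ k ∈ A, x k * f k| ≤ K3 * sW := fun x hx => by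
    simpa [sv, feat, f, hsW, W] using hx.2.1 2
  have hb := C.part_scalar hj f (fun k _ => by simp only [f]; split_ifs <;> simp) hD
  have htot : ∑ k ∈ A, f k ≤ M / eta + sW * (Kq * M) := by
    have heta : 0 < eta := by norm_num [eta]
    have hX := Xi_nonneg v A i
    have hτ : ∀ k ∈ A, f k ≤ (if Xi v A i = 0 then 0 else fold v i k / tau v A i)
        + fborn v i k * sW := by
      intro k hk
      have hfo := fold_nonneg v i k
      have hfb : 0 ≤ fborn v i k * sW := mul_nonneg (fborn_nonneg v i k) (Real.sqrt_nonneg _)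
      have hg0 : 0 ≤ (if Xi v A i = 0 then 0 else fold v i k / tau v A i) := by
        split_ifs
        · exact le_rfl
        · exact div_nonneg hfo (tau_nonneg v A i)
      simp only [f]
      by_cases hb : IsBig v A i k
      · rw [if_pos hb]
        rcases hb with hb | hb
        · by_cases hx : Xi v A i = 0
          · have h0 : fold v i k ≤ 0 := hx ▸ single_le_sum (fun k _ => fold_nonneg v i k) hk
            linarith [tau_nonneg v A i]
          · rw [if_neg hx]
            have hpos : 0 < tau v A i := by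
              have : 0 < Xi v A i := lt_of_le_of_ne hX (Ne.symm hx)
              unfold tau; positivity
            linarith [(one_le_div hpos).2 hb.le]
        · have : (1 : ℝ) ≤ fborn v i k * sW := hb.le
          linarith
      · rw [if_neg hb]; linarith
    refine (sum_le_sum hτ).trans ?_
    rw [sum_add_distrib]
    refine add_le_add ?_ ?_
    · by_cases hx : Xi v A i = 0
      · simp only [hx, if_true, sum_const_zero]; positivity
      · simp only [hx, if_false, ← sum_div]
        rw [← Xi, tau, div_div_eq_mul_div, div_le_div_iff₀ (by positivity) heta]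
        exact le_of_eq (by ring)
    · rw [← sum_mul, mul_comm]
      exact mul_le_mul_of_nonneg_left h.born_le (Real.sqrt_nonneg _)
  have h1 : 24 * eps ^ 2 / M * ∑ k ∈ A, f k + (∑ k ∈ A, f k) / M
      ≤ (24 * eps ^ 2 + 1) * (1 / eta + sW * Kq) := by
    rw [show 24 * eps ^ 2 / M * ∑ k ∈ A, f k + (∑ k ∈ A, f k) / M
      = (24 * eps ^ 2 + 1) * ((∑ k ∈ A, f k) / M) by ring]
    refine mul_le_mul_of_nonneg_left ?_ (by positivity)
    rw [div_le_iff₀ (by linarith)]
    exact htot.trans (le_of_eq (by ring))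
  rw [hcard]
  have h2 := (abs_le.1 hb).2
  have h3 : (24 * eps ^ 2 + 1) * (1 / eta + sW * Kq) + 4 * (K3 * sW) ≤ Kc * sW := by
    norm_num [eps, eta, Kq, Kc, K3]
    linarith
  linarith

theorem Cut.old_le (C : Cut v N i A a b) (h : Node v N i A a b) {j : ℕ}
    (hj : j < 2 ^ wid (mom v) i) : Xi v (C.child j) (i + 1) ≤ Xb (mom v) (i + 1) := by
  classical
  set g := mom v with hg
  set W := wid g i with hW
  set μ := theta ^ W with hμdef
  have hμ : 139 / 100 ≤ μ := theta_sq_le_pow g i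
  set M : ℝ := 2 ^ W with hMdef
  have hM : M = μ ^ 4 := pow_wid g i
  have hM4 : 4 ≤ M := four_le_pow_wid g i
  have hsplit : Xi v (C.child j) (i + 1)
      = μ * ∑ k ∈ C.child j, fold v i k + ∑ k ∈ C.child j, fborn v i k := by
    rw [Xi, mul_sum, ← sum_add_distrib]
    refine sum_congr rfl fun k _ => ?_
    simp only [fold, fborn, ← hg]
    have hu : (Fs g (i + 1))ᶜ = (Fs g i)ᶜ ∪ born g i := by
      have := Fs_anti g (Nat.le_succ i)
      ext u
      simp only [mem_compl, mem_union, born, mem_sdiff]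
      constructor
      · intro hu; tauto
      · rintro (hu | hu)
        · exact fun h' => hu (this h')
        · exact hu.2
    have hdis : Disjoint (Fs g i)ᶜ (born g i) :=
      disjoint_left.2 fun u h1 h2 => (mem_compl.1 h1) (mem_sdiff.1 h2).1
    rw [hu, sum_union hdis, mul_sum]
    congr 1
    refine sum_congr rfl fun u _ => ?_
    rw [qq_succ, ← hW, ← hμdef]
    field_simp
  have heps : (24 * eps ^ 2 / M + 1 / M) ≤ 101 / 100 / M := by
    rw [← add_div]
    exact div_le_div_of_nonneg_right (by norm_num [eps]) (by linarith)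
  have hfold : ∑ k ∈ C.child j, fold v i k
      ≤ (101 / 100 + Real.sqrt W / 100) / M * Xi v A i := by
    rw [C.sum_child j]
    have hD : ∀ x, Good v N i A x → |∑ k ∈ A, x k * (if IsBig v A i k then 0 else fold v i k)|
        ≤ tau v A i * (K3 * Real.sqrt W) := by
      intro x hx
      have : ∑ k ∈ A, x k * (if IsBig v A i k then 0 else fold v i k)
          = tau v A i * sv v A i x 0 := by
        rw [sv, mul_sum]
        refine sum_congr rfl fun k _ => ?_
        simp only [feat, Matrix.cons_val_zero]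
        split_ifs with hb
        · ring
        · simp only [IsBig, not_or, not_lt] at hb
          rcases eq_or_lt_of_le (tau_nonneg v A i) with h0 | h0
          · have : fold v i k = 0 := le_antisymm (h0 ▸ hb.1) (fold_nonneg v i k)
            simp [this]
          · field_simp
      rw [this, abs_mul, abs_of_nonneg (tau_nonneg v A i)]
      exact mul_le_mul_of_nonneg_left (hx.2.1 0) (tau_nonneg v A i)
    have hb := (abs_le.1 (C.part_scalar hj _ (fun k _ => by
      split_ifs
      · exact le_rfl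
      · exact fold_nonneg v i k) hD)).2
    have hs : ∑ k ∈ A, (if IsBig v A i k then 0 else fold v i k) ≤ Xi v A i :=
      sum_le_sum fun k _ => by split_ifs <;> simp [fold_nonneg]
    have hs' := mul_le_mul_of_nonneg_left hs
      (show 0 ≤ 24 * eps ^ 2 / M + 1 / M by positivity)
    have h1 := mul_le_mul_of_nonneg_right heps (Xi_nonneg v A i)
    have h2 : 4 * (tau v A i * (K3 * Real.sqrt W)) ≤ Real.sqrt W / 100 / M * Xi v A i := by
      rw [tau, ← hg, ← hW, ← hMdef,
        show 4 * (eta * Xi v A i / M * (K3 * Real.sqrt W))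
          = 4 * eta * K3 * Real.sqrt W / M * Xi v A i by ring]
      refine mul_le_mul_of_nonneg_right (div_le_div_of_nonneg_right ?_ (by linarith))
        (Xi_nonneg v A i)
      norm_num [eta, K3]
      linarith [Real.sqrt_nonneg (W : ℝ)]
    rw [← hg, ← hW, ← hMdef] at hb
    rw [add_div, add_mul]
    have : ∀ s : ℝ, (24 * eps ^ 2 / M + 1 / M) * s = 24 * eps ^ 2 / M * s + s / M := fun s => by
      ring
    rw [this, this] at hs'
    linarith [this (Xi v A i)]
  have hcoef : μ * ((101 / 100 + Real.sqrt W / 100) / M) ≤ 3 / 4 := by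
    rw [hM, ← mul_div_assoc, div_le_iff₀ (by positivity)]
    have h1 : Real.sqrt W ≤ 3 / 2 * μ := sqrt_wid_le g i
    have h2 : (139 / 100 : ℝ) ^ 3 ≤ μ ^ 3 := pow_le_pow_left₀ (by norm_num) hμ 3
    have h3 : μ ≤ μ ^ 3 := le_self_pow₀ (by linarith) (by norm_num)
    have h4 : 101 / 100 + Real.sqrt W / 100 ≤ 3 / 4 * μ ^ 3 := by
      norm_num at h2
      linarith
    calc μ * (101 / 100 + Real.sqrt W / 100) ≤ μ * (3 / 4 * μ ^ 3) :=
          mul_le_mul_of_nonneg_left h4 (by linarith)
      _ = 3 / 4 * μ ^ 4 := by ring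
  rw [hsplit, Xb]
  refine add_le_add ?_ ?_
  · calc μ * ∑ k ∈ C.child j, fold v i k
        ≤ μ * ((101 / 100 + Real.sqrt W / 100) / M * Xi v A i) :=
          mul_le_mul_of_nonneg_left hfold (by linarith)
      _ = μ * ((101 / 100 + Real.sqrt W / 100) / M) * Xi v A i := by ring
      _ ≤ 3 / 4 * Xb g i := mul_le_mul hcoef h.old_le (Xi_nonneg v A i) (by norm_num)
  · by_cases hne : (born g i).Nonempty
    · rw [if_pos hne, mul_one, C.sum_child j]
      have hD : ∀ x, Good v N i A x →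
          |∑ k ∈ A, x k * (if IsBig v A i k then 0 else fborn v i k)| ≤ K3 := by
        intro x hx
        have hsW : 0 < Real.sqrt W := lt_of_lt_of_le one_pos (one_le_sqrt_wid g i)
        have : ∑ k ∈ A, x k * (if IsBig v A i k then 0 else fborn v i k)
            = sv v A i x 1 / Real.sqrt W := by
          rw [sv, sum_div]
          refine sum_congr rfl fun k _ => ?_
          simp only [feat, Matrix.cons_val_one, Matrix.cons_val_zero, ← hg, ← hW]
          split_ifs <;> field_simp <;> ring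
        rw [this, abs_div, abs_of_pos hsW, div_le_iff₀ hsW]
        exact hx.2.1 1
      have hb := (abs_le.1 (C.part_scalar hj _ (fun k _ => by
        split_ifs
        · exact le_rfl
        · exact fborn_nonneg v i k) hD)).2
      have hs : ∑ k ∈ A, (if IsBig v A i k then 0 else fborn v i k) ≤ Kq * M :=
        le_trans (sum_le_sum fun k _ => by split_ifs <;> simp [fborn_nonneg]) h.born_le
      rw [← hg, ← hW, ← hMdef] at hb
      have hs0 : ∀ s, 24 * eps ^ 2 / M * s + s / M = (24 * eps ^ 2 + 1) / M * s := fun s => by ring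
      have h1 := mul_le_mul_of_nonneg_left hs
        (show 0 ≤ (24 * eps ^ 2 + 1) / M by positivity)
      rw [← hs0, show (24 * eps ^ 2 + 1) / M * (Kq * M) = (24 * eps ^ 2 + 1) * Kq by field_simp]
        at h1
      have h2 : (24 * eps ^ 2 + 1) * Kq + 4 * K3 ≤ Kb := by norm_num [eps, Kq, K3, Kb]
      linarith
    · rw [if_neg hne, mul_zero]
      refine le_of_eq (sum_eq_zero fun k _ => ?_)
      rw [fborn, not_nonempty_iff_eq_empty.1 hne, sum_empty]

theorem Cut.born_le (C : Cut v N i A a b) (h : Node v N i A a b) {j : ℕ}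
    (hj : j < 2 ^ wid (mom v) i) :
    ∑ k ∈ C.child j, fborn v (i + 1) k ≤ Kq * 2 ^ wid (mom v) (i + 1) := by
  classical
  set g := mom v with hg
  set W := wid g i with hW
  set μ := theta ^ W with hμdef
  set μ' := theta ^ wid g (i + 1) with hμ'def
  have hμ' : 139 / 100 ≤ μ' := theta_sq_le_pow g (i + 1)
  have hμ : 139 / 100 ≤ μ := theta_sq_le_pow g i
  set M : ℝ := 2 ^ W with hMdef
  have hM : M = μ ^ 4 := pow_wid g i
  refine (C.sum_child_le j _ (fborn_nonneg v _)).trans ?_
  have hD : ∀ x, Good v N i A x → |∑ k ∈ A, x k * fborn v (i + 1) k|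
      ≤ μ' * (K3 * Real.sqrt W) := by
    intro x hx
    have : ∑ k ∈ A, x k * fborn v (i + 1) k = μ' * sv v A i x 3 := by
      rw [sv, mul_sum]
      refine sum_congr rfl fun k _ => ?_
      simp only [feat, ← hg, ← hμ'def]
      simp
      field_simp
    rw [this, abs_mul, abs_of_nonneg (by linarith)]
    exact mul_le_mul_of_nonneg_left (hx.2.1 3) (by linarith)
  have hb := (abs_le.1 (C.part_scalar hj _ (fun k _ => fborn_nonneg v _ k) hD)).2
  have htot : ∑ k ∈ A, fborn v (i + 1) k ≤ 2 * μ ^ 4 * μ' ^ 4 * eps := by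
    calc ∑ k ∈ A, fborn v (i + 1) k
        = ∑ u ∈ born g (i + 1), Gm v A u u / qq g (i + 1 + 1) u := by
          simp only [fborn, ← hg]
          rw [sum_comm]
          refine sum_congr rfl fun u _ => ?_
          rw [Gm, sum_div]
          simp only [sq]
      _ ≤ ∑ u ∈ born g (i + 1), 2 * μ ^ 4 * μ' ^ 4 * qq g (i + 1 + 1) u := by
          refine sum_le_sum fun u hu => ?_
          obtain ⟨h1, h2⟩ := mem_sdiff.1 hu
          have h3 : qq g (i + 1 + 1) u < 1 := by rw [mem_Fs_succ, not_le] at h2; exact h2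
          have h4 : 1 ≤ qq g (i + 1) u := (mem_Fs_succ g).1 h1
          have hq : qq g i u = μ * (μ' * qq g (i + 1 + 1) u) := by
            rw [qq_succ g (i + 1), qq_succ g i, ← hμdef, ← hμ'def]
            field_simp
          have h5 : 0 < qq g (i + 1 + 1) u := by
            rw [qq_succ g (i + 1)]; exact div_pos (by linarith) (by linarith)
          rw [div_le_iff₀ h5]
          refine (h.diag_le h1).trans ?_
          rw [← hg, hq]
          calc 2 * (μ * (μ' * qq g (i + 1 + 1) u)) ^ 4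
              = 2 * μ ^ 4 * μ' ^ 4 * qq g (i + 1 + 1) u ^ 4 := by ring
            _ ≤ 2 * μ ^ 4 * μ' ^ 4 * qq g (i + 1 + 1) u ^ 2 :=
                mul_le_mul_of_nonneg_left (pow_le_pow_of_le_one h5.le h3.le (by norm_num))
                  (by positivity)
            _ = _ := by ring
      _ ≤ 2 * μ ^ 4 * μ' ^ 4 * eps := by
          rw [← mul_sum]
          refine mul_le_mul_of_nonneg_left ?_ (by positivity)
          refine le_trans (sum_le_sum_of_subset_of_nonneg ?_ fun u _ _ => qq_nonneg g _ u)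
            (sum_qq_le g (i + 1))
          intro u hu
          exact mem_compl.2 (mem_sdiff.1 hu).2
  rw [← hg, ← hW, ← hMdef] at hb
  have h1 := mul_le_mul_of_nonneg_left htot (show 0 ≤ (24 * eps ^ 2 + 1) / M by positivity)
  rw [show (24 * eps ^ 2 + 1) / M * (2 * μ ^ 4 * μ' ^ 4 * eps)
      = (24 * eps ^ 2 + 1) * 2 * eps * μ' ^ 4 by rw [hM]; field_simp] at h1
  have h2 : μ' * (K3 * Real.sqrt W) ≤ 4 * K3 * μ' ^ 4 := by
    calc μ' * (K3 * Real.sqrt W) ≤ μ' * (K3 * (4 * μ' ^ 2)) :=
          mul_le_mul_of_nonneg_left (mul_le_mul_of_nonneg_left (sqrt_wid_le_sq_next g i)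
            (by norm_num [K3])) (by linarith)
      _ = 4 * K3 * μ' ^ 3 := by ring
      _ ≤ 4 * K3 * μ' ^ 4 := mul_le_mul_of_nonneg_left
          (pow_le_pow_right₀ (by linarith) (by norm_num)) (by norm_num [K3])
  rw [pow_wid g (i + 1), ← hμ'def]
  have h3 : ((24 * eps ^ 2 + 1) * 2 * eps + 16 * K3) * μ' ^ 4 ≤ Kq * μ' ^ 4 :=
    mul_le_mul_of_nonneg_right (by norm_num [eps, K3, Kq]) (by positivity)
  have hs0 : ∀ s, 24 * eps ^ 2 / M * s + s / M = (24 * eps ^ 2 + 1) / M * s := fun s => by ring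
  rw [← hs0] at h1
  linarith

theorem wn_Zm_le {x : ι → ℝ} (hx : Good v N i A x) :
    wn (Fs (mom v) (i + 2)) (qq (mom v) (i + 1)) (Zm v A x) ≤ Real.sqrt eps := by
  refine Real.le_sqrt_of_sq_le ?_
  rw [wn_sq _ _ (qq_nonneg _ _)]
  exact hx.2.2.1

theorem Cut.matrix (C : Cut v N i A a b) (h : Node v N i A a b)
    (hv : ∀ k, ∑ u, v k u ^ 2 ≤ 1) {j : ℕ} (hj : j < 2 ^ wid (mom v) i) :
    wn (Fs (mom v) (i + 1 + 1)) (qq (mom v) (i + 1))
      (fun u w => Gm v (C.child j) u w - if u = w then qq (mom v) (i + 1) u ^ 4 else 0) ≤ rho := by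
  classical
  set g := mom v with hg
  set W := wid g i with hW
  set μ := theta ^ W with hμdef
  have hμ : 139 / 100 ≤ μ := theta_sq_le_pow g i
  set M : ℝ := 2 ^ W with hMdef
  have hM : M = μ ^ 4 := pow_wid g i
  set F2 := Fs g (i + 1 + 1) with hF2
  set q' := qq g (i + 1) with hq'
  have hqfun : q' = fun u => qq g i u / μ := funext fun u => qq_succ g i u
  have hconv : ∀ X, wn F2 q' X ≤ μ ^ 3 * wn (Fs g (i + 1)) (qq g i) X := by
    intro X
    rw [hqfun, wn_scale _ _ (qq_nonneg g i) (by linarith)]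
    exact mul_le_mul_of_nonneg_left (wn_mono (Fs_anti g (by omega)) _ (qq_nonneg g i) X)
      (by positivity)
  have hDm : ∀ δ, wn (Fs g (i + 1)) (qq g i) (Dm v A δ) ≤ Real.sqrt eps / 10 / μ ^ 3 →
      wn F2 q' (Dm v A δ) ≤ Real.sqrt eps / 10 := by
    intro δ hδ
    refine (hconv _).trans ?_
    rw [le_div_iff₀ (by positivity)] at hδ
    linarith
  obtain ⟨a1, a2, ha1, ha2, j1, hj1, j2, hj2, heq⟩ := C.part_eq j hj
  have hrem : wn F2 q' (fun u w => Gm v (C.removed j) u w) ≤ Real.sqrt eps := by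
    set cR : ℝ := ((C.removed j).card : ℝ) with hcR
    have hb : ∀ u ∈ F2, ∀ w ∈ F2, Gm v (C.removed j) u w ^ 2 ≤ cR * cR := by
      intro u _ w _
      have h1 : |Gm v (C.removed j) u w| ≤ cR := by
        refine (abs_sum_le_sum_abs _ _).trans ?_
        refine (sum_le_card_nsmul _ _ (1 : ℝ) fun k _ => ?_).trans (by simp [hcR])
        have hle : ∀ z, |v k z| ≤ 1 := fun z => by
          rw [← sq_le_one_iff_abs_le_one]
          exact (single_le_sum (f := fun u => v k u ^ 2) (fun u _ => sq_nonneg _)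
            (mem_univ z)).trans (hv k)
        rw [abs_mul]
        exact mul_le_one₀ (hle u) (abs_nonneg _) (hle w)
      rw [← sq_abs, sq]
      exact mul_le_mul h1 h1 (abs_nonneg _) (Nat.cast_nonneg _)
    refine le_of_sq_le_sq ((wn_le_of_abs_le F2 q' (qq_nonneg g _) _ _ hb).trans ?_)
      (Real.sqrt_nonneg _)
    rw [Real.sq_sqrt eps_pos.le]
    set μ' := theta ^ wid g (i + 1)
    have hμ' : 139 / 100 ≤ μ' := theta_sq_le_pow g (i + 1)
    have h2 : ∑ u ∈ F2, cR / q' u ^ 3 ≤ 4 * Kc * eps ^ 3 := by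
      calc ∑ u ∈ F2, cR / q' u ^ 3 = cR * ∑ u ∈ F2, 1 / q' u ^ 3 := by
            rw [mul_sum]; simp [div_eq_mul_inv]
        _ ≤ (Kc * (4 * μ' ^ 2)) * (eps ^ 3 / μ' ^ 3) := by
            refine mul_le_mul ((C.card_removed h hj).trans (mul_le_mul_of_nonneg_left
              (sqrt_wid_le_sq_next g i) (by norm_num [Kc]))) (sum_inv_cube_prev_le g (i + 1))
              (sum_nonneg fun u _ => by have := qq_nonneg g (i + 1) u; positivity)
              (by have : (0 : ℝ) ≤ Kc := by norm_num [Kc]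
                  positivity)
        _ = 4 * Kc * eps ^ 3 / μ' := by field_simp
        _ ≤ 4 * Kc * eps ^ 3 := div_le_self (by norm_num [Kc, eps]) (by linarith)
    calc (∑ u ∈ F2, cR / q' u ^ 3) ^ 2 ≤ (4 * Kc * eps ^ 3) ^ 2 :=
          pow_le_pow_left₀ (sum_nonneg fun u _ => by
            have := qq_nonneg g (i + 1) u; positivity) h2 2
      _ ≤ eps := by norm_num [Kc, eps]
  have hfun : (fun u w => Gm v (C.child j) u w - if u = w then q' u ^ 4 else 0)
      = fun u w => 1 / M * (Gm v A u w - if u = w then qq g i u ^ 4 else 0)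
        + (a1 * (Dm v A C.δ1 u w + Zm v A C.x1 u w)
        + (a2 * (Dm v A C.δ2 u w + Zm v A C.x2 u w)
        + (Zm v A (C.ξ j1) u w + ((-1) * Zm v A (C.ξ j2) u w
          + (-1) * Gm v (C.removed j) u w)))) := by
    ext u w
    have hp : Gm v (C.child j) u w + Gm v (C.removed j) u w
        = ∑ k ∈ A with C.part k = j, v k u * v k w := by
      simp only [Gm, Cut.child, Cut.removed]
      rw [add_comm, ← sum_filter_add_sum_filter_not (A.filter fun k => C.part k = j)
        (fun k => IsBig v A i k), filter_filter, filter_filter]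
    rw [heq fun k => v k u * v k w] at hp
    have hdiagq : (if u = w then q' u ^ 4 else 0) = 1 / M * if u = w then qq g i u ^ 4 else 0 := by
      rw [hqfun, hM]; split_ifs <;> ring
    rw [hdiagq]
    simp only [Gm, Dm, Zm] at *
    rw [← hg, ← hW, ← hMdef] at hp
    linear_combination hp
  rw [hfun]
  have hmain : wn F2 q' (fun u w => 1 / M * (Gm v A u w - if u = w then qq g i u ^ 4 else 0))
      ≤ 73 / 100 * rho := by
    rw [wn_const_mul, abs_of_nonneg (by positivity)]
    refine (mul_le_mul_of_nonneg_left ((hconv _).trans (mul_le_mul_of_nonneg_left h.matrix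
      (by positivity))) (by positivity)).trans ?_
    rw [show 1 / M * (μ ^ 3 * rho) = rho / μ by rw [hM]; field_simp]
    rw [div_le_iff₀ (by linarith)]
    have h0 : 0 ≤ rho := by unfold rho; positivity
    nlinarith [mul_le_mul_of_nonneg_left hμ h0]
  have hpart : ∀ a' δ x, |a'| ≤ 1 → wn (Fs g (i + 1)) (qq g i) (Dm v A δ)
      ≤ Real.sqrt eps / 10 / μ ^ 3 → Good v N i A x →
      wn F2 q' (fun u w => a' * (Dm v A δ u w + Zm v A x u w)) ≤ 11 / 10 * Real.sqrt eps := by
    intro a' δ x ha' hδ hx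
    rw [wn_const_mul]
    refine (mul_le_of_le_one_left (wn_nonneg _ _ _) ha').trans ((wn_add_le _ _ _ _).trans ?_)
    have h2 := wn_Zm_le hx
    linarith [hDm δ hδ]
  have hneg : ∀ X, wn F2 q' (fun u w => (-1) * X u w) = wn F2 q' X := fun X => by
    rw [wn_const_mul]; norm_num
  refine (wn_add_le _ _ _ _).trans ((add_le_add hmain ((wn_add_le _ _ _ _).trans (add_le_add
    (hpart a1 _ _ ha1 C.δ1_mat C.good1) ((wn_add_le _ _ _ _).trans (add_le_add
    (hpart a2 _ _ ha2 C.δ2_mat C.good2) ((wn_add_le _ _ _ _).trans (add_le_add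
    (wn_Zm_le (C.goodξ j1 hj1)) ((wn_add_le _ _ _ _).trans (add_le_add
    ((hneg _).trans_le (wn_Zm_le (C.goodξ j2 hj2))) ((hneg _).trans_le hrem)))))))))).trans ?_)
  unfold rho
  linarith [Real.sqrt_nonneg eps]

end Vale.Agent.P262
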