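import Mathlib

/-!
Absolute constants for P262 (all chosen generously).
-/

namespace Vale.Agent.P262

/-- Cleanliness threshold. -/
noncomputable def eps : ℝ := 1 / 10 ^ 20
/-- Scale of the lifted vectors. -/
noncomputable def sc : ℝ := 1 / 16000
/-- Bound for the lifted old-coordinate energy. -/
noncomputable def K2 : ℝ := 10 ^ 11
/-- Bound for the scalar features. -/
noncomputable def K3 : ℝ := 10 ^ 5
/-- Bound for the excesses. -/
noncomputable def K5 : ℝ := 10 ^ 13
/-- Bound for the excess on the surviving coordinates. -/
noncomputable def K7 : ℝ := 10 ^ 13
/-- Threshold for removing vectors with large old-coordinate part. -/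
noncomputable def eta : ℝ := 1 / (600 * 10 ^ 5)
/-- Number of removed vectors per part. -/
noncomputable def Kc : ℝ := 10 ^ 8
/-- Bound for the born-coordinate energy. -/
noncomputable def Kq : ℝ := 2400001
/-- Injection into the old-coordinate energy at a birth. -/
noncomputable def Kb : ℝ := 5 * 10 ^ 6
/-- Growth of a point at one step, per square root of the width. -/
noncomputable def Kx : ℝ := 2 * 10 ^ 8
/-- Growth of the factor of the positions. -/
noncomputable def Kphi : ℝ := 3 * 10 ^ 9
/-- The rate in the tails of the excesses. -/
noncomputable def lam : ℝ := sc ^ 2 / 1024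
/-- The rate in the Gaussian tails at a threshold. -/
noncomputable def kap : ℝ := sc ^ 2 / 2048

theorem eps_pos : 0 < eps := by norm_num [eps]

theorem eps_lt_one : eps < 1 := by norm_num [eps]

theorem sc_pos : 0 < sc := by norm_num [sc]

end Vale.Agent.P262
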