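import Mathlib

/-!
Shared definitions for the Gaussian balancing part of P262.
-/

open MeasureTheory ProbabilityTheory

namespace Vale.Agent.P262

variable {E : Type*} [NormedAddCommGroup E] [InnerProductSpace ℝ E]

/-- Banaszczyk's operation: the segments of half-length `2` (in units of `v`) around the
midpoints `p` such that both `p + v` and `p - v` lie in `K`. -/
def starBody (K : Set E) (v : E) : Set E :=
  {x | ∃ p : E, ∃ σ ∈ Set.Icc (-2 : ℝ) 2, p + v ∈ K ∧ p - v ∈ K ∧ x = p + σ • v}

/-- A symmetric closed convex set. -/
structure IsBody (K : Set E) : Prop where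
  closed : IsClosed K
  convex : Convex ℝ K
  symm : ∀ x ∈ K, -x ∈ K

end Vale.Agent.P262
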