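import Mathlib

/-!
The classical lower bound for the Euclidean Steinitz constant.
-/

open Finset

namespace Vale.Agent.P262

theorem exists_count_eq {n : ℕ} (P : Fin n → Prop) [DecidablePred P] {j : ℕ}
    (hj : j ≤ (univ.filter P).card) :
    ∃ k : ℕ, (univ.filter fun i : Fin n => (i : ℕ) < k ∧ P i).card = j := by
  classical
  set f : ℕ → ℕ := fun k => (univ.filter fun i : Fin n => (i : ℕ) < k ∧ P i).card with hf
  have hstep : ∀ k, f (k + 1) ≤ f k + 1 := by
    intro k
    have hsub : (univ.filter fun i : Fin n => (i : ℕ) < k + 1 ∧ P i)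
        ⊆ (univ.filter fun i : Fin n => (i : ℕ) < k ∧ P i)
          ∪ (univ.filter fun i : Fin n => (i : ℕ) = k) := by
      intro i
      simp only [mem_filter, mem_univ, true_and, mem_union]
      rintro ⟨h1, h2⟩
      rcases Nat.lt_succ_iff_lt_or_eq.1 h1 with h | h
      · exact Or.inl ⟨h, h2⟩
      · exact Or.inr h
    refine (card_le_card hsub).trans ((card_union_le _ _).trans (Nat.add_le_add_left ?_ _))
    exact card_le_one.2 fun a ha b hb => Fin.ext (by simp at ha hb; omega)
  have hn : j ≤ f n := by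
    refine hj.trans (le_of_eq ?_)
    simp only [hf]
    congr 1
    ext i
    simp
  have key : ∀ m, j ≤ f m → ∃ k, f k = j := by
    intro m
    induction m with
    | zero => exact fun h => ⟨0, le_antisymm (by simp [hf]) h⟩
    | succ m ih =>
      intro h
      by_cases h' : j ≤ f m
      · exact ih h'
      · exact ⟨m + 1, le_antisymm (by have := hstep m; omega) h⟩
  exact key n hn

theorem steinitz_lower_bound (d : ℕ) (hd : 1 ≤ d) :
    ∃ (n : ℕ) (v : Fin n → EuclideanSpace ℝ (Fin d)), (∀ i, ‖v i‖ ≤ 1) ∧ ∑ i, v i = 0 ∧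
      ∀ π : Equiv.Perm (Fin n), ∃ k : ℕ, 1 / 4 * Real.sqrt d
        ≤ ‖∑ i ∈ Finset.univ.filter (fun i : Fin n => (i : ℕ) < k), v (π i)‖ := by
  classical
  rcases eq_or_lt_of_le hd with rfl | hd2
  · refine ⟨2, ![EuclideanSpace.single 0 1, -EuclideanSpace.single 0 1], ?_, ?_, fun π => ⟨1, ?_⟩⟩
    · intro i; fin_cases i <;> simp
    · simp [Fin.sum_univ_two]
    · have hf : (univ.filter fun i : Fin 2 => (i : ℕ) < 1) = {0} := by decide
      rw [hf, sum_singleton]
      have : π 0 = 0 ∨ π 0 = 1 := by omega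
      rcases this with h | h <;> simp [h] <;> norm_num
  let g : Fin d ⊕ Fin d → EuclideanSpace ℝ (Fin d) :=
    Sum.elim (fun u => EuclideanSpace.single u (1 : ℝ))
      (fun _ => WithLp.toLp 2 fun _ => -(1 : ℝ) / d)
  let e : Fin (d + d) ≃ Fin d ⊕ Fin d := finSumFinEquiv.symm
  refine ⟨d + d, fun i => g (e i), fun i => ?_, ?_, fun π => ?_⟩
  · rcases hs : e i with u | u
    · simp [g, hs]
    · simp only [g, hs, Sum.elim_inr]
      rw [← sq_le_one_iff₀ (norm_nonneg _), EuclideanSpace.real_norm_sq_eq]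
      simp only [sum_const, card_univ, Fintype.card_fin, nsmul_eq_mul]
      have : (1 : ℝ) ≤ d := by exact_mod_cast hd
      field_simp
      nlinarith
  · rw [e.sum_comp g, Fintype.sum_sum_type]
    ext u
    have : (d : ℝ) ≠ 0 := by positivity
    simp [g, Finset.sum_apply]
    field_simp
    ring
  let σ : Fin (d + d) ≃ Fin d ⊕ Fin d := π.trans e
  set j := d / 2 with hj
  obtain ⟨k, hk⟩ := exists_count_eq (fun i => (σ i).isLeft = true) (j := j) (by
    calc j ≤ d := Nat.div_le_self d 2
      _ = (univ.map ⟨fun u : Fin d => σ.symm (.inl u),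
            fun a b h => Sum.inl.inj (σ.symm.injective h)⟩).card := by simp
      _ ≤ _ := card_le_card fun i hi => by
        simp only [mem_map, mem_univ, true_and] at hi
        obtain ⟨u, rfl⟩ := hi
        simp only [mem_filter, mem_univ, true_and]
        change (σ (σ.symm (Sum.inl u))).isLeft = true
        rw [σ.apply_symm_apply]
        rfl)
  refine ⟨k, ?_⟩
  set S : Finset (Fin d ⊕ Fin d) :=
    (univ.filter fun i : Fin (d + d) => (i : ℕ) < k).map σ.toEmbedding with hS
  have hsum : ∑ i ∈ univ.filter (fun i : Fin (d + d) => (i : ℕ) < k), g (e (π i))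
      = ∑ s ∈ S, g s := by
    rw [hS, sum_map]; rfl
  set J : Finset (Fin d) := S.toLeft with hJ
  set m : ℝ := (S.toRight.card : ℝ) / d with hm
  have hJc : J.card = j := by
    have key : J.map (Function.Embedding.inl (β := Fin d))
        = (univ.filter fun i : Fin (d + d) => (i : ℕ) < k ∧ (σ i).isLeft = true).map
          σ.toEmbedding := by
      ext s
      rcases s with u | u <;> simp [hJ, hS]
    rw [← hk]
    simpa using congrArg card key
  have hval : ∀ u, (∑ s ∈ S, g s) u = (if u ∈ J then 1 else 0) - m := by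
    intro u
    rw [← S.toLeft_disjSum_toRight, sum_disjSum]
    simp [g, hJ, hm, Finset.sum_apply]
    ring
  simp only [hsum]
  refine le_of_sq_le_sq ?_ (norm_nonneg _)
  rw [mul_pow, Real.sq_sqrt (Nat.cast_nonneg _), EuclideanSpace.real_norm_sq_eq]
  simp only [hval]
  rw [← sum_filter_add_sum_filter_not univ (· ∈ J)]
  rw [sum_congr rfl fun u hu => by rw [if_pos (mem_filter.1 hu).2],
    sum_congr (s₁ := univ.filter fun u => ¬u ∈ J) rfl fun u hu => by
      rw [if_neg (mem_filter.1 hu).2],
    sum_const, sum_const, nsmul_eq_mul, nsmul_eq_mul]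
  have h1 : (univ.filter fun u => u ∈ J).card = j := by rw [filter_univ_mem, hJc]
  have h2 : (univ.filter fun u => ¬u ∈ J).card = d - j := by
    rw [← compl_eq_univ_sdiff J |>.trans (sdiff_eq_filter _ _), card_compl, hJc, Fintype.card_fin]
  rw [h1, h2, Nat.cast_sub (Nat.div_le_self d 2)]
  have hj1 : (d : ℝ) ≤ 2 * j + 1 := by exact_mod_cast (show d ≤ 2 * j + 1 by omega)
  have hj2 : (2 * j : ℝ) ≤ d := by exact_mod_cast (show 2 * j ≤ d by omega)
  have hj3 : (1 : ℝ) ≤ j := by exact_mod_cast (show 1 ≤ j by omega)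
  rcases le_total m (1 / 2) with hm' | hm'
  · nlinarith [mul_le_mul (le_refl (j : ℝ)) (show (1 / 4 : ℝ) ≤ (1 - m) ^ 2 by nlinarith)
      (by norm_num) (by positivity), mul_nonneg (sub_nonneg.2 (show (j : ℝ) ≤ d by linarith))
      (sq_nonneg (0 - m))]
  · nlinarith [mul_le_mul (le_refl ((d : ℝ) - j)) (show (1 / 4 : ℝ) ≤ (0 - m) ^ 2 by nlinarith)
      (by norm_num) (by linarith), mul_nonneg (show (0 : ℝ) ≤ j by positivity)
      (sq_nonneg (1 - m))]

end Vale.Agent.P262
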