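import Vale.Agent.P262.Step

/-!
Assembly: from the node step to the Euclidean Steinitz bound.
-/

open Finset Filter Topology RealInnerProductSpace

namespace Vale.Agent.P262

variable {ι : Type*} [Fintype ι] {d : ℕ}

/-- For all late steps, every coordinate is below the level. -/
theorem exists_Fs_empty (g : Fin d → ℝ) : ∃ N₀, ∀ n, N₀ ≤ n → Fs g n = ∅ := by
  have htend : Tendsto (fun n : ℕ => theta ^ n) atTop atTop :=
    tendsto_pow_atTop_atTop_of_one_lt one_lt_theta
  obtain ⟨N₀, hN₀⟩ := eventually_atTop.1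
    (htend.eventually_gt_atTop (∑ u, Real.sqrt (Real.sqrt (g u))))
  refine ⟨N₀ + 1, fun n hn => eq_empty_of_forall_notMem fun u hu => ?_⟩
  obtain ⟨m, rfl⟩ : ∃ m, n = m + 1 := ⟨n - 1, by omega⟩
  have h1 := (mem_Fs_succ g).1 hu
  rw [qq, qlev, one_le_div (pow_pos theta_pos _)] at h1
  have h2 : theta ^ m ≤ theta ^ lev g (m + 1) :=
    pow_le_pow_right₀ one_lt_theta.le (by have := two_mul_le_lev g (m + 1); omega)
  have h3 := hN₀ m (by omega)
  have h4 : Real.sqrt (Real.sqrt (g u)) ≤ ∑ w, Real.sqrt (Real.sqrt (g w)) :=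
    single_le_sum (f := fun w => Real.sqrt (Real.sqrt (g w)))
      (fun w _ => Real.sqrt_nonneg _) (mem_univ u)
  linarith

/-- The old-coordinate bound decays geometrically once nothing is born. -/
theorem Xb_tail (g : Fin d → ℝ) {N₀ : ℕ} (h : ∀ n, N₀ ≤ n → Fs g n = ∅) (m : ℕ) :
    Xb g (N₀ + m) = (3 / 4) ^ m * Xb g N₀ := by
  induction m with
  | zero => simp
  | succ m ih =>
    have hb : ¬ (born g (N₀ + m)).Nonempty := by
      simp [born, h (N₀ + m) (Nat.le_add_right _ _)]
    rw [← Nat.add_assoc, Xb, if_neg hb, ih, pow_succ]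
    ring

/-- A depth at which all coordinates are below and the old-coordinate bound is tiny. -/
theorem exists_depth (g : Fin d → ℝ) {δ : ℝ} (hδ : 0 < δ) :
    ∃ N, Fs g N = ∅ ∧ Xb g N < δ := by
  obtain ⟨N₀, hN₀⟩ := exists_Fs_empty g
  have ht : Tendsto (fun m : ℕ => (3 / 4 : ℝ) ^ m * Xb g N₀) atTop (𝓝 0) := by
    simpa using (tendsto_pow_atTop_nhds_zero_of_lt_one (by norm_num : (0 : ℝ) ≤ 3 / 4)
      (by norm_num)).mul_const (Xb g N₀)
  obtain ⟨m, hm⟩ := (ht.eventually (gt_mem_nhds hδ)).exists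
  exact ⟨N₀ + m, hN₀ _ (Nat.le_add_right _ _), by rw [Xb_tail g hN₀]; exact hm⟩

variable (v : ι → Fin d → ℝ)

/-- A coordinate with zero second moment vanishes on every vector. -/
theorem eq_zero_of_mom_eq_zero {u : Fin d} (h : mom v u = 0) (k : ι) : v k u = 0 := by
  have := (sum_eq_zero_iff_of_nonneg fun k _ => sq_nonneg (v k u)).1 h k (mem_univ k)
  exact pow_eq_zero_iff two_ne_zero |>.1 this

/-- A coordinate at level zero of weight zero has zero second moment. -/
theorem mom_eq_zero_of_qq_eq_zero {i : ℕ} {u : Fin d} (h : qq (mom v) i u = 0) :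
    mom v u = 0 := by
  have := qlev_pow_four (mom v) (mom_nonneg v) (lev (mom v) i) u
  rw [← qq, h] at this
  have h2 : (0 : ℝ) < 2 ^ lev (mom v) i := by positivity
  field_simp at this
  linarith

/-- Below every level the energy dominates the squared norm. -/
theorem sum_sq_le_fold {N : ℕ} (hN : Fs (mom v) N = ∅) (k : ι) :
    ∑ u, v k u ^ 2 ≤ fold v N k := by
  rw [fold, hN, compl_empty]
  refine sum_le_sum fun u _ => ?_
  rcases eq_or_lt_of_le (qq_nonneg (mom v) N u) with h | h
  · rw [eq_zero_of_mom_eq_zero v (mom_eq_zero_of_qq_eq_zero v h.symm) k]; simp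
  · have h1 : qq (mom v) N u < 1 := by
      by_contra hc
      have : u ∈ Fs (mom v) N := (mem_Fs _).2 (Or.inr (not_lt.1 hc))
      simp [hN] at this
    exact le_div_self (sq_nonneg _) h h1.le

open Classical in
/-- The root of the partition tree. -/
theorem root_node (hsum : ∀ u, ∑ k, v k u = 0)
    (hdiag : ∀ u w, u ≠ w → Gm v univ u w = 0) (N : ℕ) : Node v N 0 univ 0 0 := by
  set g := mom v with hg
  refine ⟨?_, ?_, ?_, ?_, ⟨?_⟩⟩
  · funext u; simp [hsum u]
  · have h0 : ∀ u w, (Gm v univ u w - if u = w then qq g 0 u ^ 4 else 0) = 0 := by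
      intro u w
      by_cases h : u = w
      · subst h
        rw [if_pos rfl, qq_zero_pow g (mom_nonneg v)]
        simp [Gm, hg, mom, sq]
      · rw [if_neg h, hdiag u w h]; simp
    have h1 : wn (Fs g (0 + 1)) (qq g 0)
        (fun u w => Gm v univ u w - if u = w then qq g 0 u ^ 4 else 0) ≤ 0 := by
      have h2 := wn_const_mul (Fs g (0 + 1)) (qq g 0) 0 (fun _ _ => 0)
      simp only [zero_mul, abs_zero] at h2
      exact le_of_eq ((wn_congr (qq g 0) fun u _ w _ => h0 u w).trans h2)
    exact h1.trans (mul_nonneg (by norm_num) (Real.sqrt_nonneg _))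
  · have hl : lev g 1 = wid g 0 := by
      have := lev_succ_eq g 0; simpa [lev, sched] using this
    have h1 : ∑ k, fborn v 0 k = ∑ u ∈ born g 0, g u / qq g 1 u := by
      unfold fborn
      rw [sum_comm]
      exact sum_congr rfl fun u _ => (sum_div _ _ _).symm
    have h2 : ∀ u ∈ born g 0, g u / qq g 1 u ≤ 2 ^ wid g 0 * qq g 1 u := by
      intro u hu
      have hlt : qq g 1 u < 1 := by
        have := (mem_sdiff.1 hu).2
        rw [mem_Fs_succ, not_le] at this
        exact this
      have hq := qq_nonneg g 1 u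
      have h4 : qq g 1 u ^ 4 = g u / 2 ^ wid g 0 := by
        rw [qq, hl]; exact qlev_pow_four g (mom_nonneg v) _ u
      rcases eq_or_lt_of_le hq with h | h
      · rw [← h]; simp
      · rw [div_le_iff₀ h]
        have hp : (0 : ℝ) < 2 ^ wid g 0 := by positivity
        rw [eq_div_iff hp.ne'] at h4
        have : qq g 1 u ^ 4 ≤ qq g 1 u * qq g 1 u := by
          have := pow_le_pow_of_le_one hq hlt.le (show 2 ≤ 4 by norm_num)
          nlinarith
        calc g u = qq g 1 u ^ 4 * 2 ^ wid g 0 := h4.symm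
          _ ≤ qq g 1 u * qq g 1 u * 2 ^ wid g 0 := by gcongr
          _ = 2 ^ wid g 0 * qq g 1 u * qq g 1 u := by ring
    rw [h1]
    refine (sum_le_sum h2).trans ?_
    rw [← mul_sum]
    have h3 : ∑ u ∈ born g 0, qq g 1 u ≤ eps := by
      refine le_trans ?_ (sum_qq_le g 0)
      exact sum_le_sum_of_subset_of_nonneg
        (fun u hu => mem_compl.2 (mem_sdiff.1 hu).2) fun u _ _ => qq_nonneg g 1 u
    calc (2 : ℝ) ^ wid g 0 * ∑ u ∈ born g 0, qq g 1 u ≤ 2 ^ wid g 0 * 1 := by
          gcongr; exact h3.trans eps_lt_one.le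
      _ ≤ Kq * 2 ^ wid g 0 := by
          rw [mul_one]
          exact le_mul_of_one_le_left (by positivity) (by norm_num [Kq])
  · simp [Xi, fold, Fs_zero, Xb]
  · exact
      { R := 0
        oa := 0
        ob := 0
        ja := 0
        jb := 0
        R_nonneg := fun _ => le_rfl
        oa_nonneg := fun _ => le_rfl
        ob_nonneg := fun _ => le_rfl
        ja_le := le_rfl
        jb_le := le_rfl
        bound_a := fun u => by simp
        bound_b := fun u => by simp
        R_or := fun _ _ => Or.inl rfl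
        sum_R := by simp [Bud, Zs]
        future_a := fun n _ => by simp [sh, Bud]; exact mul_nonneg (by norm_num [Ko]) (by positivity)
        future_b := fun n _ => by simp [sh, Bud]; exact mul_nonneg (by norm_num [Ko]) (by positivity) }

/-- At the bottom of the tree all remaining vectors vanish, so any order works. -/
theorem leaf_listing {N : ℕ} (hN : Fs (mom v) N = ∅) {δ : ℝ}
    (hδ : ∀ k, v k ≠ 0 → δ ≤ ∑ u, v k u ^ 2) (hX : Xb (mom v) N < δ)
    {A : Finset ι} {a b : Fin d → ℝ} (h : Node v N N A a b) : Listing v A a := by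
  classical
  have hz : ∀ k ∈ A, v k = 0 := by
    intro k hk
    by_contra hne
    have h1 : fold v N k ≤ Xi v A N :=
      single_le_sum (f := fun k => fold v N k)
        (fun k _ => sum_nonneg fun u _ => div_nonneg (sq_nonneg _) (qq_nonneg _ _ _)) hk
    linarith [hδ k hne, sum_sq_le_fold v hN k, h.old_le]
  refine ⟨A.toList, A.nodup_toList, fun k => mem_toList, fun m => ?_⟩
  have hzero : ((A.toList.take m).map v).sum = 0 := by
    refine List.sum_eq_zero fun x hx => ?_
    obtain ⟨k, hk, rfl⟩ := List.mem_map.1 hx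
    exact hz k (mem_toList.1 (List.mem_of_mem_take hk))
  rw [hzero, add_zero]
  refine (node_pos_le h le_rfl hN).1.trans ?_
  exact mul_le_mul_of_nonneg_right (by norm_num [Kend, Krad]) (Nat.cast_nonneg _)

/-- A zero-sum family with diagonal second-moment matrix has a short listing. -/
theorem listing_univ (hd : 1 ≤ d) (hv : ∀ k, ∑ u, v k u ^ 2 ≤ 1)
    (hsum : ∀ u, ∑ k, v k u = 0) (hdiag : ∀ u w, u ≠ w → Gm v univ u w = 0) :
    Listing v univ 0 := by
  classical
  obtain ⟨δ, hδ, hδle⟩ : ∃ δ : ℝ, 0 < δ ∧ ∀ k, v k ≠ 0 → δ ≤ ∑ u, v k u ^ 2 := by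
    rcases (univ.filter fun k => v k ≠ 0).eq_empty_or_nonempty with h | h
    · exact ⟨1, one_pos, fun k hk => absurd h (ne_empty_of_mem (mem_filter.2 ⟨mem_univ k, hk⟩))⟩
    · obtain ⟨k₀, hk₀, hmin⟩ := exists_min_image _ (fun k => ∑ u, v k u ^ 2) h
      refine ⟨∑ u, v k₀ u ^ 2, ?_, fun k hk => hmin k (mem_filter.2 ⟨mem_univ k, hk⟩)⟩
      refine lt_of_le_of_ne (sum_nonneg fun u _ => sq_nonneg _) fun hzero => ?_
      refine (mem_filter.1 hk₀).2 (funext fun u => ?_)
      exact pow_eq_zero_iff two_ne_zero |>.1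
        ((sum_eq_zero_iff_of_nonneg fun u _ => sq_nonneg _).1 hzero.symm u (mem_univ u))
  obtain ⟨N, hN, hX⟩ := exists_depth (mom v) hδ
  have step : ∀ (m i : ℕ), i + m = N → ∀ (A : Finset ι) (a b : Fin d → ℝ),
      Node v N i A a b → Listing v A a := by
    intro m
    induction m with
    | zero =>
      intro i hi A a b h
      obtain rfl : i = N := by omega
      exact leaf_listing v hN hδle hX h
    | succ m ih =>
      intro i hi A a b h
      exact node_step hd hv (by omega) hN h fun C a' b' h' => ih (i + 1) (by omega) C a' b' h'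
  exact step N 0 (by omega) univ 0 0 (root_node v hsum hdiag N)

/-- The second-moment operator of a family. -/
noncomputable def momOp {n : ℕ} (v : Fin n → EuclideanSpace ℝ (Fin d)) :
    EuclideanSpace ℝ (Fin d) →ₗ[ℝ] EuclideanSpace ℝ (Fin d) :=
  ∑ k, ((innerSL ℝ (v k)).toLinearMap).smulRight (v k)

theorem momOp_apply {n : ℕ} (v : Fin n → EuclideanSpace ℝ (Fin d))
    (x : EuclideanSpace ℝ (Fin d)) : momOp v x = ∑ k, ⟪v k, x⟫ • v k := by
  simp [momOp]

theorem momOp_symm {n : ℕ} (v : Fin n → EuclideanSpace ℝ (Fin d)) :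
    (momOp v).IsSymmetric := by
  intro x y
  simp only [momOp_apply, sum_inner, inner_sum, real_inner_smul_left, real_inner_smul_right]
  refine sum_congr rfl fun k _ => ?_
  rw [real_inner_comm x (v k)]
  ring

/-- The Euclidean Steinitz constant is `O(√d)`. -/
theorem steinitz_euclidean : ∃ C : ℝ, ∀ (d n : ℕ) (v : Fin n → EuclideanSpace ℝ (Fin d)),
    (∀ i, ‖v i‖ ≤ 1) → ∑ i, v i = 0 → ∃ π : Equiv.Perm (Fin n), ∀ k : ℕ,
      ‖∑ i ∈ Finset.univ.filter (fun i : Fin n => (i : ℕ) < k), v (π i)‖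
        ≤ C * Real.sqrt d := by
  classical
  refine ⟨Real.sqrt Krad, fun d n v hv hsum => ?_⟩
  rcases Nat.eq_zero_or_pos d with rfl | hd
  · refine ⟨1, fun k => ?_⟩
    rw [Subsingleton.elim (∑ i ∈ univ.filter (fun i : Fin n => (i : ℕ) < k),
      v ((1 : Equiv.Perm (Fin n)) i)) 0]
    simp
  set b := (momOp_symm v).eigenvectorBasis finrank_euclideanSpace_fin with hb
  set c : Fin n → Fin d → ℝ := fun k u => ⟪b u, v k⟫ with hc
  have hnorm : ∀ x : EuclideanSpace ℝ (Fin d), ∑ u, ⟪b u, x⟫ ^ 2 = ‖x‖ ^ 2 := by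
    intro x
    have := b.sum_sq_norm_inner_right x
    simpa [Real.norm_eq_abs, sq_abs] using this
  have hdiag : ∀ u w, u ≠ w → Gm c univ u w = 0 := by
    intro u w huw
    have h1 : momOp v (b w) = (momOp_symm v).eigenvalues finrank_euclideanSpace_fin w • b w := by
      rw [hb]
      exact (momOp_symm v).apply_eigenvectorBasis finrank_euclideanSpace_fin w
    have h2 := congrArg (fun y => ⟪b u, y⟫) h1
    simp only [momOp_apply, inner_sum, real_inner_smul_right, b.orthonormal.2 huw, mul_zero] at h2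
    rw [Gm, ← h2]
    refine sum_congr rfl fun k _ => ?_
    simp only [hc, real_inner_comm (b w) (v k)]
    ring
  obtain ⟨L, hnd, hmem, hL⟩ := listing_univ c hd
    (fun k => by rw [hnorm]; exact pow_le_one₀ (norm_nonneg _) (hv k))
    (fun u => by rw [← inner_sum, hsum, inner_zero_right]) hdiag
  have hall : ∀ k, k ∈ L := fun k => (hmem k).2 (mem_univ k)
  have hlen : L.length = n := by
    have := Fintype.card_congr (List.Nodup.getEquivOfForallMemList L hnd hall)
    simpa using this
  refine ⟨(finCongr hlen.symm).trans (List.Nodup.getEquivOfForallMemList L hnd hall), fun k => ?_⟩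
  set π : Equiv.Perm (Fin n) :=
    (finCongr hlen.symm).trans (List.Nodup.getEquivOfForallMemList L hnd hall) with hπ
  have hLπ : L = List.ofFn π := by
    refine List.ext_getElem (by simp [hlen]) fun i h1 h2 => ?_
    simp [hπ, List.Nodup.getEquivOfForallMemList]
  have hcoord : ∀ u, (0 + ((L.take k).map c).sum : Fin d → ℝ) u
      = ⟪b u, ∑ i ∈ univ.filter (fun i : Fin n => (i : ℕ) < k), v (π i)⟫ := by
    intro u
    rw [zero_add, hLπ, List.map_take, List.map_ofFn, List.sum_take_ofFn, inner_sum,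
      Finset.sum_apply]
    rfl
  have h := hL k
  rw [sum_congr rfl fun u _ => by rw [hcoord u], hnorm] at h
  rw [← Real.sqrt_mul (by norm_num [Krad])]
  calc ‖∑ i ∈ univ.filter (fun i : Fin n => (i : ℕ) < k), v (π i)‖
      = Real.sqrt (‖∑ i ∈ univ.filter (fun i : Fin n => (i : ℕ) < k), v (π i)‖ ^ 2) :=
        (Real.sqrt_sq (norm_nonneg _)).symm
    _ ≤ Real.sqrt (Krad * d) := Real.sqrt_le_sqrt h

end Vale.Agent.P262
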