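import Vale.Agent.P262.Child

/-!
The bookkeeping of a new end point created by one step.
-/

open Finset

namespace Vale.Agent.P262

variable {ι : Type*} [Fintype ι] {d : ℕ} {v : ι → Fin d → ℝ} {N i : ℕ} {A : Finset ι}
  {a b : Fin d → ℝ}

/-- The weight of a deviation on a coordinate lost by the end of the step. -/
noncomputable def zcost (g : Fin d → ℝ) (i : ℕ) (z : Fin d → ℝ) (u : Fin d) : ℝ :=
  if u ∈ Fs g (i + 1) then 0 else if u ∈ Fs g i then z u ^ 2 else z u ^ 2 / qq g i u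

theorem zcost_nonneg (g : Fin d → ℝ) (i : ℕ) (z : Fin d → ℝ) (u : Fin d) :
    0 ≤ zcost g i z u := by
  unfold zcost
  split_ifs
  · exact le_rfl
  · positivity
  · exact div_nonneg (sq_nonneg _) (qq_nonneg g i u)

/-- A new end point with its own part and its deviation on lost coordinates. -/
structure NewPoint (v : ι → Fin d → ℝ) (N i : ℕ) (a b p : Fin d → ℝ) where
  o : Fin d → ℝ
  z : Fin d → ℝ
  o_nonneg : ∀ u, 0 ≤ o u
  z_nonneg : ∀ u, 0 ≤ z u
  o_zero : ∀ u ∉ Fs (mom v) (i + 1), o u = 0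
  z_zero : ∀ u, qq (mom v) i u = 0 → z u = 0
  surv : ∀ u ∈ Fs (mom v) (i + 1),
    |p u| ≤ max (max |a u| |b u| - qq (mom v) (i + 1) u) 0 + o u
  lost : ∀ u ∉ Fs (mom v) (i + 1), |p u| ≤ max |a u| |b u| + z u
  grow : ∀ u ∈ Fs (mom v) (i + 1),
    o u - qq (mom v) (i + 1) u ≤ Kx * Real.sqrt (wid (mom v) i)
  future : ∀ n ∈ Icc (i + 1) N,
    ∑ u, sh (mom v) n o u ^ 2 ≤ Ko * ((Bud (mom v) n : ℝ) - Bud (mom v) i)
  cost_le : ∑ u, zcost (mom v) i z u
    ≤ Kz * ((cost (mom v) i : ℝ) + wid (mom v) i * Xb (mom v) i)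

theorem excess_four {c t : ℝ} (hc : 0 ≤ c) (h : c < 8 * |t|) : 64 * t ^ 2 ≤ excess c t := by
  unfold excess
  rw [max_eq_left (by linarith [abs_nonneg t]), ← sq_abs t]
  calc 64 * |t| ^ 2 = (8 * |t|) ^ 2 := by ring
    _ ≤ _ := pow_le_pow_left₀ (by positivity) (by linarith) 2

theorem excess_nonneg (c t : ℝ) : 0 ≤ excess c t := sq_nonneg _

open Classical in
/-- The own part, once it counts, is covered by the excesses of its four summands. -/
theorem sum_sq_count_le {c e1 e2 e3 r : ℝ} (hc : 0 ≤ c)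
    (h : c < 2 * (|e1| + |e2| + |e3| + |r|)) :
    (|e1| + |e2| + |e3| + |r|) ^ 2 ≤ (excess c e1 + excess c e2 + excess c e3) / 4
      + 16 * (if c < 8 * |r| then r ^ 2 else 0) := by
  have h0 := excess_nonneg c e1
  have h0' := excess_nonneg c e2
  have h0'' := excess_nonneg c e3
  have hr : 0 ≤ (if c < 8 * |r| then r ^ 2 else 0) := by split_ifs <;> positivity
  set m := max (max |e1| |e2|) (max |e3| |r|) with hm
  have hm1 : |e1| + |e2| + |e3| + |r| ≤ 4 * m := by
    linarith [le_max_left |e1| |e2|, le_max_right |e1| |e2|, le_max_left |e3| |r|,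
      le_max_right |e3| |r|, le_max_left (max |e1| |e2|) (max |e3| |r|),
      le_max_right (max |e1| |e2|) (max |e3| |r|)]
  have hc8 : c < 8 * m := by linarith
  have hsq : (|e1| + |e2| + |e3| + |r|) ^ 2 ≤ 16 * m ^ 2 :=
    (pow_le_pow_left₀ (by positivity) hm1 2).trans (le_of_eq (by ring))
  refine hsq.trans ?_
  rcases max_choice (max |e1| |e2|) (max |e3| |r|) with h1 | h1 <;> rw [← hm] at h1
  · rcases max_choice |e1| |e2| with h2 | h2 <;> rw [h2] at h1 <;> rw [h1] at hc8 ⊢ <;>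
      rw [sq_abs] <;> linarith [excess_four hc hc8]
  · rcases max_choice |e3| |r| with h2 | h2 <;> rw [h2] at h1 <;> rw [h1] at hc8 ⊢ <;>
      rw [sq_abs]
    · linarith [excess_four hc hc8]
    · rw [if_pos hc8]; linarith

theorem abs_excess_le {c t W : ℝ} (hW : 0 ≤ W) (h : excess c t ≤ K7 * W) :
    16 * |t| ≤ c + 4 * 10 ^ 6 * Real.sqrt W := by
  have hb : max (16 * |t| - c) 0 ≤ 4 * 10 ^ 6 * Real.sqrt W := by
    refine le_of_sq_le_sq ?_ (by positivity)
    rw [mul_pow, Real.sq_sqrt hW]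
    refine h.trans (mul_le_mul_of_nonneg_right (by norm_num [K7]) hW)
  linarith [le_max_left (16 * |t| - c) 0]

theorem sq_sum_six_le (x1 x2 x3 x4 x5 x6 : ℝ) :
    (|x1| + |x2| + |x3| + |x4| + |x5| + |x6|) ^ 2
      ≤ 6 * (x1 ^ 2 + x2 ^ 2 + x3 ^ 2 + x4 ^ 2 + x5 ^ 2 + x6 ^ 2) := by
  rw [← sq_abs x1, ← sq_abs x2, ← sq_abs x3, ← sq_abs x4, ← sq_abs x5, ← sq_abs x6]
  nlinarith [sq_nonneg (|x1| - |x2|), sq_nonneg (|x1| - |x3|), sq_nonneg (|x1| - |x4|),
    sq_nonneg (|x1| - |x5|), sq_nonneg (|x1| - |x6|), sq_nonneg (|x2| - |x3|),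
    sq_nonneg (|x2| - |x4|), sq_nonneg (|x2| - |x5|), sq_nonneg (|x2| - |x6|),
    sq_nonneg (|x3| - |x4|), sq_nonneg (|x3| - |x5|), sq_nonneg (|x3| - |x6|),
    sq_nonneg (|x4| - |x5|), sq_nonneg (|x4| - |x6|), sq_nonneg (|x5| - |x6|)]

theorem ev_eq_zero {u : Fin d} (hu : mom v u = 0) (x : ι → ℝ) : ev v A x u = 0 := by
  refine sum_eq_zero fun k _ => ?_
  have := (sum_eq_zero_iff_of_nonneg fun k _ => sq_nonneg (v k u)).1 hu k (mem_univ k)
  simp [(pow_eq_zero_iff two_ne_zero).1 this]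

theorem mom_eq_zero_of_qq {u : Fin d} (h : qq (mom v) i u = 0) : mom v u = 0 := by
  have h4 := qlev_pow_four (mom v) (mom_nonneg v) (lev (mom v) i) u
  rw [← qq, h, zero_pow four_ne_zero, eq_comm, div_eq_zero_iff] at h4
  exact h4.resolve_right (by positivity)

omit [Fintype ι] in
/-- The signed sum over a few vectors, coordinatewise. -/
theorem sum_sq_small_le (R : Finset ι) (f : ι → Fin d → ℝ) (S : Finset (Fin d))
    (w : Fin d → ℝ) (hw : ∀ u, 0 ≤ w u) :
    ∑ u ∈ S, (∑ k ∈ R, f k u) ^ 2 / w u ≤ (R.card : ℝ) * ∑ k ∈ R, ∑ u ∈ S, f k u ^ 2 / w u := by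
  rw [sum_comm, mul_sum]
  refine sum_le_sum fun u _ => ?_
  rw [← sum_div, ← mul_div_assoc]
  exact div_le_div_of_nonneg_right sq_sum_le_card_mul_sum_sq (hw u)

omit [Fintype ι] in
/-- The leak of a bias, coordinatewise. -/
theorem sum_sq_leak_le (δ : ι → ℝ) (A : Finset ι) (f : ι → Fin d → ℝ) (S : Finset (Fin d))
    (w : Fin d → ℝ) (hw : ∀ u, 0 ≤ w u) :
    ∑ u ∈ S, (∑ k ∈ A, δ k * f k u) ^ 2 / w u
      ≤ (∑ k ∈ A, δ k ^ 2) * ∑ k ∈ A, ∑ u ∈ S, f k u ^ 2 / w u := by
  rw [sum_comm, mul_sum]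
  refine sum_le_sum fun u _ => ?_
  rw [← sum_div, ← mul_div_assoc]
  exact div_le_div_of_nonneg_right (sum_mul_sq_le_sq_mul_sq _ _ _) (hw u)

theorem Node.newPoint_future (hv : ∀ k, ∑ u, v k u ^ 2 ≤ 1) {x1 x2 x3 : ι → ℝ}
    (h1 : Good v N i A x1) (h2 : Good v N i A x2) (h3 : Good v N i A x3) (R : Finset ι)
    (hR : (R.card : ℝ) ≤ Kc * Real.sqrt (wid (mom v) i)) (σ : ℝ) (hσ : |σ| ≤ 1)
    (o : Fin d → ℝ) (ho : ∀ u, o u = if u ∈ Fs (mom v) (i + 1) then
      |ev v A x1 u| + |ev v A x2 u| + |ev v A x3 u| + |σ * ∑ k ∈ R, v k u| else 0)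
    {n : ℕ} (hn : n ∈ Icc (i + 1) N) :
    ∑ u, sh (mom v) n o u ^ 2 ≤ Ko * ((Bud (mom v) n : ℝ) - Bud (mom v) i) := by
  classical
  set g := mom v with hg
  obtain ⟨hn1, hn2⟩ := mem_Icc.1 hn
  have hnI : n ∈ Ioc i N := mem_Ioc.2 ⟨by omega, hn2⟩
  set F1 := Fs g (i + 1) with hF1
  have hsub : F1 ⊆ Fs g i := Fs_anti g (Nat.le_succ i)
  set r : Fin d → ℝ := fun u => σ * ∑ k ∈ R, v k u with hr
  have hpt : ∀ u ∈ F1, sh g n o u ^ 2 ≤ (excess (cth g n u) (ev v A x1 u)
      + excess (cth g n u) (ev v A x2 u) + excess (cth g n u) (ev v A x3 u)) / 4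
      + 16 * (if cth g n u < 8 * |r u| then r u ^ 2 else 0) := by
    intro u hu
    unfold sh
    split_ifs with hlt h8
    all_goals
      have e0 := excess_nonneg (cth g n u) (ev v A x1 u)
      have e0' := excess_nonneg (cth g n u) (ev v A x2 u)
      have e0'' := excess_nonneg (cth g n u) (ev v A x3 u)
    · rw [ho, if_pos hu] at hlt ⊢
      exact (sum_sq_count_le (cth_nonneg g n u) hlt).trans (le_of_eq (by rw [if_pos h8]))
    · rw [ho, if_pos hu] at hlt ⊢
      exact (sum_sq_count_le (cth_nonneg g n u) hlt).trans (le_of_eq (by rw [if_neg h8]))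
    · rw [zero_pow two_ne_zero]; positivity
    · rw [zero_pow two_ne_zero]; positivity
  have hex : ∀ {x}, Good v N i A x → ∑ u ∈ F1, excess (cth g n u) (ev v A x u)
      ≤ K5 * ((Bud g n : ℝ) - Bud g i) := fun hx =>
    (sum_le_sum_of_subset_of_nonneg hsub fun u _ _ => excess_nonneg _ _).trans (hx.2.2.2.1 n hnI)
  set ΔB := (Bud g n : ℝ) - Bud g i with hΔ
  have hmono : Bud g (i + 1) ≤ Bud g n := Bud_mono g hn1
  rw [Bud_succ] at hmono
  have hW0 : (0 : ℝ) ≤ wid g i := Nat.cast_nonneg _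
  have hΔ0 : (cost g i : ℝ) ≤ ΔB := by
    rw [hΔ]
    have : ((Bud g i + cost g i : ℕ) : ℝ) ≤ Bud g n := by exact_mod_cast hmono
    push_cast at this
    linarith
  have hrsum : ∑ u ∈ F1, (if cth g n u < 8 * |r u| then r u ^ 2 else 0) ≤ 3 * Kc ^ 2 * ΔB := by
    have hrb : ∑ u, r u ^ 2 ≤ (R.card : ℝ) * R.card := by
      calc ∑ u, r u ^ 2 ≤ ∑ u, (∑ k ∈ R, v k u) ^ 2 / (fun _ : Fin d => (1 : ℝ)) u := by
            refine sum_le_sum fun u _ => ?_
            rw [div_one, hr, mul_pow]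
            refine mul_le_of_le_one_left (sq_nonneg _) ?_
            rw [← sq_abs]; exact pow_le_one₀ (abs_nonneg _) hσ
        _ ≤ (R.card : ℝ) * ∑ k ∈ R, ∑ u, v k u ^ 2 / 1 :=
            sum_sq_small_le R v univ _ fun _ => zero_le_one
        _ ≤ (R.card : ℝ) * R.card := by
            refine mul_le_mul_of_nonneg_left ?_ (Nat.cast_nonneg _)
            simp only [div_one]
            exact (sum_le_card_nsmul _ _ (1 : ℝ) fun k _ => hv k).trans (by simp)
    have hcount : (R.card : ℝ) * R.card ≤ Kc ^ 2 * wid g i := by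
      refine (mul_le_mul hR hR (Nat.cast_nonneg _) ?_).trans (le_of_eq ?_)
      · exact (Nat.cast_nonneg _).trans hR
      · rw [show Kc * Real.sqrt (wid g i) * (Kc * Real.sqrt (wid g i))
          = Kc ^ 2 * (Real.sqrt (wid g i) * Real.sqrt (wid g i)) by ring,
          Real.mul_self_sqrt hW0]
    rcases Nat.eq_zero_or_pos (Bud g n - Bud g i) with h0 | h0
    · have hFn : F1 ⊆ Fs g n := by
        intro u hu
        have hc := card_sdiff_Fs g (i := i) (n := n) (by omega)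
        by_contra hnot
        have : 0 < (Fs g i \ Fs g n).card := card_pos.2 ⟨u, mem_sdiff.2 ⟨hsub hu, hnot⟩⟩
        omega
      have hW : wid g i = 2 := by
        have := two_le_wid g i
        unfold cost at hmono
        omega
      refine le_trans (le_of_eq (sum_eq_zero fun u hu => ?_)) ?_
      · rw [if_neg]
        rw [not_lt]
        have hm : u ∈ Fs g n := hFn hu
        obtain ⟨m, rfl⟩ : ∃ m, n = m + 1 := ⟨n - 1, by omega⟩
        rw [cth, if_pos hm]
        have h1 := inv_qq_le_eps g hm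
        have hpos : 0 < qq g (m + 1) u := lt_of_lt_of_le one_pos ((mem_Fs_succ g).1 hm)
        rw [inv_le_comm₀ hpos eps_pos] at h1
        have hru : |r u| ≤ R.card := by
          rw [hr, abs_mul]
          refine (mul_le_of_le_one_left (abs_nonneg _) hσ).trans ?_
          refine (abs_sum_le_sum_abs _ _).trans ((sum_le_card_nsmul _ _ (1 : ℝ) fun k _ => ?_).trans
            (by simp))
          rw [← sq_le_one_iff_abs_le_one]
          exact (single_le_sum (f := fun u => v k u ^ 2) (fun u _ => sq_nonneg _)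
            (mem_univ u)).trans (hv k)
        have h2 : Real.sqrt (wid g i) ≤ 2 := by
          rw [hW]; exact Real.sqrt_le_iff.2 ⟨by norm_num, by norm_num⟩
        have h3 : 8 * (Kc * 2) ≤ eps⁻¹ := by norm_num [Kc, eps]
        have h4 := mul_le_mul_of_nonneg_left h2 (show (0 : ℝ) ≤ Kc by norm_num [Kc])
        linarith
      · have : 0 ≤ ΔB := le_trans (Nat.cast_nonneg _) hΔ0
        positivity
    · have h1 : (1 : ℝ) ≤ ΔB := by
        have : ((Bud g i + 1 : ℕ) : ℝ) ≤ Bud g n := by exact_mod_cast (show Bud g i + 1 ≤ Bud g n by omega)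
        push_cast at this
        linarith
      calc ∑ u ∈ F1, (if cth g n u < 8 * |r u| then r u ^ 2 else 0) ≤ ∑ u, r u ^ 2 :=
            (sum_le_sum fun u _ => by
              split_ifs
              · exact le_rfl
              · positivity).trans (sum_le_sum_of_subset_of_nonneg (subset_univ _)
                fun _ _ _ => sq_nonneg _)
        _ ≤ Kc ^ 2 * wid g i := hrb.trans hcount
        _ ≤ Kc ^ 2 * (3 * ΔB) :=
            mul_le_mul_of_nonneg_left (by linarith [wid_le g i]) (sq_nonneg _)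
        _ = 3 * Kc ^ 2 * ΔB := by ring
  have hz : ∀ u ∉ F1, sh g n o u ^ 2 = 0 := fun u hu => by
    unfold sh
    rw [ho, if_neg hu]
    simp
  rw [← sum_subset (subset_univ F1) fun u _ hu => hz u hu]
  refine (sum_le_sum hpt).trans ?_
  rw [sum_add_distrib, ← mul_sum, ← sum_div, sum_add_distrib, sum_add_distrib]
  have h0 : 0 ≤ ΔB := le_trans (Nat.cast_nonneg _) hΔ0
  have hKo : 3 / 4 * K5 + 48 * Kc ^ 2 ≤ Ko := by norm_num [K5, Kc, Ko]
  linarith [hex h1, hex h2, hex h3, mul_le_mul_of_nonneg_right hKo h0]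

theorem Node.newPoint_cost (h : Node v N i A a b) (hv : ∀ k, ∑ u, v k u ^ 2 ≤ 1) (hiN : i < N)
    {x1 x2 x3 δ1 δ2 : ι → ℝ}
    (h1 : Good v N i A x1) (h2 : Good v N i A x2) (h3 : Good v N i A x3)
    (hd1 : ∑ k ∈ A, δ1 k ^ 2 ≤ 300 * eps / 2 ^ wid (mom v) i)
    (hd2 : ∑ k ∈ A, δ2 k ^ 2 ≤ 300 * eps / 2 ^ wid (mom v) i)
    (R : Finset ι) (hRA : R ⊆ A)
    (hR : (R.card : ℝ) ≤ Kc * Real.sqrt (wid (mom v) i)) (σ : ℝ) (hσ : |σ| ≤ 1)
    (z : Fin d → ℝ) (hz : ∀ u, z u = |ev v A δ1 u| + |ev v A δ2 u| + |ev v A x1 u|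
      + |ev v A x2 u| + |ev v A x3 u| + |σ * ∑ k ∈ R, v k u|) :
    ∑ u, zcost (mom v) i z u ≤ Kz * ((cost (mom v) i : ℝ) + wid (mom v) i * Xb (mom v) i) := by
  classical
  set g := mom v with hg
  set W : ℝ := (wid g i : ℝ) with hW
  have hW2 : 2 ≤ W := by rw [hW]; exact_mod_cast two_le_wid g i
  have hM : (4 : ℝ) ≤ 2 ^ wid g i := four_le_pow_wid g i
  set X := Xi v A i with hX
  have hX0 : 0 ≤ X := Xi_nonneg v A i
  have hKc : (0 : ℝ) ≤ Kc := by norm_num [Kc]
  have hσ2 : σ ^ 2 ≤ 1 := by rw [← sq_abs]; exact pow_le_one₀ (abs_nonneg _) hσ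
  have hqn := qq_nonneg g i
  have hsqW : Real.sqrt W ≤ W := by
    rw [Real.sqrt_le_iff]; exact ⟨by linarith, by nlinarith⟩
  have hcardW : (R.card : ℝ) * R.card ≤ Kc ^ 2 * W := by
    refine (mul_le_mul hR hR (Nat.cast_nonneg _) ((Nat.cast_nonneg _).trans hR)).trans (le_of_eq ?_)
    rw [show Kc * Real.sqrt W * (Kc * Real.sqrt W) = Kc ^ 2 * (Real.sqrt W * Real.sqrt W) by ring,
      Real.mul_self_sqrt (by linarith)]
  set S := ∑ u ∈ (Fs g i)ᶜ, z u ^ 2 / qq g i u with hS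
  set T := ∑ u ∈ born g i, z u ^ 2 with hT
  have htot : ∑ u, zcost g i z u = S + T := by
    rw [hS, hT, ← sum_compl_add_sum (Fs g i)]
    congr 1
    · refine sum_congr rfl fun u hu => ?_
      have hu' : u ∉ Fs g i := mem_compl.1 hu
      have hu'' : u ∉ Fs g (i + 1) := fun h => hu' (Fs_anti g (Nat.le_succ i) h)
      simp [zcost, hu', hu'']
    · rw [born, ← sum_sdiff (Fs_anti g (Nat.le_succ i))]
      rw [show ∑ u ∈ Fs g (i + 1), zcost g i z u = 0 from
        sum_eq_zero fun u hu => by simp [zcost, hu], add_zero]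
      refine sum_congr rfl fun u hu => ?_
      obtain ⟨h1, h2⟩ := mem_sdiff.1 hu
      simp [zcost, h1, h2]
  have hSle : S ≤ Kz * (W * Xb g i) := by
    have hd : ∀ {δ : ι → ℝ}, ∑ k ∈ A, δ k ^ 2 ≤ 300 * eps / 2 ^ wid g i →
        ∑ u ∈ (Fs g i)ᶜ, ev v A δ u ^ 2 / qq g i u ≤ W * X := by
      intro δ hδ
      refine (sum_sq_leak_le δ A v _ _ hqn).trans ?_
      change (∑ k ∈ A, δ k ^ 2) * X ≤ W * X
      refine mul_le_mul_of_nonneg_right (hδ.trans ?_) hX0
      rw [div_le_iff₀ (by linarith)]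
      nlinarith [show 300 * eps ≤ 1 by norm_num [eps]]
    have hr : ∑ u ∈ (Fs g i)ᶜ, (σ * ∑ k ∈ R, v k u) ^ 2 / qq g i u ≤ Kc * W * X := by
      calc ∑ u ∈ (Fs g i)ᶜ, (σ * ∑ k ∈ R, v k u) ^ 2 / qq g i u
          ≤ ∑ u ∈ (Fs g i)ᶜ, (∑ k ∈ R, v k u) ^ 2 / qq g i u := sum_le_sum fun u _ =>
            div_le_div_of_nonneg_right
              (by rw [mul_pow]; exact mul_le_of_le_one_left (sq_nonneg _) hσ2) (hqn u)
        _ ≤ (R.card : ℝ) * ∑ k ∈ R, fold v i k := sum_sq_small_le R v _ _ hqn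
        _ ≤ (Kc * W) * X := by
            refine mul_le_mul (hR.trans (mul_le_mul_of_nonneg_left hsqW hKc)) ?_
              (sum_nonneg fun k _ => fold_nonneg v i k) (by positivity)
            exact sum_le_sum_of_subset_of_nonneg hRA fun k _ _ => fold_nonneg v i k
    have hS' : S ≤ 6 * (W * X + W * X + K2 * W * X + K2 * W * X + K2 * W * X + Kc * W * X) := by
      have hpw : ∀ u ∈ (Fs g i)ᶜ, z u ^ 2 / qq g i u ≤ 6 * ((ev v A δ1 u ^ 2 + ev v A δ2 u ^ 2
          + ev v A x1 u ^ 2 + ev v A x2 u ^ 2 + ev v A x3 u ^ 2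
          + (σ * ∑ k ∈ R, v k u) ^ 2) / qq g i u) := fun u _ => by
        rw [hz]
        exact (div_le_div_of_nonneg_right (sq_sum_six_le _ _ _ _ _ _) (hqn u)).trans
          (le_of_eq (by rw [mul_div_assoc]))
      refine (sum_le_sum hpw).trans ?_
      rw [← mul_sum]
      refine mul_le_mul_of_nonneg_left ?_ (by norm_num : (0 : ℝ) ≤ 6)
      simp only [add_div, sum_add_distrib]
      exact add_le_add (add_le_add (add_le_add (add_le_add (add_le_add (hd hd1) (hd hd2))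
          h1.1) h2.1) h3.1) hr
    have h5 : 6 * (2 + 3 * K2 + Kc) ≤ Kz := by norm_num [K2, Kc, Kz]
    calc S ≤ (6 * (2 + 3 * K2 + Kc)) * (W * X) := hS'.trans (le_of_eq (by ring))
      _ ≤ Kz * (W * Xb g i) := mul_le_mul h5 (mul_le_mul_of_nonneg_left h.old_le (by linarith))
          (by positivity) (by norm_num [Kz])
  have hTle : T ≤ Kz * (cost g i : ℝ) := by
    rcases (born g i).eq_empty_or_nonempty with he | hne
    · rw [hT, he, sum_empty]
      have : (0 : ℝ) ≤ Kz := by norm_num [Kz]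
      positivity
    have hb1 : (1 : ℝ) ≤ cost g i := by
      have : 0 < (born g i).card := card_pos.2 hne
      exact_mod_cast (show 1 ≤ cost g i by unfold cost; omega)
    have hWb : W ≤ 3 * cost g i := by linarith [wid_le g i]
    have hq1 : ∀ u ∈ born g i, qq g (i + 1) u ≤ 1 := by
      intro u hu
      have h2 := (mem_sdiff.1 hu).2
      rw [mem_Fs_succ, not_le] at h2
      exact h2.le
    have hd : ∀ {δ : ι → ℝ}, ∑ k ∈ A, δ k ^ 2 ≤ 300 * eps / 2 ^ wid g i →
        ∑ u ∈ born g i, ev v A δ u ^ 2 ≤ 300 * eps * Kq := by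
      intro δ hδ
      calc ∑ u ∈ born g i, ev v A δ u ^ 2
          = ∑ u ∈ born g i, ev v A δ u ^ 2 / (fun _ : Fin d => (1 : ℝ)) u := by simp
        _ ≤ (∑ k ∈ A, δ k ^ 2) * ∑ k ∈ A, ∑ u ∈ born g i, v k u ^ 2 / 1 :=
            sum_sq_leak_le δ A v _ _ fun _ => zero_le_one
        _ ≤ (300 * eps / 2 ^ wid g i) * (Kq * 2 ^ wid g i) := by
            refine mul_le_mul hδ (le_trans (sum_le_sum fun k _ => sum_le_sum fun u hu => ?_)
              h.born_le) (sum_nonneg fun k _ => sum_nonneg fun u _ => by positivity)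
              (by have := eps_pos; positivity)
            rw [div_one, ← hg]
            rcases eq_or_lt_of_le (qq_nonneg g (i + 1) u) with h0 | h0
            · have hk := (sum_eq_zero_iff_of_nonneg fun k _ => sq_nonneg (v k u)).1
                (mom_eq_zero_of_qq (i := i + 1) h0.symm) k (mem_univ k)
              simp [hk]
            · exact le_div_self (sq_nonneg _) h0 (hq1 u hu)
        _ = 300 * eps * Kq := by field_simp
    have he : ∀ {x}, Good v N i A x →
        ∑ u ∈ born g i, ev v A x u ^ 2 ≤ K5 / 256 * cost g i := by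
      intro x hx
      have h4 := hx.2.2.2.1 (i + 1) (mem_Ioc.2 ⟨by omega, hiN⟩)
      rw [← hg, Bud_succ] at h4
      push_cast at h4
      have h5 : ∑ u ∈ born g i, 256 * ev v A x u ^ 2
          ≤ ∑ u ∈ Fs g i, excess (cth g (i + 1) u) (ev v A x u) := by
        refine le_trans (le_of_eq (sum_congr rfl fun u hu => ?_))
          (sum_le_sum_of_subset_of_nonneg sdiff_subset fun u _ _ => excess_nonneg _ _)
        rw [cth, if_neg (mem_sdiff.1 hu).2, excess, sub_zero, max_eq_left (by positivity), mul_pow,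
          sq_abs]
        norm_num
      rw [← mul_sum] at h5
      linarith
    have hr : ∑ u ∈ born g i, (σ * ∑ k ∈ R, v k u) ^ 2 ≤ Kc ^ 2 * W := by
      calc ∑ u ∈ born g i, (σ * ∑ k ∈ R, v k u) ^ 2
          ≤ ∑ u, (∑ k ∈ R, v k u) ^ 2 / (fun _ : Fin d => (1 : ℝ)) u := by
            refine le_trans (sum_le_sum_of_subset_of_nonneg (subset_univ _)
              fun _ _ _ => sq_nonneg _) (sum_le_sum fun u _ => ?_)
            rw [div_one, mul_pow]
            exact mul_le_of_le_one_left (sq_nonneg _) hσ2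
        _ ≤ (R.card : ℝ) * ∑ k ∈ R, ∑ u, v k u ^ 2 / 1 :=
            sum_sq_small_le R v univ _ fun _ => zero_le_one
        _ ≤ (R.card : ℝ) * R.card := by
            refine mul_le_mul_of_nonneg_left ?_ (Nat.cast_nonneg _)
            simp only [div_one]
            exact (sum_le_card_nsmul _ _ (1 : ℝ) fun k _ => hv k).trans (by simp)
        _ ≤ Kc ^ 2 * W := hcardW
    have hsum : T ≤ 6 * (300 * eps * Kq + 300 * eps * Kq + K5 / 256 * cost g i
        + K5 / 256 * cost g i + K5 / 256 * cost g i + Kc ^ 2 * W) := by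
      have hpw : ∀ u ∈ born g i, z u ^ 2 ≤ 6 * (ev v A δ1 u ^ 2 + ev v A δ2 u ^ 2
          + ev v A x1 u ^ 2 + ev v A x2 u ^ 2 + ev v A x3 u ^ 2
          + (σ * ∑ k ∈ R, v k u) ^ 2) := fun u _ => by
        rw [hz]; exact sq_sum_six_le _ _ _ _ _ _
      refine (sum_le_sum hpw).trans ?_
      rw [← mul_sum]
      refine mul_le_mul_of_nonneg_left ?_ (by norm_num : (0 : ℝ) ≤ 6)
      simp only [sum_add_distrib]
      exact add_le_add (add_le_add (add_le_add (add_le_add (add_le_add (hd hd1) (hd hd2))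
          (he h1)) (he h2)) (he h3)) hr
    have h5 : 6 * (600 * eps * Kq + 3 * (K5 / 256) + 3 * Kc ^ 2) ≤ Kz := by
      norm_num [eps, Kq, K5, Kc, Kz]
    refine hsum.trans (le_trans ?_ (mul_le_mul_of_nonneg_right h5 (Nat.cast_nonneg _)))
    have h6 := mul_le_mul_of_nonneg_left hWb (sq_nonneg Kc)
    have h7 := mul_le_mul_of_nonneg_left hb1 (show 0 ≤ 600 * eps * Kq by norm_num [eps, Kq])
    linarith
  rw [htot]
  linarith

/-- A boundary of the cut, shifted by a few vectors, is a new end point. -/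
theorem Node.exists_newPoint (h : Node v N i A a b) (hv : ∀ k, ∑ u, v k u ^ 2 ≤ 1) (hiN : i < N)
    (C : Cut v N i A a b) {j : ℕ} (hj1 : 1 ≤ j) (hj : j < 2 ^ wid (mom v) i)
    (R : Finset ι) (hRA : R ⊆ A) (hR : (R.card : ℝ) ≤ Kc * Real.sqrt (wid (mom v) i))
    (σ : ℝ) (hσ : |σ| ≤ 1) (p : Fin d → ℝ)
    (hp : ∀ u, p u = a u + ∑ k ∈ A with C.part k < j, v k u + σ * ∑ k ∈ R, v k u) :
    Nonempty (NewPoint v N i a b p) := by
  classical
  obtain ⟨j1, hj1', hpt⟩ := C.point_le j hj1 hj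
  set g := mom v with hg
  have h3 := C.goodξ j1 hj1'
  refine ⟨⟨fun u => if u ∈ Fs g (i + 1) then |ev v A C.x1 u| + |ev v A C.x2 u|
      + |ev v A (C.ξ j1) u| + |σ * ∑ k ∈ R, v k u| else 0,
    fun u => |ev v A C.δ1 u| + |ev v A C.δ2 u| + |ev v A C.x1 u|
      + |ev v A C.x2 u| + |ev v A (C.ξ j1) u| + |σ * ∑ k ∈ R, v k u|,
    fun u => by
      split_ifs
      · positivity
      · exact le_rfl,
    fun u => by positivity, fun u hu => if_neg hu, ?_, ?_, ?_, ?_,
    fun n hn => Node.newPoint_future hv C.good1 C.good2 h3 R hR σ hσ _ (fun u => rfl) hn,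
    Node.newPoint_cost h hv hiN C.good1 C.good2 h3 C.δ1_sq C.δ2_sq R hRA hR σ hσ _
      (fun u => rfl)⟩⟩
  · intro u hu
    have h0 := mom_eq_zero_of_qq hu
    have : ∑ k ∈ R, v k u = 0 := sum_eq_zero fun k _ => by
      simpa using (sum_eq_zero_iff_of_nonneg fun k _ => sq_nonneg (v k u)).1 h0 k (mem_univ k)
    simp [ev_eq_zero h0, this]
  · intro u hu
    rw [hp, if_pos hu]
    refine (abs_add_le _ _).trans ?_
    linarith [(hpt u).1 hu]
  · intro u hu
    rw [hp]
    refine (abs_add_le _ _).trans ?_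
    linarith [(hpt u).2 hu]
  · intro u hu
    rw [if_pos hu]
    have hW0 : (0 : ℝ) ≤ wid g i := Nat.cast_nonneg _
    have hq0 := qq_nonneg g (i + 1) u
    have hb : ∀ {x}, Good v N i A x → 16 * |ev v A x u|
        ≤ qq g (i + 1) u + 4 * 10 ^ 6 * Real.sqrt (wid g i) := fun hx =>
      abs_excess_le hW0 ((single_le_sum (f := fun u => excess (qq g (i + 1) u) (ev v A _ u))
        (fun u _ => excess_nonneg _ _) hu).trans hx.2.2.2.2)
    have hr : |σ * ∑ k ∈ R, v k u| ≤ Kc * Real.sqrt (wid g i) := by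
      rw [abs_mul]
      refine (mul_le_of_le_one_left (abs_nonneg _) hσ).trans (le_trans ?_ hR)
      refine (abs_sum_le_sum_abs _ _).trans ((sum_le_card_nsmul _ _ (1 : ℝ) fun k _ => ?_).trans
        (by simp))
      rw [← sq_le_one_iff_abs_le_one]
      exact (single_le_sum (f := fun u => v k u ^ 2) (fun u _ => sq_nonneg _)
        (mem_univ u)).trans (hv k)
    have hK : 3 * (4 * 10 ^ 6) / 16 + Kc ≤ Kx := by norm_num [Kc, Kx]
    have h4 := mul_le_mul_of_nonneg_right hK (Real.sqrt_nonneg (wid g i : ℝ))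
    linarith [hb C.good1, hb C.good2, hb h3]

end Vale.Agent.P262
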