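import Vale.Agent.P262.Body

/-!
The invariant of a node of the partition tree.
-/

open Finset

namespace Vale.Agent.P262

/-- Bound for the weighted distance of a node's matrix from the expected one. -/
noncomputable def rho : ℝ := 20 * Real.sqrt eps
/-- Bound for own parts. -/
noncomputable def Ko : ℝ := 10 ^ 18
/-- Bound for the deviations off the surviving coordinates. -/
noncomputable def Kz : ℝ := 10 ^ 18
/-- Bound for the retired parts. -/
noncomputable def KR : ℝ := 10 ^ 19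
/-- Bound for the squared norm of an end point of a node, per dimension. -/
noncomputable def Kend : ℝ := 10 ^ 51
/-- Bound for the squared norm of every partial sum, per dimension. -/
noncomputable def Krad : ℝ := 10 ^ 52

variable {d : ℕ}

/-- The factor of a position at step `i`. -/
noncomputable def posFac (g : Fin d → ℝ) (i : ℕ) (u : Fin d) : ℝ :=
  if u ∈ Fs g i then 2 + Kphi * min eps (qq g i u)⁻¹ else Real.sqrt (60 - 10 * qq g i u)

/-- An own part counts at scale `n` once it exceeds half of the threshold. -/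
noncomputable def sh (g : Fin d → ℝ) (n : ℕ) (o : Fin d → ℝ) (u : Fin d) : ℝ :=
  if cth g n u < 2 * o u then o u else 0

/-- The total controlling a position. -/
noncomputable def Sg (g : Fin d → ℝ) (i : ℕ) (R oa ob : Fin d → ℝ) (u : Fin d) : ℝ :=
  R u + sh g i oa u ^ 2 + sh g i ob u ^ 2

/-- The invariant of the two end points of a node. -/
structure PosData (g : Fin d → ℝ) (N i : ℕ) (a b : Fin d → ℝ) where
  R : Fin d → ℝ
  oa : Fin d → ℝ
  ob : Fin d → ℝ
  ja : ℕ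
  jb : ℕ
  R_nonneg : ∀ u, 0 ≤ R u
  oa_nonneg : ∀ u, 0 ≤ oa u
  ob_nonneg : ∀ u, 0 ≤ ob u
  ja_le : ja ≤ i
  jb_le : jb ≤ i
  bound_a : ∀ u, |a u| ≤ max (oa u) (posFac g i u * Real.sqrt (Sg g i R oa ob u))
  bound_b : ∀ u, |b u| ≤ max (ob u) (posFac g i u * Real.sqrt (Sg g i R oa ob u))
  R_or : ∀ u ∈ Fs g i, R u = 0 ∨ (qq g i u / 2) ^ 2 ≤ R u
  sum_R : ∑ u, R u ≤ KR * ((Bud g ja : ℝ) + Bud g jb + 3 * Bud g i + Zs g i)
  future_a : ∀ n ∈ Icc i N, ∑ u, sh g n oa u ^ 2 ≤ Ko * ((Bud g n : ℝ) - Bud g ja)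
  future_b : ∀ n ∈ Icc i N, ∑ u, sh g n ob u ^ 2 ≤ Ko * ((Bud g n : ℝ) - Bud g jb)

variable {ι : Type*} [Fintype ι]

/-- A node of the partition tree: the subfamily `A` is to be listed from `a` to `b`. -/
structure Node (v : ι → Fin d → ℝ) (N i : ℕ) (A : Finset ι) (a b : Fin d → ℝ) : Prop where
  total : b = a + ∑ k ∈ A, v k
  matrix : wn (Fs (mom v) (i + 1)) (qq (mom v) i)
    (fun u w => Gm v A u w - if u = w then qq (mom v) i u ^ 4 else 0) ≤ rho
  born_le : ∑ k ∈ A, fborn v i k ≤ Kq * 2 ^ wid (mom v) i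
  old_le : Xi v A i ≤ Xb (mom v) i
  pos : Nonempty (PosData (mom v) N i a b)

/-- A listing of `A` all whose partial sums, started at `a`, are short. -/
def Listing (v : ι → Fin d → ℝ) (A : Finset ι) (a : Fin d → ℝ) : Prop :=
  ∃ L : List ι, L.Nodup ∧ (∀ k, k ∈ L ↔ k ∈ A) ∧
    ∀ m : ℕ, ∑ u, (a + ((L.take m).map v).sum) u ^ 2 ≤ Krad * d

theorem node_pos_le {v : ι → Fin d → ℝ} {N i : ℕ} {A : Finset ι} {a b : Fin d → ℝ}
    (h : Node v N i A a b) (hiN : i ≤ N) (hN : Fs (mom v) N = ∅) :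
    ∑ u, a u ^ 2 ≤ Kend * d ∧ ∑ u, b u ^ 2 ≤ Kend * d := by
  classical
  obtain ⟨D⟩ := h.pos
  set g := mom v
  have hsh : ∀ (n : ℕ) (o : Fin d → ℝ), (∀ u, 0 ≤ o u) → ∀ u, sh g n o u ^ 2 ≤ o u ^ 2 := by
    intro n o ho u
    unfold sh; split_ifs
    · exact le_rfl
    · have := ho u; simpa using sq_nonneg (o u)
  have hNsh : ∀ (o : Fin d → ℝ), (∀ u, 0 ≤ o u) → ∀ u, sh g N o u ^ 2 = o u ^ 2 := by
    intro o ho u
    unfold sh
    have hc : cth g N u = 0 := by simp [cth, hN]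
    split_ifs with hh
    · rfl
    · rw [hc] at hh
      have : o u = 0 := le_antisymm (by linarith) (ho u)
      simp [this]
  have hbud : ∀ n, (Bud g n : ℝ) ≤ 29 * d / eps := fun n => Bud_le g n
  have hd : (0 : ℝ) ≤ d / eps := div_nonneg (Nat.cast_nonneg _) eps_pos.le
  have hoa : ∑ u, D.oa u ^ 2 ≤ Ko * (29 * d / eps) := by
    rw [← sum_congr rfl fun u _ => hNsh _ D.oa_nonneg u]
    refine (D.future_a N (mem_Icc.2 ⟨hiN, le_rfl⟩)).trans ?_
    exact mul_le_mul_of_nonneg_left (by linarith [hbud N, Nat.cast_nonneg (α := ℝ) (Bud g D.ja)])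
      (by norm_num [Ko])
  have hob : ∑ u, D.ob u ^ 2 ≤ Ko * (29 * d / eps) := by
    rw [← sum_congr rfl fun u _ => hNsh _ D.ob_nonneg u]
    refine (D.future_b N (mem_Icc.2 ⟨hiN, le_rfl⟩)).trans ?_
    exact mul_le_mul_of_nonneg_left (by linarith [hbud N, Nat.cast_nonneg (α := ℝ) (Bud g D.jb)])
      (by norm_num [Ko])
  have hR : ∑ u, D.R u ≤ KR * (5 * (29 * d / eps) + 124 * Kb * d / eps) :=
    D.sum_R.trans (mul_le_mul_of_nonneg_left
      (by linarith [hbud D.ja, hbud D.jb, hbud i, Zs_le g i]) (by norm_num [KR]))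
  have hphi : ∀ u, 0 ≤ posFac g i u ∧ posFac g i u ^ 2 ≤ 64 := by
    intro u
    have hq := qq_nonneg g i u
    unfold posFac; split_ifs
    · have h1 : 0 ≤ min eps (qq g i u)⁻¹ := le_min eps_pos.le (inv_nonneg.2 hq)
      have h2 : Kphi * min eps (qq g i u)⁻¹ ≤ 1 :=
        (mul_le_mul_of_nonneg_left (min_le_left _ _) (by norm_num [Kphi])).trans
          (by norm_num [Kphi, eps])
      have h3 : 0 ≤ Kphi * min eps (qq g i u)⁻¹ := mul_nonneg (by norm_num [Kphi]) h1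
      exact ⟨by linarith, by nlinarith⟩
    · refine ⟨Real.sqrt_nonneg _, ?_⟩
      rcases le_total 0 (60 - 10 * qq g i u) with h | h
      · rw [Real.sq_sqrt h]; linarith
      · rw [Real.sqrt_eq_zero'.2 h]; norm_num
  have main : ∀ (p o : Fin d → ℝ), (∀ u, 0 ≤ o u) →
      (∀ u, |p u| ≤ max (o u) (posFac g i u * Real.sqrt (Sg g i D.R D.oa D.ob u))) →
      ∑ u, p u ^ 2 ≤ ∑ u, o u ^ 2
        + 64 * (∑ u, D.R u + ∑ u, D.oa u ^ 2 + ∑ u, D.ob u ^ 2) := by
    intro p o ho hp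
    rw [← sum_add_distrib, ← sum_add_distrib, mul_sum, ← sum_add_distrib]
    refine sum_le_sum fun u _ => ?_
    have hS : 0 ≤ Sg g i D.R D.oa D.ob u := by
      have := D.R_nonneg u; unfold Sg; positivity
    have hS' : Sg g i D.R D.oa D.ob u ≤ D.R u + D.oa u ^ 2 + D.ob u ^ 2 := by
      unfold Sg; linarith [hsh i D.oa D.oa_nonneg u, hsh i D.ob D.ob_nonneg u]
    have h2 : (posFac g i u * Real.sqrt (Sg g i D.R D.oa D.ob u)) ^ 2
        ≤ 64 * (D.R u + D.oa u ^ 2 + D.ob u ^ 2) := by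
      rw [mul_pow, Real.sq_sqrt hS]
      exact mul_le_mul (hphi u).2 hS' hS (by norm_num)
    have h3 := pow_le_pow_left₀ (abs_nonneg _) (hp u) 2
    rw [sq_abs] at h3
    rcases max_cases (o u) (posFac g i u * Real.sqrt (Sg g i D.R D.oa D.ob u)) with ⟨h, -⟩ | ⟨h, -⟩
    all_goals
      rw [h] at h3
      nlinarith [sq_nonneg (o u), sq_nonneg (posFac g i u * Real.sqrt (Sg g i D.R D.oa D.ob u))]
  have harith : Ko * (29 * d / eps)
      + 64 * (KR * (5 * (29 * d / eps) + 124 * Kb * d / eps) + Ko * (29 * d / eps)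
        + Ko * (29 * d / eps)) ≤ Kend * d := by
    norm_num [Ko, KR, Kb, Kend, eps]
    linarith [Nat.cast_nonneg (α := ℝ) d]
  exact ⟨(main a D.oa D.oa_nonneg D.bound_a).trans (by linarith),
    (main b D.ob D.ob_nonneg D.bound_b).trans (by linarith)⟩

end Vale.Agent.P262
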