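import Vale.Agent.P262.Window

/-!
Banaszczyk's lemma in product coordinates.
-/

open MeasureTheory ProbabilityTheory
open scoped ENNReal

namespace Vale.Agent.P262

variable {m : ℕ}

/-- The section of a subset of `(Fin m → ℝ) × ℝ`. -/
def sect (K : Set ((Fin m → ℝ) × ℝ)) (y : Fin m → ℝ) : Set ℝ := Prod.mk y ⁻¹' K

theorem convex_sect {K : Set ((Fin m → ℝ) × ℝ)} (hK : Convex ℝ K) (y : Fin m → ℝ) :
    Convex ℝ (sect K y) := by
  intro a ha b hb u v hu hv huv
  have := hK ha hb hu hv huv
  simpa [sect, Prod.smul_mk, ← add_smul, huv] using this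

theorem isClosed_sect {K : Set ((Fin m → ℝ) × ℝ)} (hK : IsClosed K) (y : Fin m → ℝ) :
    IsClosed (sect K y) :=
  hK.preimage (by fun_prop)

theorem measurable_winLen_sect {K : Set ((Fin m → ℝ) × ℝ)} (hK : MeasurableSet K) (T : ℝ) :
    Measurable fun y => winLen (sect K y) T :=
  measurable_measure_prodMk_left (ν := (volume : Measure ℝ))
    (hK.inter (measurable_snd measurableSet_Icc : MeasurableSet (Prod.snd ⁻¹' Set.Icc (-T) T)))

/-- The Gaussian density. -/
noncomputable def phi (x : ℝ) : ℝ := gaussianPDFReal 0 1 x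

/-- The radius of the superlevel window at height `t`. -/
noncomputable def radius (t : ℝ) : ℝ := Real.sqrt (-2 * Real.log (t * Real.sqrt (2 * Real.pi)))

theorem phi_eq (x : ℝ) : phi x = (Real.sqrt (2 * Real.pi))⁻¹ * Real.exp (-(x ^ 2) / 2) := by
  simp [phi, gaussianPDFReal]

theorem sqrt_two_pi_ge : 2 ≤ Real.sqrt (2 * Real.pi) := by
  rw [show (2 : ℝ) = Real.sqrt 4 by rw [show (4:ℝ) = 2 ^ 2 by norm_num, Real.sqrt_sq (by norm_num)]]
  refine Real.sqrt_le_sqrt ?_
  nlinarith [Real.pi_gt_three, Real.sq_sqrt (show (0:ℝ) ≤ 4 by norm_num), Real.sqrt_nonneg 4]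

theorem phi_le_half (x : ℝ) : phi x ≤ 1 / 2 := by
  rw [phi_eq, one_div]
  have h := inv_anti₀ two_pos sqrt_two_pi_ge
  calc (Real.sqrt (2 * Real.pi))⁻¹ * Real.exp (-(x ^ 2) / 2) ≤ 2⁻¹ * 1 :=
        mul_le_mul h (Real.exp_le_one_iff.2 (by nlinarith [sq_nonneg x])) (Real.exp_nonneg _)
          (by norm_num)
    _ = 2⁻¹ := mul_one _

theorem lt_phi_iff {t : ℝ} (ht : 0 < t) (x : ℝ) : t < phi x ↔ |x| < radius t := by
  have hs : 0 < Real.sqrt (2 * Real.pi) := by linarith [sqrt_two_pi_ge]
  rw [phi_eq, lt_inv_mul_iff₀ hs, ← Real.log_lt_iff_lt_exp (by positivity), radius,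
    Real.lt_sqrt (abs_nonneg x), sq_abs, mul_comm]
  constructor <;> intro h <;> linarith

theorem gaussianReal_eq_lintegral_winLen {S : Set ℝ} (hS : MeasurableSet S) :
    gaussianReal 0 1 S = ∫⁻ t in Set.Ioi (0 : ℝ), winLen S (radius t) := by
  rw [gaussianReal_apply 0 one_ne_zero]
  calc ∫⁻ x in S, gaussianPDF 0 1 x
      = ∫⁻ t in Set.Ioi (0 : ℝ), volume.restrict S {x | t < phi x} :=
        lintegral_eq_lintegral_meas_lt _ (Filter.Eventually.of_forall
          (gaussianPDFReal_nonneg 0 1)) (measurable_gaussianPDFReal 0 1).aemeasurable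
    _ = ∫⁻ t in Set.Ioi (0 : ℝ), winLen S (radius t) := by
        refine setLIntegral_congr_fun measurableSet_Ioi fun t ht => ?_
        have e : {x | t < phi x} = Set.Ioo (-radius t) (radius t) := by
          ext x
          simp [lt_phi_iff ht, abs_lt]
        rw [e, Measure.restrict_apply measurableSet_Ioo, winLen, Set.inter_comm]
        exact measure_congr (Filter.EventuallyEq.inter (Filter.EventuallyEq.refl _ _) Ioo_ae_eq_Icc)

theorem two_le_radius {t : ℝ} (h0 : 0 < t) (h : t < phi 2) : 2 ≤ radius t := by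
  simpa using ((lt_phi_iff h0 2).1 h).le

theorem radius_le_two {t : ℝ} (h0 : 0 < t) (h : phi 2 ≤ t) : radius t ≤ 2 := by
  by_contra hc
  have := (lt_phi_iff h0 2).2 (by simpa using lt_of_not_ge hc)
  linarith

theorem radius_eq_zero {t : ℝ} (h0 : 0 < t) (h : phi 0 ≤ t) : radius t = 0 := by
  refine le_antisymm ?_ (Real.sqrt_nonneg _)
  by_contra hc
  have := (lt_phi_iff h0 0).2 (by simpa using lt_of_not_ge hc)
  linarith

theorem gaussianReal_compl_Icc_two : gaussianReal 0 1 (Set.Icc (-2) 2)ᶜ ≤ ENNReal.ofReal (1 / 4) := by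
  have h := meas_ge_le_variance_div_sq (μ := gaussianReal 0 1) (X := id)
    (memLp_id_gaussianReal' 2 (by simp)) (c := 2) two_pos
  simp only [variance_id_gaussianReal, NNReal.coe_one, id_eq, integral_id_gaussianReal] at h
  refine le_trans (measure_mono fun x hx => ?_) (h.trans (le_of_eq (by norm_num)))
  simp only [Set.mem_compl_iff, Set.mem_Icc, ← abs_le, not_le] at hx
  simpa using hx.le

theorem gaussianReal_le_add_winLen {S : Set ℝ} (hS : MeasurableSet S) :
    gaussianReal 0 1 S ≤ ENNReal.ofReal (1 / 4) + ENNReal.ofReal (1 / 2) * winLen S 2 := by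
  rw [← measure_inter_add_sdiff S (measurableSet_Icc (a := (-2 : ℝ)) (b := 2)), add_comm]
  refine add_le_add ((measure_mono fun x hx => hx.2).trans gaussianReal_compl_Icc_two) ?_
  rw [gaussianReal_apply 0 one_ne_zero, winLen, ← setLIntegral_const]
  exact lintegral_mono fun x => ENNReal.ofReal_le_ofReal (phi_le_half x)

theorem midpoint_winLen {K : Set ((Fin m → ℝ) × ℝ)} (hc : IsClosed K) (hK : Convex ℝ K) {T : ℝ}
    {s t : ℝ≥0∞} {y z : Fin m → ℝ} (hy : s < winLen (sect K y) T) (hz : t < winLen (sect K z) T) :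
    (s + t) / 2 < winLen (sect K fun i => (y i + z i) / 2) T := by
  have hcpt : ∀ w, IsCompact (sect K w ∩ Set.Icc (-T) T) := fun w =>
    isCompact_Icc.inter_left (isClosed_sect hc w)
  have hne : ∀ {w} {r : ℝ≥0∞}, r < winLen (sect K w) T → (sect K w ∩ Set.Icc (-T) T).Nonempty :=
    fun {w r} h => nonempty_of_measure_ne_zero (ne_of_gt (lt_of_le_of_lt zero_le h))
  have h := volume_add_le_two_mul_of_isCompact (hcpt y) (hcpt z) (hne hy) (hne hz)
    (C := sect K (fun i => (y i + z i) / 2) ∩ Set.Icc (-T) T) fun a ha b hb => by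
      refine ⟨?_, by constructor <;> linarith [ha.2.1, ha.2.2, hb.2.1, hb.2.2]⟩
      have := hK ha.1 hb.1 (by norm_num : (0 : ℝ) ≤ 1 / 2) (by norm_num : (0 : ℝ) ≤ 1 / 2) (by norm_num)
      show ((fun i => (y i + z i) / 2), (a + b) / 2) ∈ K
      convert this using 1
      ext <;> simp <;> ring
  have h' := lt_of_lt_of_le (ENNReal.add_lt_add hy hz) h
  rw [ENNReal.div_lt_iff (by norm_num) (by norm_num), mul_comm]
  exact h'

/-- `P(0 < L ≤ D) ≤ 5 D P(D < L ≤ 1)` once `P(L > 1) ≥ 2/5`. -/
theorem short_le_long {K : Set ((Fin m → ℝ) × ℝ)} (hc : IsClosed K) (hK : Convex ℝ K) (T : ℝ)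
    {k : ℕ} (hk : 1 ≤ k) (h1 : 2 / 5 ≤ (gaussPi m).real {y | 1 < winLen (sect K y) T}) :
    gaussPi m {y | 0 < winLen (sect K y) T ∧ winLen (sect K y) T ≤ ENNReal.ofReal ((1 / 2) ^ k)}
      ≤ ENNReal.ofReal (5 * (1 / 2) ^ k) * gaussPi m {y | ENNReal.ofReal ((1 / 2) ^ k)
          < winLen (sect K y) T ∧ winLen (sect K y) T ≤ 1} := by
  set μ := gaussPi m
  set L := fun y => winLen (sect K y) T
  have hL : Measurable L := measurable_winLen_sect hc.measurableSet T
  let r : ℕ → ℝ≥0∞ := fun j => ENNReal.ofReal ((1 / 2) ^ j)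
  let p : ℕ → ℝ := fun j => μ.real {y | r j < L y}
  have hA : ∀ s : ℝ≥0∞, MeasurableSet {y | s < L y} := fun s =>
    measurableSet_lt measurable_const hL
  have hr0 : r 0 = 1 := by simp [r]
  have hrk : ∀ j, r j ≤ 1 := fun j =>
    ENNReal.ofReal_le_one.2 (pow_le_one₀ (by norm_num) (by norm_num))
  have hp0 : p 0 = μ.real {y | 1 < L y} := by simp [p, hr0]
  set a := μ.real {y | 0 < L y}
  have hmono : ∀ {s t : ℝ≥0∞}, s ≤ t → μ.real {y | t < L y} ≤ μ.real {y | s < L y} :=
    fun h => measureReal_mono fun y hy => lt_of_le_of_lt h hy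
  have hca : p 0 ≤ a := hmono zero_le
  have hstep : ∀ j, a * p j ≤ p (j + 1) ^ 2 := by
    intro j
    have h := gaussPi_mul_le_sq_of_midpoint (hA 0) (hA (r j)) (hA (r (j + 1))) (fun x hx y hy => by
      have h := midpoint_winLen hc hK hx hy
      show r (j + 1) < L _
      refine lt_of_eq_of_lt ?_ h
      simp only [r, zero_add, pow_succ]
      rw [ENNReal.ofReal_mul (by positivity),
        show ENNReal.ofReal (1 / 2) = 2⁻¹ by
          rw [one_div, ENNReal.ofReal_inv_of_pos two_pos]; norm_num, ← div_eq_mul_inv])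
    simp only [p, a, measureReal_def, ← ENNReal.toReal_mul, ← ENNReal.toReal_pow]
    exact ENNReal.toReal_mono (ENNReal.pow_ne_top (measure_ne_top _ _)) h
  have ha1 : a ≤ 1 := measureReal_le_one
  have hratio := ratio_bound (p := p) (a := a) (lt_of_lt_of_le (by norm_num) ((hp0 ▸ h1).trans hca))
    ha1 (fun j => measureReal_nonneg) (hp0 ▸ h1) hca hstep hk
  have e1 : {y | 0 < L y ∧ L y ≤ r k} = {y | 0 < L y} \ {y | r k < L y} := by
    ext y; simp
  have e2 : {y | r k < L y ∧ L y ≤ 1} = {y | r k < L y} \ {y | r 0 < L y} := by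
    ext y; simp [hr0]
  rw [show {y | 0 < L y ∧ L y ≤ ENNReal.ofReal ((1 / 2) ^ k)} = _ from e1,
    show {y | ENNReal.ofReal ((1 / 2) ^ k) < L y ∧ L y ≤ 1} = _ from e2,
    ← ENNReal.ofReal_toReal (measure_ne_top μ (_ \ _)),
    ← ENNReal.ofReal_toReal (measure_ne_top μ ({y | r k < L y} \ _)),
    ← ENNReal.ofReal_mul (by positivity)]
  refine ENNReal.ofReal_le_ofReal ?_
  have s1 : {y | r k < L y} ⊆ {y | 0 < L y} := fun y (hy : r k < L y) => show 0 < L y from lt_of_le_of_lt zero_le hy
  have s2 : {y | r 0 < L y} ⊆ {y | r k < L y} := fun y (hy : r 0 < L y) => show r k < L y from lt_of_le_of_lt (hr0 ▸ hrk k) hy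
  rw [← measureReal_def, ← measureReal_def, measureReal_sdiff s1 (hA _),
    measureReal_sdiff s2 (hA _)]
  exact hratio

theorem lintegral_winLen_prod {K : Set ((Fin m → ℝ) × ℝ)} (hK : MeasurableSet K) :
    (gaussPi m).prod (gaussianReal 0 1) K
      = ∫⁻ t in Set.Ioi (0 : ℝ), ∫⁻ y, winLen (sect K y) (radius t) ∂gaussPi m := by
  rw [Measure.prod_apply hK]
  refine (lintegral_congr fun y => gaussianReal_eq_lintegral_winLen
    (S := sect K y) (measurable_prodMk_left hK)).trans (lintegral_lintegral_swap ?_)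
  have hrad : Measurable radius :=
    ((Real.measurable_log.comp (measurable_id.mul_const _)).const_mul _).sqrt
  have hS : MeasurableSet {q : ((Fin m → ℝ) × ℝ) × ℝ |
      (q.1.1, q.2) ∈ K ∧ -radius q.1.2 ≤ q.2 ∧ q.2 ≤ radius q.1.2} :=
    ((measurable_fst.fst.prodMk measurable_snd) hK).inter
      ((measurableSet_le (hrad.comp measurable_fst.snd).neg measurable_snd).inter
        (measurableSet_le measurable_snd (hrad.comp measurable_fst.snd)))
  exact (measurable_measure_prodMk_left (ν := (volume : Measure ℝ)) hS).aemeasurable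

theorem prob_long_ge {K : Set ((Fin m → ℝ) × ℝ)} (hK : MeasurableSet K)
    (h : ENNReal.ofReal (9 / 10) ≤ (gaussPi m).prod (gaussianReal 0 1) K) :
    2 / 5 ≤ (gaussPi m).real {y | 1 < winLen (sect K y) 2} := by
  set A := {y | 1 < winLen (sect K y) 2}
  have hA : MeasurableSet A := measurableSet_lt measurable_const (measurable_winLen_sect hK 2)
  have hle : ∀ y, gaussianReal 0 1 (sect K y)
      ≤ ENNReal.ofReal (3 / 4) + A.indicator (fun _ => ENNReal.ofReal (1 / 4)) y := by
    intro y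
    by_cases hy : y ∈ A
    · rw [Set.indicator_of_mem hy, ← ENNReal.ofReal_add (by norm_num) (by norm_num)]
      exact prob_le_one.trans (le_of_eq (by norm_num))
    · rw [Set.indicator_of_notMem hy, add_zero]
      refine (gaussianReal_le_add_winLen (measurable_prodMk_left hK)).trans ?_
      have hy' : winLen (sect K y) 2 ≤ 1 := not_lt.1 hy
      calc ENNReal.ofReal (1 / 4) + ENNReal.ofReal (1 / 2) * winLen (sect K y) 2
          ≤ ENNReal.ofReal (1 / 4) + ENNReal.ofReal (1 / 2) * 1 := by gcongr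
        _ = ENNReal.ofReal (3 / 4) := by
            rw [mul_one, ← ENNReal.ofReal_add (by norm_num) (by norm_num)]; norm_num
  have h2 := h.trans ((le_of_eq (Measure.prod_apply hK)).trans (lintegral_mono hle))
  rw [lintegral_add_left measurable_const, lintegral_const, measure_univ, mul_one,
    lintegral_indicator_const hA, ← ENNReal.ofReal_toReal (measure_ne_top (gaussPi m) A),
    ← ENNReal.ofReal_mul (by norm_num), ← ENNReal.ofReal_add (by norm_num) (by positivity)] at h2
  rw [ENNReal.ofReal_le_ofReal_iff (by positivity)] at h2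
  rw [measureReal_def]
  linarith

/-- Banaszczyk's lemma in product coordinates. -/
theorem prod_le_star {K Ks : Set ((Fin m → ℝ) × ℝ)} (hc : IsClosed K) (hK : Convex ℝ K)
    (hKs : MeasurableSet Ks) {e : ℝ} (he : 0 < e) (he' : e ≤ 1 / 4000)
    (hsub : ∀ y, lineStar (sect K y) e ⊆ sect Ks y)
    (h : ENNReal.ofReal (9 / 10) ≤ (gaussPi m).prod (gaussianReal 0 1) K) :
    (gaussPi m).prod (gaussianReal 0 1) K ≤ (gaussPi m).prod (gaussianReal 0 1) Ks := by
  obtain ⟨k, hk1, hkD, hkD'⟩ : ∃ k : ℕ, 1 ≤ k ∧ 2 * e ≤ (1 / 2) ^ k ∧ ((1 : ℝ) / 2) ^ k ≤ 4 * e := by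
    obtain ⟨n, hn1, hn2⟩ := exists_nat_pow_near (x := (2 * e)⁻¹) (y := (2 : ℝ))
      (one_le_inv_iff₀.2 ⟨by positivity, by linarith⟩) one_lt_two
    refine ⟨n, ?_, ?_, ?_⟩
    · rcases Nat.eq_zero_or_pos n with rfl | h0
      · exfalso
        rw [zero_add, pow_one, inv_lt_iff_one_lt_mul₀ (by positivity)] at hn2
        linarith
      · exact h0
    · rw [one_div, inv_pow]
      exact (le_inv_comm₀ (by positivity) (by positivity)).1 hn1
    · rw [pow_succ, inv_lt_iff_one_lt_mul₀ (by positivity)] at hn2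
      rw [one_div, inv_pow, inv_le_iff_one_le_mul₀ (by positivity)]
      linarith
  set μ := gaussPi m
  set D : ℝ := (1 / 2) ^ k with hD
  have hD0 : 0 < D := by positivity
  have hD2 : 5 * D ^ 2 ≤ 80 * e ^ 2 := by
    have := pow_le_pow_left₀ hD0.le hkD' 2
    linarith
  let L : ℝ → (Fin m → ℝ) → ℝ≥0∞ := fun T y => winLen (sect K y) T
  let Ls : ℝ → (Fin m → ℝ) → ℝ≥0∞ := fun T y => winLen (sect Ks y) T
  let short : ℝ → Set (Fin m → ℝ) := fun T => {y | 0 < L T y ∧ L T y ≤ ENNReal.ofReal D}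
  let long : ℝ → Set (Fin m → ℝ) := fun T => {y | ENNReal.ofReal D < L T y ∧ L T y ≤ 1}
  have hLm : ∀ T, Measurable (L T) := measurable_winLen_sect hc.measurableSet
  have hLsm : ∀ T, Measurable (Ls T) := measurable_winLen_sect hKs
  have hshort : ∀ T, MeasurableSet (short T) := fun T =>
    (measurableSet_lt measurable_const (hLm T)).inter (measurableSet_le (hLm T) measurable_const)
  have hlong : ∀ T, MeasurableSet (long T) := fun T =>
    (measurableSet_lt measurable_const (hLm T)).inter (measurableSet_le (hLm T) measurable_const)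
  have hsl : ∀ T, 2 ≤ T → μ (short T) ≤ ENNReal.ofReal (5 * D) * μ (long T) := fun T hT =>
    short_le_long hc hK T hk1 ((prob_long_ge hc.measurableSet h).trans
      (measureReal_mono fun y (hy : 1 < winLen (sect K y) 2) =>
        lt_of_lt_of_le hy (winLen_mono le_rfl hT)))
  set g := μ (long 2) with hg
  -- narrow windows lose at most `5 D^2 g`
  have hnarrow : ∀ T, T ≤ 2 →
      ∫⁻ y, L T y ∂μ ≤ ∫⁻ y, Ls T y ∂μ + ENNReal.ofReal (5 * D ^ 2) * g := by
    intro T hT
    have hp : ∀ y, L T y ≤ Ls T y + (short 2).indicator (fun _ => ENNReal.ofReal D) y :=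
      fun y => (winLen_le_add (convex_sect hK y) he hkD hT).trans
        (add_le_add (winLen_mono (hsub y) le_rfl) (le_of_eq (by simp [Set.indicator_apply, short, L])))
    refine (lintegral_mono hp).trans ?_
    rw [lintegral_add_left (hLsm T), lintegral_indicator_const (hshort 2)]
    refine add_le_add le_rfl ((mul_le_mul_right (hsl 2 le_rfl) _).trans (le_of_eq ?_))
    rw [← mul_assoc, ← ENNReal.ofReal_mul hD0.le]
    congr 2
    ring
  -- wide windows gain `e g / 2`
  have hwide : ∀ T, 2 ≤ T → ∫⁻ y, L T y ∂μ + ENNReal.ofReal (e / 2) * g ≤ ∫⁻ y, Ls T y ∂μ := by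
    intro T hT
    let i1 := (long T).indicator fun _ => ENNReal.ofReal (e / 2)
    let i2 := (long 2).indicator fun _ => ENNReal.ofReal (e / 2)
    have hp : ∀ y, L T y + i1 y + i2 y
        ≤ Ls T y + (short T).indicator (fun _ => ENNReal.ofReal D) y := by
      intro y
      have hbd : ∀ (S : Set (Fin m → ℝ)),
          S.indicator (fun _ => ENNReal.ofReal (e / 2)) y ≤ ENNReal.ofReal (e / 2) := fun S => by
        by_cases hy : y ∈ S <;> simp [hy]
      have h2e : ENNReal.ofReal (e / 2) + ENNReal.ofReal (e / 2) = ENNReal.ofReal e := by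
        rw [← ENNReal.ofReal_add (by positivity) (by positivity)]; congr 1; ring
      by_cases hy : y ∈ long T ∨ y ∈ long 2
      · obtain ⟨S, hS2, hST, hS⟩ : ∃ S, 2 ≤ S ∧ S ≤ T ∧ y ∈ long S := by
          rcases hy with hy | hy
          · exact ⟨T, hT, le_rfl, hy⟩
          · exact ⟨2, le_rfl, hT, hy⟩
        refine le_trans ?_ (le_add_right (le_trans (winLen_add_le (isClosed_sect hc y)
          (convex_sect hK y) he (by linarith) hS2 hST
          (lt_of_le_of_lt (ENNReal.ofReal_le_ofReal hkD) hS.1) hS.2) (winLen_mono (hsub y) le_rfl)))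
        rw [← h2e, add_assoc]
        exact add_le_add le_rfl (add_le_add (hbd _) (hbd _))
      · rw [not_or] at hy
        simp only [i1, i2, Set.indicator_of_notMem hy.1, Set.indicator_of_notMem hy.2, add_zero]
        exact (winLen_le_add (convex_sect hK y) he hkD le_rfl).trans
          (add_le_add (winLen_mono (hsub y) le_rfl)
            (le_of_eq (by simp [Set.indicator_apply, short, L])))
    have hint := lintegral_mono (μ := μ) hp
    rw [lintegral_add_left ((hLm T).fun_add (measurable_const.indicator (hlong T))),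
      lintegral_add_left (hLm T), lintegral_add_left (hLsm T),
      lintegral_indicator_const (hlong T), lintegral_indicator_const (hlong 2),
      lintegral_indicator_const (hshort T)] at hint
    have hloss : ENNReal.ofReal D * μ (short T) ≤ ENNReal.ofReal (e / 2) * μ (long T) := by
      refine (mul_le_mul_right (hsl T hT) _).trans ?_
      rw [← mul_assoc, ← ENNReal.ofReal_mul hD0.le]
      refine mul_le_mul_left (ENNReal.ofReal_le_ofReal ?_) _
      nlinarith
    refine (ENNReal.add_le_add_iff_left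
      (ENNReal.mul_ne_top (ENNReal.ofReal_ne_top (r := e / 2)) (measure_ne_top μ (long T)))).1 ?_
    rw [← add_assoc, add_comm _ (∫⁻ y, L T y ∂μ)]
    exact hint.trans ((add_le_add le_rfl hloss).trans (le_of_eq (add_comm _ _)))
  have hφ2 : 0 < phi 2 := gaussianPDFReal_pos 0 1 2 one_ne_zero
  have hφ20 : phi 2 ≤ phi 0 := by
    rw [phi_eq, phi_eq]
    exact mul_le_mul_of_nonneg_left (Real.exp_le_exp.2 (by norm_num)) (by positivity)
  have hweight : phi 0 * (5 * D ^ 2) ≤ phi 2 * (e / 2) := by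
    rw [phi_eq, phi_eq, mul_assoc, mul_assoc]
    refine mul_le_mul_of_nonneg_left ?_ (by positivity)
    have h2 : (1 : ℝ) / 9 ≤ Real.exp (-(2 ^ 2) / 2) := by
      rw [show -((2 : ℝ) ^ 2) / 2 = -(1 + 1) by norm_num, Real.exp_neg, Real.exp_add, one_div]
      refine inv_anti₀ (by positivity) ?_
      nlinarith [Real.exp_one_lt_three, Real.exp_pos 1]
    have h3 := mul_le_mul_of_nonneg_right h2 (show 0 ≤ e / 2 by positivity)
    norm_num at h3 ⊢
    nlinarith
  let F : ℝ → ℝ≥0∞ := fun t => ∫⁻ y, L (radius t) y ∂μ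
  let Fs : ℝ → ℝ≥0∞ := fun t => ∫⁻ y, Ls (radius t) y ∂μ
  have hpt : ∀ t ∈ Set.Ioi (0 : ℝ),
      F t + (Set.Ioo 0 (phi 2)).indicator (fun _ => ENNReal.ofReal (e / 2) * g) t
        ≤ Fs t + (Set.Ioo 0 (phi 0)).indicator (fun _ => ENNReal.ofReal (5 * D ^ 2) * g) t := by
    intro t ht
    rcases lt_or_ge t (phi 2) with h2 | h2
    · rw [Set.indicator_of_mem (Set.mem_Ioo.2 ⟨ht, h2⟩)]
      exact le_add_right (hwide _ (two_le_radius ht h2))
    · rw [Set.indicator_of_notMem (fun hh => absurd hh.2 (not_lt.2 h2)), add_zero]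
      rcases lt_or_ge t (phi 0) with h0 | h0
      · rw [Set.indicator_of_mem (Set.mem_Ioo.2 ⟨ht, h0⟩)]
        exact hnarrow _ (radius_le_two ht h2)
      · simp [F, L, winLen, radius_eq_zero ht h0,
          fun J : Set ℝ => measure_mono_null (Set.inter_subset_right (s := J)) (Real.volume_singleton (a := (0:ℝ)))]
  have hint := setLIntegral_mono' (μ := volume) measurableSet_Ioi hpt
  rw [lintegral_add_right _ (measurable_const.indicator measurableSet_Ioo),
    lintegral_add_right _ (measurable_const.indicator measurableSet_Ioo),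
    lintegral_indicator_const measurableSet_Ioo, lintegral_indicator_const measurableSet_Ioo,
    Measure.restrict_apply measurableSet_Ioo, Measure.restrict_apply measurableSet_Ioo,
    Set.inter_eq_left.2 Set.Ioo_subset_Ioi_self, Set.inter_eq_left.2 Set.Ioo_subset_Ioi_self,
    Real.volume_Ioo, Real.volume_Ioo, sub_zero, sub_zero] at hint
  rw [lintegral_winLen_prod hc.measurableSet, lintegral_winLen_prod hKs]
  have hcmp : ENNReal.ofReal (5 * D ^ 2) * g * ENNReal.ofReal (phi 0)
      ≤ ENNReal.ofReal (e / 2) * g * ENNReal.ofReal (phi 2) := by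
    rw [mul_right_comm, mul_right_comm _ g, ← ENNReal.ofReal_mul (by positivity),
      ← ENNReal.ofReal_mul (by positivity)]
    exact mul_le_mul_left (ENNReal.ofReal_le_ofReal (by linarith)) g
  refine (ENNReal.add_le_add_iff_right (ENNReal.mul_ne_top (ENNReal.mul_ne_top ENNReal.ofReal_ne_top
    (measure_ne_top μ _)) ENNReal.ofReal_ne_top : ENNReal.ofReal (e / 2) * g * ENNReal.ofReal (phi 2)
      ≠ ∞)).1 ?_
  exact hint.trans (add_le_add le_rfl hcmp)

end Vale.Agent.P262
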