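import Vale.Agent.P262.Const

/-!
The clean levels of the diagonal second-moment vector `g` and the resulting schedule.
-/

open Finset

namespace Vale.Agent.P262

/-- The fourth root of two. -/
noncomputable def theta : ℝ := Real.sqrt (Real.sqrt 2)

theorem theta_pow_four : theta ^ 4 = 2 := by
  rw [show (4 : ℕ) = 2 * 2 from rfl, pow_mul, theta, Real.sq_sqrt (Real.sqrt_nonneg _),
    Real.sq_sqrt (by norm_num)]

theorem theta_pos : 0 < theta := Real.sqrt_pos.2 (Real.sqrt_pos.2 (by norm_num))

theorem le_theta : 59 / 50 ≤ theta := by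
  by_contra h
  have := pow_lt_pow_left₀ (not_le.1 h) theta_pos.le (four_ne_zero)
  rw [theta_pow_four] at this
  norm_num at this

theorem one_lt_theta : 1 < theta := lt_of_lt_of_le (by norm_num) le_theta

variable {d : ℕ} (g : Fin d → ℝ)

/-- Fourth root of the second moment at level `l`. -/
noncomputable def qlev (l : ℕ) (u : Fin d) : ℝ := Real.sqrt (Real.sqrt (g u)) / theta ^ l

/-- The closeness of the coordinates to the level `l`. -/
noncomputable def closeness (l : ℕ) : ℝ := ∑ u, min (qlev g l u) (qlev g l u)⁻¹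

/-- A level with no coordinate near it. -/
def IsClean (l : ℕ) : Prop := closeness g l ≤ eps

/-- The least clean level at or above `a`. -/
noncomputable def nextClean (a : ℕ) : ℕ := sInf {l | a ≤ l ∧ IsClean g l}

/-- Level and padding after `i` steps. -/
noncomputable def sched : ℕ → ℕ × ℕ
  | 0 => (0, 2)
  | i + 1 =>
    let p := sched i
    let l' := nextClean g (p.1 + p.2)
    (l', max 2 (Nat.log 2 (l' - p.1) - 3))

/-- The `i`-th scheduled level. -/
noncomputable def lev (i : ℕ) : ℕ := (sched g i).1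

/-- The padding of the `i`-th step. -/
noncomputable def pad (i : ℕ) : ℕ := (sched g i).2

/-- The width of the `i`-th step. -/
noncomputable def wid (i : ℕ) : ℕ := lev g (i + 1) - lev g i

/-- Fourth root of the second moment at the `i`-th level. -/
noncomputable def qq (i : ℕ) (u : Fin d) : ℝ := qlev g (lev g i) u

open Classical in
/-- The coordinates above the `i`-th level (all of them at the start). -/
noncomputable def Fs (i : ℕ) : Finset (Fin d) := univ.filter fun u => i = 0 ∨ 1 ≤ qq g i u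

/-- The coordinates that fall below in the `i`-th step. -/
noncomputable def born (i : ℕ) : Finset (Fin d) := Fs g i \ Fs g (i + 1)

/-- The cost of the `i`-th step. -/
noncomputable def cost (i : ℕ) : ℕ := (born g i).card + (wid g i - 2)

/-- The accumulated cost. -/
noncomputable def Bud (n : ℕ) : ℕ := ∑ i ∈ range n, cost g i

/-- The threshold of the `n`-th scale. -/
noncomputable def cth (n : ℕ) (u : Fin d) : ℝ := if u ∈ Fs g n then qq g n u else 0

/-- Bound for the old-coordinate energy. -/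
noncomputable def Xb : ℕ → ℝ
  | 0 => 0
  | i + 1 => 3 / 4 * Xb i + Kb * (if (born g i).Nonempty then 1 else 0)

/-- Accumulated old-coordinate energy. -/
noncomputable def Zs (n : ℕ) : ℝ := ∑ i ∈ range n, (wid g i : ℝ) * Xb g i

theorem qlev_nonneg (l : ℕ) (u : Fin d) : 0 ≤ qlev g l u :=
  div_nonneg (Real.sqrt_nonneg _) (pow_nonneg theta_pos.le _)

theorem qlev_pow_four (hg : ∀ u, 0 ≤ g u) (l : ℕ) (u : Fin d) :
    qlev g l u ^ 4 = g u / 2 ^ l := by
  rw [qlev, div_pow, ← pow_mul, mul_comm l, pow_mul theta, theta_pow_four,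
    show (4 : ℕ) = 2 * 2 from rfl, pow_mul, Real.sq_sqrt (Real.sqrt_nonneg _),
    Real.sq_sqrt (hg u)]

theorem qlev_add (l k : ℕ) (u : Fin d) : qlev g (l + k) u = qlev g l u / theta ^ k := by
  rw [qlev, qlev, pow_add, div_div]

/-- A geometric family indexed by a finite set of naturals. -/
theorem sum_inv_theta_pow_le (T : Finset ℕ) : ∑ k ∈ T, (theta⁻¹) ^ k ≤ 59 / 9 := by
  have h0 : (0 : ℝ) ≤ theta⁻¹ := inv_nonneg.2 theta_pos.le
  have h1 : theta⁻¹ < 1 := inv_lt_one_of_one_lt₀ one_lt_theta
  refine (Summable.sum_le_tsum T (fun k _ => pow_nonneg h0 k)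
    (summable_geometric_of_lt_one h0 h1)).trans ?_
  rw [tsum_geometric_of_lt_one h0 h1]
  have h2 : theta⁻¹ ≤ 50 / 59 := by
    rw [inv_le_comm₀ theta_pos (by norm_num)]; exact le_trans (by norm_num) le_theta
  rw [inv_le_comm₀ (by linarith) (by norm_num)]
  linarith

theorem sum_closeness_le (S : Finset ℕ) : ∑ l ∈ S, closeness g l ≤ 14 * d := by
  classical
  unfold closeness
  rw [sum_comm]
  refine (sum_le_card_nsmul univ _ (14 : ℝ) fun u _ => ?_).trans (by simp [mul_comm])
  rw [← sum_filter_add_sum_filter_not S (fun l => 1 ≤ qlev g l u)]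
  have hgeo := fun (T : Finset ℕ) => sum_inv_theta_pow_le T
  have hbig : ∑ l ∈ S with 1 ≤ qlev g l u, min (qlev g l u) (qlev g l u)⁻¹ ≤ 59 / 9 := by
    set T := S.filter fun l => 1 ≤ qlev g l u with hT
    rcases T.eq_empty_or_nonempty with h | h
    · simp [h]; norm_num
    set L := T.max' h with hL
    have hLq : 1 ≤ qlev g L u := (mem_filter.1 (T.max'_mem h)).2
    calc ∑ l ∈ T, min (qlev g l u) (qlev g l u)⁻¹ ≤ ∑ l ∈ T, (theta⁻¹) ^ (L - l) := by
          refine sum_le_sum fun l hl => (min_le_right _ _).trans ?_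
          have hle : l ≤ L := T.le_max' l hl
          have hq := qlev_add g l (L - l) u
          rw [Nat.add_sub_cancel' hle] at hq
          rw [inv_pow]
          have hp : 0 < theta ^ (L - l) := pow_pos theta_pos _
          refine inv_anti₀ hp ?_
          rw [hq, le_div_iff₀ hp] at hLq
          simpa using hLq
      _ = ∑ k ∈ T.image (L - ·), (theta⁻¹) ^ k := by
          rw [sum_image]
          intro a ha b hb hab
          have := T.le_max' a ha
          have := T.le_max' b hb
          simp only at hab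
          omega
      _ ≤ 59 / 9 := hgeo _
  have hsmall : ∑ l ∈ S with ¬ 1 ≤ qlev g l u, min (qlev g l u) (qlev g l u)⁻¹ ≤ 59 / 9 := by
    set T := S.filter fun l => ¬ 1 ≤ qlev g l u with hT
    rcases T.eq_empty_or_nonempty with h | h
    · simp [h]; norm_num
    set L := T.min' h with hL
    have hLq : qlev g L u ≤ 1 := (not_le.1 (mem_filter.1 (T.min'_mem h)).2).le
    calc ∑ l ∈ T, min (qlev g l u) (qlev g l u)⁻¹ ≤ ∑ l ∈ T, (theta⁻¹) ^ (l - L) := by
          refine sum_le_sum fun l hl => (min_le_left _ _).trans ?_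
          have hle : L ≤ l := T.min'_le l hl
          have hq := qlev_add g L (l - L) u
          rw [Nat.add_sub_cancel' hle] at hq
          rw [hq, inv_pow, div_eq_mul_inv]
          exact mul_le_of_le_one_left (inv_nonneg.2 (pow_nonneg theta_pos.le _)) hLq
      _ = ∑ k ∈ T.image (· - L), (theta⁻¹) ^ k := by
          rw [sum_image]
          intro a ha b hb hab
          have := T.min'_le a ha
          have := T.min'_le b hb
          simp only at hab
          omega
      _ ≤ 59 / 9 := hgeo _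
  linarith

theorem card_unclean_le (S : Finset ℕ) (hS : ∀ l ∈ S, ¬ IsClean g l) :
    (S.card : ℝ) ≤ 14 * d / eps := by
  rw [le_div_iff₀ eps_pos]
  refine le_trans ?_ (sum_closeness_le g S)
  have := card_nsmul_le_sum S (closeness g) eps fun l hl => (not_le.1 (hS l hl)).le
  simpa using this

theorem exists_clean (a : ℕ) : ∃ l, a ≤ l ∧ IsClean g l := by
  by_contra h
  push Not at h
  obtain ⟨n, hn⟩ := exists_nat_gt (14 * d / eps : ℝ)
  have := card_unclean_le g (Ico a (a + n)) fun l hl => h l (mem_Ico.1 hl).1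
  simp at this
  linarith

theorem nextClean_spec (a : ℕ) : a ≤ nextClean g a ∧ IsClean g (nextClean g a) :=
  Nat.sInf_mem (exists_clean g a)

theorem not_clean_of_lt_nextClean {a l : ℕ} (h1 : a ≤ l) (h2 : l < nextClean g a) :
    ¬ IsClean g l := fun h => Nat.notMem_of_lt_sInf h2 ⟨h1, h⟩

theorem lev_succ (i : ℕ) : lev g (i + 1) = nextClean g (lev g i + pad g i) := rfl

theorem pad_succ (i : ℕ) : pad g (i + 1) = max 2 (Nat.log 2 (wid g i) - 3) := rfl

theorem two_le_pad (i : ℕ) : 2 ≤ pad g i := by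
  cases i with
  | zero => exact le_rfl
  | succ i => rw [pad_succ]; exact le_max_left _ _

theorem lev_add_pad_le (i : ℕ) : lev g i + pad g i ≤ lev g (i + 1) := (nextClean_spec g _).1

theorem lev_succ_clean (i : ℕ) : IsClean g (lev g (i + 1)) := (nextClean_spec g _).2

theorem lev_succ_eq (i : ℕ) : lev g (i + 1) = lev g i + wid g i := by
  have := lev_add_pad_le g i
  unfold wid; omega

theorem pad_le_wid (i : ℕ) : pad g i ≤ wid g i := by
  have := lev_add_pad_le g i
  unfold wid; omega

theorem two_le_wid (i : ℕ) : 2 ≤ wid g i := (two_le_pad g i).trans (pad_le_wid g i)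

theorem two_mul_le_lev (i : ℕ) : 2 * i ≤ lev g i := by
  induction i with
  | zero => exact Nat.zero_le _
  | succ i ih => rw [lev_succ_eq]; have := two_le_wid g i; omega

theorem wid_le_sixteen (i : ℕ) : wid g i ≤ 16 * 2 ^ wid g (i + 1) := by
  have h1 : wid g i < 2 ^ (Nat.log 2 (wid g i) + 1) := Nat.lt_pow_succ_log_self one_lt_two _
  have h2 : Nat.log 2 (wid g i) - 3 ≤ wid g (i + 1) :=
    le_trans (le_trans (le_max_right _ _) (le_of_eq (pad_succ g i).symm)) (pad_le_wid g _)
  have h3 : 2 ^ (Nat.log 2 (wid g i) + 1) ≤ 2 ^ (4 + wid g (i + 1)) :=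
    Nat.pow_le_pow_right two_pos (by omega)
  have h4 : (2 : ℕ) ^ (4 + wid g (i + 1)) = 16 * 2 ^ wid g (i + 1) := by rw [pow_add]; norm_num
  omega

theorem qq_nonneg (i : ℕ) (u : Fin d) : 0 ≤ qq g i u := qlev_nonneg g _ u

theorem qq_succ (i : ℕ) (u : Fin d) : qq g (i + 1) u = qq g i u / theta ^ wid g i := by
  rw [qq, lev_succ_eq, qlev_add]; rfl

theorem qq_zero_pow (hg : ∀ u, 0 ≤ g u) (u : Fin d) : qq g 0 u ^ 4 = g u := by
  rw [qq, qlev_pow_four g hg]; simp [lev, sched]

theorem qq_succ_le (i : ℕ) (u : Fin d) : qq g (i + 1) u ≤ qq g i u := by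
  rw [qq_succ]; exact div_le_self (qq_nonneg g i u) (one_le_pow₀ one_lt_theta.le)

theorem qq_anti {i j : ℕ} (h : i ≤ j) (u : Fin d) : qq g j u ≤ qq g i u := by
  induction h with
  | refl => exact le_rfl
  | step _ ih => exact (qq_succ_le g _ u).trans ih

theorem mem_Fs {i : ℕ} {u : Fin d} : u ∈ Fs g i ↔ i = 0 ∨ 1 ≤ qq g i u := by simp [Fs]

theorem mem_Fs_succ {i : ℕ} {u : Fin d} : u ∈ Fs g (i + 1) ↔ 1 ≤ qq g (i + 1) u := by
  simp [mem_Fs]

theorem Fs_zero : Fs g 0 = univ := by ext u; simp [mem_Fs]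

theorem Fs_anti {i j : ℕ} (h : i ≤ j) : Fs g j ⊆ Fs g i := by
  intro u hu
  rw [mem_Fs] at hu ⊢
  rcases hu with rfl | hu
  · left; omega
  · right; exact hu.trans (qq_anti g h u)

theorem closeness_term_le {i : ℕ} (u : Fin d) :
    min (qq g (i + 1) u) (qq g (i + 1) u)⁻¹ ≤ eps :=
  (single_le_sum (f := fun u => min (qq g (i + 1) u) (qq g (i + 1) u)⁻¹)
    (fun u _ => le_min (qq_nonneg g _ u) (inv_nonneg.2 (qq_nonneg g _ u)))
    (mem_univ u)).trans (lev_succ_clean g i)

theorem inv_qq_le_eps {i : ℕ} {u : Fin d} (hu : u ∈ Fs g (i + 1)) :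
    (qq g (i + 1) u)⁻¹ ≤ eps := by
  have h1 := (mem_Fs_succ g).1 hu
  rcases min_le_iff.1 (closeness_term_le g (i := i) u) with h | h
  · linarith [eps_lt_one]
  · exact h

theorem sum_inv_qq_le (i : ℕ) : ∑ u ∈ Fs g (i + 1), (qq g (i + 1) u)⁻¹ ≤ eps := by
  refine le_trans ?_ (lev_succ_clean g i)
  calc ∑ u ∈ Fs g (i + 1), (qq g (i + 1) u)⁻¹
      = ∑ u ∈ Fs g (i + 1), min (qq g (i + 1) u) (qq g (i + 1) u)⁻¹ := by
        refine sum_congr rfl fun u hu => (min_eq_right ?_).symm
        have h1 := (mem_Fs_succ g).1 hu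
        exact (inv_le_one_of_one_le₀ h1).trans h1
    _ ≤ ∑ u, min (qq g (i + 1) u) (qq g (i + 1) u)⁻¹ :=
        sum_le_sum_of_subset_of_nonneg (subset_univ _) fun u _ _ =>
          le_min (qq_nonneg g _ u) (inv_nonneg.2 (qq_nonneg g _ u))

theorem sum_qq_le (i : ℕ) : ∑ u ∈ (Fs g (i + 1))ᶜ, qq g (i + 1) u ≤ eps := by
  refine le_trans ?_ (lev_succ_clean g i)
  calc ∑ u ∈ (Fs g (i + 1))ᶜ, qq g (i + 1) u
      = ∑ u ∈ (Fs g (i + 1))ᶜ, min (qq g (i + 1) u) (qq g (i + 1) u)⁻¹ := by
        refine sum_congr rfl fun u hu => (min_eq_left ?_).symm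
        have h1 : qq g (i + 1) u ≤ 1 := by
          rw [mem_compl, mem_Fs_succ, not_le] at hu; exact hu.le
        rcases eq_or_lt_of_le (qq_nonneg g (i + 1) u) with h | h
        · rw [← h]; simp
        · exact h1.trans (one_le_inv₀ h |>.2 h1)
    _ ≤ ∑ u, min (qq g (i + 1) u) (qq g (i + 1) u)⁻¹ :=
        sum_le_sum_of_subset_of_nonneg (subset_univ _) fun u _ _ =>
          le_min (qq_nonneg g _ u) (inv_nonneg.2 (qq_nonneg g _ u))

theorem Bud_succ (n : ℕ) : Bud g (n + 1) = Bud g n + cost g n := sum_range_succ _ _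

theorem Bud_mono {i j : ℕ} (h : i ≤ j) : Bud g i ≤ Bud g j :=
  sum_le_sum_of_subset (range_subset_range.2 h)

theorem cth_nonneg (n : ℕ) (u : Fin d) : 0 ≤ cth g n u := by
  unfold cth; split_ifs
  · exact qq_nonneg g n u
  · exact le_rfl

theorem cth_anti {i j : ℕ} (h : i ≤ j) (u : Fin d) : cth g j u ≤ cth g i u := by
  unfold cth
  by_cases hj : u ∈ Fs g j
  · rw [if_pos hj, if_pos (Fs_anti g h hj)]; exact qq_anti g h u
  · rw [if_neg hj]; exact cth_nonneg g i u

theorem card_born_le (n : ℕ) : ((∑ i ∈ range n, (born g i).card : ℕ)) ≤ d := by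
  have h : ∀ n, ∑ i ∈ range n, (born g i).card + (Fs g n).card = d := by
    intro n
    induction n with
    | zero => simp [Fs_zero]
    | succ n ih =>
      rw [sum_range_succ]
      have h1 : (born g n).card + (Fs g (n + 1)).card = (Fs g n).card := by
        have hs : Fs g (n + 1) ⊆ Fs g n := Fs_anti g (Nat.le_succ n)
        rw [born, card_sdiff_of_subset hs]
        have := card_le_card hs
        omega
      omega
  have := h n
  omega

theorem card_sdiff_Fs {i n : ℕ} (h : i ≤ n) :
    (Fs g i \ Fs g n).card + Bud g i ≤ Bud g n := by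
  induction h with
  | refl => simp
  | @step n h ih =>
    rw [Bud_succ]
    have : Fs g i \ Fs g (n + 1) ⊆ (Fs g i \ Fs g n) ∪ born g n := by
      intro u hu
      simp only [born, mem_sdiff, mem_union] at hu ⊢
      tauto
    have h2 := (card_le_card this).trans (card_union_le _ _)
    have h3 : (born g n).card ≤ cost g n := Nat.le_add_right _ _
    change (Fs g i \ Fs g (n + 1)).card + Bud g i ≤ _
    omega

theorem six_mul_log_le (L : ℕ) : 6 * L ≤ 2 ^ L + 28 := by
  induction L with
  | zero => simp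
  | succ L ih =>
    rcases Nat.lt_or_ge L 5 with h | h
    · interval_cases L <;> norm_num
    · have : 2 ^ 5 ≤ 2 ^ L := Nat.pow_le_pow_right two_pos h
      rw [pow_succ]; omega

theorem six_mul_pad_sub_le (i : ℕ) : 6 * (pad g (i + 1) - 2) ≤ wid g i - 2 := by
  rw [pad_succ]
  have h2 := two_le_wid g i
  have h1 : 2 ^ Nat.log 2 (wid g i) ≤ wid g i := Nat.pow_log_le_self 2 (by omega)
  have h3 := six_mul_log_le (Nat.log 2 (wid g i))
  omega

open Classical in
/-- The unclean levels met in the `i`-th step. -/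
noncomputable def skipped (i : ℕ) : Finset ℕ := Ico (lev g i + pad g i) (lev g (i + 1))

theorem card_skipped_le (n : ℕ) : ((∑ i ∈ range n, (skipped g i).card : ℕ) : ℝ) ≤ 14 * d / eps := by
  classical
  have hdis : ((range n : Finset ℕ) : Set ℕ).PairwiseDisjoint (skipped g) := by
    intro i _ j _ hij
    have hmono : ∀ a b, a < b → lev g (a + 1) ≤ lev g b := by
      intro a b hab
      induction hab with
      | refl => exact le_rfl
      | step _ ih => exact ih.trans (by rw [lev_succ_eq]; omega)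
    refine disjoint_left.2 fun l hl hl' => ?_
    simp only [skipped, mem_Ico] at hl hl'
    rcases Nat.lt_or_gt_of_ne hij with h | h
    · have := hmono i j h; omega
    · have := hmono j i h; omega
  rw [← card_biUnion hdis]
  refine card_unclean_le g _ fun l hl => ?_
  obtain ⟨i, -, hli⟩ := mem_biUnion.1 hl
  exact not_clean_of_lt_nextClean g (mem_Ico.1 hli).1 (mem_Ico.1 hli).2

theorem sum_wid_sub_le (n : ℕ) : ((∑ i ∈ range n, (wid g i - 2) : ℕ) : ℝ) ≤ 28 * d / eps := by
  have hrec : ∀ n, 6 * ∑ i ∈ range (n + 1), (wid g i - 2)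
      ≤ 6 * ∑ i ∈ range (n + 1), (skipped g i).card + ∑ i ∈ range n, (wid g i - 2) := by
    intro n
    induction n with
    | zero =>
      simp only [zero_add, sum_range_one, range_zero, sum_empty, add_zero, skipped, Nat.card_Ico]
      have h1 : lev g 1 = lev g 0 + wid g 0 := lev_succ_eq g 0
      have h2 : pad g 0 = 2 := rfl
      omega
    | succ n ih =>
      rw [sum_range_succ _ (n + 1), sum_range_succ (fun i => (skipped g i).card) (n + 1),
        sum_range_succ _ n]
      have h1 := six_mul_pad_sub_le g n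
      have h2 : (skipped g (n + 1)).card = wid g (n + 1) - pad g (n + 1) := by
        simp only [skipped, Nat.card_Ico]; have := lev_succ_eq g (n + 1); omega
      have h3 := pad_le_wid g (n + 1)
      have h4 := two_le_pad g (n + 1)
      rw [h2]
      rw [sum_range_succ _ n] at ih
      omega
  rcases n with - | n
  · simp; exact div_nonneg (by positivity) eps_pos.le
  have h1 := hrec n
  have h2 : ∑ i ∈ range n, (wid g i - 2) ≤ ∑ i ∈ range (n + 1), (wid g i - 2) :=
    sum_le_sum_of_subset (range_subset_range.2 (Nat.le_succ n))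
  have h3 : ∑ i ∈ range (n + 1), (wid g i - 2) ≤ 2 * ∑ i ∈ range (n + 1), (skipped g i).card := by
    omega
  refine (Nat.cast_le.2 h3).trans ?_
  push_cast
  have h4 := card_skipped_le g (n + 1)
  push_cast at h4
  calc (2 : ℝ) * ∑ i ∈ range (n + 1), ((skipped g i).card : ℝ) ≤ 2 * (14 * d / eps) := by linarith
    _ = 28 * d / eps := by ring

theorem Bud_le (n : ℕ) : (Bud g n : ℝ) ≤ 29 * d / eps := by
  rw [Bud]
  unfold cost
  rw [sum_add_distrib]
  push_cast
  have h1 := card_born_le g n
  have h2 := sum_wid_sub_le g n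
  push_cast at h1 h2
  have h3 : (d : ℝ) ≤ d / eps := le_div_self (by positivity) eps_pos eps_lt_one.le
  have h4 : (∑ i ∈ range n, ((born g i).card : ℝ)) ≤ d := by exact_mod_cast h1
  calc _ ≤ (d : ℝ) / eps + 28 * d / eps := by linarith
    _ = 29 * d / eps := by ring

theorem wid_le (i : ℕ) : (wid g i : ℝ) ≤ 2 + cost g i := by
  have : wid g i ≤ 2 + cost g i := by unfold cost; omega
  exact_mod_cast this

theorem Xb_nonneg (i : ℕ) : 0 ≤ Xb g i := by
  induction i with
  | zero => exact le_rfl
  | succ i ih =>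
    have : (0 : ℝ) ≤ Kb := by norm_num [Kb]
    rw [Xb]; split_ifs <;> simp <;> positivity

theorem Xb_le (i : ℕ) : Xb g i ≤ 4 * Kb := by
  induction i with
  | zero => rw [Xb]; norm_num [Kb]
  | succ i ih =>
    have : (0 : ℝ) ≤ Kb := by norm_num [Kb]
    rw [Xb]; split_ifs <;> simp <;> linarith

theorem sum_Xb_le (n : ℕ) : ∑ i ∈ range n, Xb g i ≤ 4 * Kb * d := by
  have hKb : (0 : ℝ) ≤ Kb := by norm_num [Kb]
  have h : ∀ n, Xb g n + 1 / 4 * ∑ i ∈ range n, Xb g i
      ≤ Kb * ((∑ i ∈ range n, (born g i).card : ℕ) : ℝ) := by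
    intro n
    induction n with
    | zero => simp [Xb]
    | succ n ih =>
      rw [Xb, sum_range_succ, sum_range_succ]
      push_cast at ih ⊢
      have : (if (born g n).Nonempty then (1 : ℝ) else 0) ≤ ((born g n).card : ℝ) := by
        split_ifs with h
        · exact_mod_cast card_pos.2 h
        · positivity
      nlinarith [mul_le_mul_of_nonneg_left this hKb]
  have h1 := h n
  have h2 := Xb_nonneg g n
  have h3 : Kb * ((∑ i ∈ range n, (born g i).card : ℕ) : ℝ) ≤ Kb * d :=
    mul_le_mul_of_nonneg_left (by exact_mod_cast card_born_le g n) hKb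
  linarith

theorem Zs_succ (n : ℕ) : Zs g (n + 1) = Zs g n + (wid g n : ℝ) * Xb g n := sum_range_succ _ _

theorem Zs_le (n : ℕ) : Zs g n ≤ 124 * Kb * d / eps := by
  have hKb : (0 : ℝ) ≤ Kb := by norm_num [Kb]
  calc Zs g n ≤ ∑ i ∈ range n, (2 * Xb g i + 4 * Kb * (cost g i : ℝ)) := by
        refine sum_le_sum fun i _ => ?_
        have h1 := wid_le g i
        have h2 := mul_le_mul_of_nonneg_left (Xb_le g i) (Nat.cast_nonneg (α := ℝ) (cost g i))
        nlinarith [mul_le_mul_of_nonneg_right h1 (Xb_nonneg g i)]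
    _ = 2 * ∑ i ∈ range n, Xb g i + 4 * Kb * (Bud g n : ℝ) := by
        rw [sum_add_distrib, ← mul_sum, ← mul_sum, Bud]; push_cast; rfl
    _ ≤ 2 * (4 * Kb * d) + 4 * Kb * (29 * d / eps) := by
        gcongr
        · exact sum_Xb_le g n
        · exact Bud_le g n
    _ ≤ 8 * (Kb * d / eps) + 4 * Kb * (29 * d / eps) := by
        have : Kb * d ≤ Kb * d / eps := le_div_self (by positivity) eps_pos eps_lt_one.le
        linarith
    _ = 124 * Kb * d / eps := by ring

end Vale.Agent.P262
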