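import Vale.Agent.P262.Node

/-!
Cutting a node into consecutive parts: two biased extreme parts and a balanced middle.
-/

open Finset

namespace Vale.Agent.P262

variable {ι : Type*} [Fintype ι] {d : ℕ} (v : ι → Fin d → ℝ)

/-- Clamping to `[-c, c]`. -/
noncomputable def clamp (c x : ℝ) : ℝ := max (-c) (min x c)

theorem abs_clamp_le {c : ℝ} (hc : 0 ≤ c) (x : ℝ) : |clamp c x| ≤ c :=
  abs_le.2 ⟨le_max_left _ _, max_le (by linarith) (min_le_right _ _)⟩

theorem abs_sub_clamp_le {c : ℝ} (hc : 0 ≤ c) {x V : ℝ} (h : |x| ≤ V) :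
    |x - clamp c x| ≤ max (V - c) 0 := by
  have h1 := abs_le.1 h
  rcases le_total x (-c) with hx | hx
  · rw [clamp, min_eq_left (by linarith), max_eq_left hx, abs_of_nonpos (by linarith)]
    exact le_trans (by linarith) (le_max_left _ _)
  · rcases le_total x c with hx' | hx'
    · rw [clamp, min_eq_left hx', max_eq_right hx]
      simp
    · rw [clamp, min_eq_right hx', max_eq_right (by linarith), abs_of_nonneg (by linarith)]
      exact le_trans (by linarith) (le_max_left _ _)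

/-- The matrix shift caused by a bias. -/
def Dm (A : Finset ι) (δ : ι → ℝ) (u w : Fin d) : ℝ := ∑ k ∈ A, δ k * (v k u * v k w)

omit [Fintype ι] in
theorem sum_Gm_mul (A : Finset ι) (y : Fin d → ℝ) (F : Finset (Fin d)) (u : Fin d) :
    ∑ k ∈ A, (∑ w ∈ F, v k w * y w) * v k u = ∑ w ∈ F, Gm v A u w * y w := by
  simp only [Gm, sum_mul]
  rw [sum_comm]
  exact sum_congr rfl fun w _ => sum_congr rfl fun k _ => by ring

/-- The bias producing a prescribed shift on the surviving coordinates. -/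
theorem exists_bias [DecidableEq ι] (i : ℕ) {A A' : Finset ι} (hA : A' ⊆ A)
    (hv : ∀ k, ∑ u, v k u ^ 2 ≤ 1) {c0 r : ℝ}
    (hH : wn (Fs (mom v) (i + 1)) (qq (mom v) i)
      (fun u w => Gm v A' u w - c0 * if u = w then qq (mom v) i u ^ 4 else 0) ≤ r)
    (h1 : 1 / 4 ≤ c0 - r) (h2 : c0 + r ≤ 2) (t : Fin d → ℝ)
    (ht : ∀ u ∈ Fs (mom v) (i + 1), |t u| ≤ 3 * qq (mom v) (i + 1) u) :
    ∃ δ : ι → ℝ, (∀ k ∉ A', δ k = 0) ∧ (∀ u ∈ Fs (mom v) (i + 1), ev v A δ u = t u) ∧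
      (∀ k, |δ k| ≤ 12 * eps ^ 2 / 2 ^ wid (mom v) i) ∧
      ∑ k ∈ A, δ k ^ 2 ≤ 300 * eps / 2 ^ wid (mom v) i ∧
      ((∀ u ∈ Fs (mom v) (i + 1), Gm v A u u ≤ 2 * qq (mom v) i u ^ 4) →
        wn (Fs (mom v) (i + 1)) (qq (mom v) i) (Dm v A δ)
          ≤ Real.sqrt eps / 10 / (theta ^ wid (mom v) i) ^ 3) := by
  set g := mom v with hg
  set F := Fs g (i + 1) with hF
  set q := qq g i with hq
  set q' := qq g (i + 1) with hq'
  set μ := theta ^ wid g i with hμ
  have hμ1 : 1 ≤ μ := one_le_pow₀ one_lt_theta.le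
  have hμ0 : 0 < μ := lt_of_lt_of_le one_pos hμ1
  have hM : (2 : ℝ) ^ wid g i = μ ^ 4 := by
    rw [hμ, ← theta_pow_four, ← pow_mul, ← pow_mul, mul_comm]
  have hqμ : ∀ u, q u = μ * q' u := fun u => by
    rw [hq', qq_succ, ← hμ, mul_div_cancel₀ _ hμ0.ne', hq]
  have hF1 : ∀ u ∈ F, 1 ≤ q' u := fun u hu => (mem_Fs_succ g).1 hu
  have hq1 : ∀ u ∈ F, 1 ≤ q u := fun u hu => (hF1 u hu).trans (qq_succ_le g i u)
  have hq0 : ∀ u, 0 ≤ q u := qq_nonneg g i
  have hdiag : ∀ y : Fin d → ℝ,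
      ∑ u ∈ F, ∑ w ∈ F, (c0 * if u = w then q u ^ 4 else 0) * y u * y w
        = c0 * ∑ u ∈ F, q u ^ 4 * y u ^ 2 := by
    intro y
    rw [mul_sum]
    refine sum_congr rfl fun u hu => ?_
    simp only [mul_ite, mul_zero, ite_mul, zero_mul, sum_ite_eq, hu, if_true]
    ring
  have hform : ∀ y : Fin d → ℝ, |∑ u ∈ F, ∑ w ∈ F, Gm v A' u w * y u * y w
      - c0 * ∑ u ∈ F, q u ^ 4 * y u ^ 2| ≤ r * ∑ u ∈ F, q u ^ 4 * y u ^ 2 := by
    intro y
    rw [← hdiag, ← sum_sub_distrib]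
    simp only [← sum_sub_distrib, ← sub_mul]
    exact (abs_form_le_wn F q hq1 hq0 _ y).trans
      (mul_le_mul_of_nonneg_right hH (sum_nonneg fun u _ =>
        mul_nonneg (pow_nonneg (hq0 u) _) (sq_nonneg _)))
  obtain ⟨y, hy, hyE⟩ := exists_solve F q hq1 (Gm v A') (show (0 : ℝ) < 1 / 4 by norm_num)
    (fun y => by
      have := abs_le.1 (hform y)
      have hP : 0 ≤ ∑ u ∈ F, q u ^ 4 * y u ^ 2 :=
        sum_nonneg fun u _ => mul_nonneg (pow_nonneg (hq0 u) _) (sq_nonneg _)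
      nlinarith [mul_le_mul_of_nonneg_right h1 hP]) t
  set P := ∑ u ∈ F, q u ^ 4 * y u ^ 2 with hP
  have hP0 : 0 ≤ P := sum_nonneg fun u _ => mul_nonneg (pow_nonneg (hq0 u) _) (sq_nonneg _)
  have hT : ∑ u ∈ F, t u ^ 2 / q u ^ 4 ≤ 9 * eps / μ ^ 4 := by
    calc ∑ u ∈ F, t u ^ 2 / q u ^ 4 ≤ ∑ u ∈ F, 9 / μ ^ 4 * (q' u)⁻¹ := by
          refine sum_le_sum fun u hu => ?_
          have h4 : t u ^ 2 ≤ 9 * q' u ^ 2 := by
            rw [← sq_abs]
            calc |t u| ^ 2 ≤ (3 * q' u) ^ 2 := pow_le_pow_left₀ (abs_nonneg _) (ht u hu) 2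
              _ = 9 * q' u ^ 2 := by ring
          have hpos : 0 < q' u := lt_of_lt_of_le one_pos (hF1 u hu)
          rw [hqμ, mul_pow, div_le_iff₀ (by positivity)]
          refine h4.trans ?_
          have h5 : 9 / μ ^ 4 * (q' u)⁻¹ * (μ ^ 4 * q' u ^ 4) = 9 * q' u ^ 3 := by
            field_simp
          rw [h5]
          have := pow_le_pow_right₀ (hF1 u hu) (show 2 ≤ 3 by norm_num)
          linarith
      _ = 9 / μ ^ 4 * ∑ u ∈ F, (q' u)⁻¹ := by rw [mul_sum]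
      _ ≤ 9 / μ ^ 4 * eps := mul_le_mul_of_nonneg_left (sum_inv_qq_le g i) (by positivity)
      _ = 9 * eps / μ ^ 4 := by ring
  have hPle : P ≤ 144 * eps / μ ^ 4 := by
    have := hyE.trans hT
    rw [show (144 : ℝ) * eps / μ ^ 4 = 16 * (9 * eps / μ ^ 4) by ring]
    linarith
  let δ : ι → ℝ := fun k => if k ∈ A' then ∑ w ∈ F, v k w * y w else 0
  have hδA : ∀ f : ι → ℝ, ∑ k ∈ A, δ k * f k
      = ∑ k ∈ A', (∑ w ∈ F, v k w * y w) * f k := fun f => by
    rw [← sum_subset hA fun k _ hk => by simp [δ, hk]]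
    exact sum_congr rfl fun k hk => by simp [δ, hk]
  have hsolve : ∀ u ∈ F, ev v A δ u = t u := fun u hu => by
    rw [ev, hδA (fun k => v k u), sum_Gm_mul, hy u hu]
  have hsq : ∑ k ∈ A, δ k ^ 2 ≤ 300 * eps / 2 ^ wid g i := by
    have : ∑ k ∈ A, δ k ^ 2 = ∑ u ∈ F, ∑ w ∈ F, Gm v A' u w * y u * y w := by
      simp only [sq, hδA]
      calc ∑ k ∈ A', (∑ w ∈ F, v k w * y w) * δ k
          = ∑ k ∈ A', ∑ u ∈ F, (∑ w ∈ F, v k w * y w) * v k u * y u := by
            refine sum_congr rfl fun k hk => ?_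
            simp only [δ, if_pos hk, mul_sum, mul_assoc]
        _ = ∑ u ∈ F, (∑ k ∈ A', (∑ w ∈ F, v k w * y w) * v k u) * y u := by
            rw [sum_comm]; simp only [sum_mul]
        _ = ∑ u ∈ F, ∑ w ∈ F, Gm v A' u w * y u * y w := by
            refine sum_congr rfl fun u _ => ?_
            rw [sum_Gm_mul, sum_mul]
            exact sum_congr rfl fun w _ => by ring
    rw [this, hM]
    have h4 := (abs_le.1 (hform y)).2
    calc ∑ u ∈ F, ∑ w ∈ F, Gm v A' u w * y u * y w ≤ (c0 + r) * P := by linarith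
      _ ≤ 2 * P := mul_le_mul_of_nonneg_right h2 hP0
      _ ≤ 300 * eps / μ ^ 4 := by
        have : 2 * (144 * eps / μ ^ 4) ≤ 300 * eps / μ ^ 4 := by
          rw [← mul_div_assoc]
          exact div_le_div_of_nonneg_right (by linarith [eps_pos]) (by positivity)
        linarith
  refine ⟨δ, fun k hk => by simp [δ, hk], hsolve, ?_, hsq, fun hG => ?_⟩
  · intro k
    by_cases hk : k ∈ A'
    · simp only [δ, if_pos hk]
      refine abs_le_of_sq_le_sq ?_ (by have := eps_pos; positivity)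
      calc (∑ w ∈ F, v k w * y w) ^ 2 ≤ (∑ w ∈ F, v k w ^ 2) * ∑ w ∈ F, y w ^ 2 :=
            sum_mul_sq_le_sq_mul_sq F _ _
        _ ≤ 1 * (eps ^ 4 / μ ^ 4 * P) := by
            refine mul_le_mul ((sum_le_sum_of_subset_of_nonneg (subset_univ _)
              fun _ _ _ => sq_nonneg _).trans (hv k)) ?_ (sum_nonneg fun _ _ => sq_nonneg _)
              zero_le_one
            rw [hP, mul_sum]
            refine sum_le_sum fun u hu => ?_
            have hpos : 0 < q' u := lt_of_lt_of_le one_pos (hF1 u hu)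
            have h6 : 1 ≤ eps * q' u := by
              have := inv_qq_le_eps g hu
              rw [← hq', inv_le_iff_one_le_mul₀ hpos] at this
              exact this
            rw [hqμ, mul_pow, ← mul_assoc, ← mul_assoc, div_mul_cancel₀ _ (by positivity),
              ← mul_pow]
            exact le_mul_of_one_le_left (sq_nonneg _) (one_le_pow₀ h6)
        _ ≤ (12 * eps ^ 2 / 2 ^ wid g i) ^ 2 := by
            rw [one_mul, hM]
            refine (mul_le_mul_of_nonneg_left hPle (by have := eps_pos; positivity)).trans ?_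
            rw [div_mul_div_comm, div_pow, ← sq (μ ^ 4)]
            refine div_le_div_of_nonneg_right ?_ (by positivity)
            nlinarith [mul_le_of_le_one_right (pow_nonneg eps_pos.le 4) eps_lt_one.le,
              pow_nonneg eps_pos.le 4]
    · simp only [δ, if_neg hk, abs_zero]
      have := eps_pos
      positivity
  · set S := ∑ k ∈ A, δ k ^ 2 with hS
    have hS0 : 0 ≤ S := sum_nonneg fun _ _ => sq_nonneg _
    have hb : ∀ u ∈ F, ∀ w ∈ F, Dm v A δ u w ^ 2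
        ≤ (Real.sqrt (2 * S) * q u ^ 2) * (Real.sqrt (2 * S) * q w ^ 2) := by
      intro u hu w hw
      have hv4 : ∀ z, ∑ k ∈ A, (v k z ^ 2) ^ 2 ≤ Gm v A z z := fun z =>
        sum_le_sum fun k _ => by
          have h6 : v k z ^ 2 ≤ 1 := (single_le_sum (f := fun u => v k u ^ 2)
            (fun u _ => sq_nonneg _) (mem_univ z)).trans (hv k)
          rw [← sq]
          exact (pow_le_pow_of_le_one (sq_nonneg _) h6 (show 1 ≤ 2 by norm_num)).trans
            (le_of_eq (pow_one _))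
      have h5 : ∑ k ∈ A, (v k u * v k w) ^ 2 ≤ 2 * (q u ^ 2 * q w ^ 2) := by
        refine le_of_sq_le_sq ?_ (by positivity)
        calc (∑ k ∈ A, (v k u * v k w) ^ 2) ^ 2
            ≤ (∑ k ∈ A, (v k u ^ 2) ^ 2) * ∑ k ∈ A, (v k w ^ 2) ^ 2 := by
              refine sum_sq_le_sum_mul_sum_of_sq_le_mul A (fun _ _ => sq_nonneg _)
                (fun _ _ => sq_nonneg _) fun k _ => le_of_eq (by ring)
          _ ≤ (2 * q u ^ 4) * (2 * q w ^ 4) :=
              mul_le_mul ((hv4 u).trans (hG u hu)) ((hv4 w).trans (hG w hw))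
                (sum_nonneg fun _ _ => sq_nonneg _) (by positivity)
          _ = (2 * (q u ^ 2 * q w ^ 2)) ^ 2 := by ring
      rw [show Real.sqrt (2 * S) * q u ^ 2 * (Real.sqrt (2 * S) * q w ^ 2)
        = Real.sqrt (2 * S) * Real.sqrt (2 * S) * (q u ^ 2 * q w ^ 2) by ring,
        Real.mul_self_sqrt (by positivity)]
      refine (sum_mul_sq_le_sq_mul_sq A _ _).trans ?_
      calc S * ∑ k ∈ A, (v k u * v k w) ^ 2 ≤ S * (2 * (q u ^ 2 * q w ^ 2)) :=
            mul_le_mul_of_nonneg_left h5 hS0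
        _ = 2 * S * (q u ^ 2 * q w ^ 2) := by ring
    refine le_of_sq_le_sq ((wn_le_of_abs_le F q hq0 _ _ hb).trans ?_) (by positivity)
    calc (∑ u ∈ F, Real.sqrt (2 * S) * q u ^ 2 / q u ^ 3) ^ 2
        = 2 * S * (∑ u ∈ F, (q u)⁻¹) ^ 2 := by
          have hs : Real.sqrt (2 * S) ^ 2 = 2 * S := Real.sq_sqrt (by positivity)
          conv_rhs => rw [← hs, ← mul_pow, mul_sum]
          congr 1
          refine sum_congr rfl fun u hu => ?_
          have := hq1 u hu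
          field_simp
      _ ≤ 2 * (300 * eps / μ ^ 4) * (eps / μ) ^ 2 := by
          refine mul_le_mul (by rw [hM] at hsq; linarith) ?_ (sq_nonneg _)
            (by have := eps_pos; positivity)
          refine pow_le_pow_left₀ (sum_nonneg fun u _ => inv_nonneg.2 (hq0 u)) ?_ 2
          refine le_trans (le_of_eq ?_)
            (div_le_div_of_nonneg_right (sum_inv_qq_le g i) hμ0.le)
          rw [sum_div]
          exact sum_congr rfl fun u _ => by rw [hqμ, mul_inv, ← hq']; ring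
      _ ≤ (Real.sqrt eps / 10 / μ ^ 3) ^ 2 := by
          rw [div_pow (Real.sqrt eps / 10), div_pow (Real.sqrt eps), Real.sq_sqrt eps_pos.le,
            show 2 * (300 * eps / μ ^ 4) * (eps / μ) ^ 2 = 600 * eps ^ 3 / (μ ^ 3) ^ 2 by ring]
          exact div_le_div_of_nonneg_right (by norm_num [eps]) (by positivity)

/-- The data of a cut of `A` into `2 ^ wid` consecutive parts. -/
structure Cut (N i : ℕ) (A : Finset ι) (a b : Fin d → ℝ) where
  part : ι → ℕ
  δ1 : ι → ℝ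
  δ2 : ι → ℝ
  x1 : ι → ℝ
  x2 : ι → ℝ
  ξ : ℕ → ι → ℝ
  part_lt : ∀ k ∈ A, part k < 2 ^ wid (mom v) i
  good1 : Good v N i A x1
  good2 : Good v N i A x2
  goodξ : ∀ j ≤ 2 ^ wid (mom v) i - 2, Good v N i A (ξ j)
  δ1_abs : ∀ k, |δ1 k| ≤ 12 * eps ^ 2 / 2 ^ wid (mom v) i
  δ2_abs : ∀ k, |δ2 k| ≤ 12 * eps ^ 2 / 2 ^ wid (mom v) i
  δ1_sq : ∑ k ∈ A, δ1 k ^ 2 ≤ 300 * eps / 2 ^ wid (mom v) i
  δ2_sq : ∑ k ∈ A, δ2 k ^ 2 ≤ 300 * eps / 2 ^ wid (mom v) i
  δ1_mat : wn (Fs (mom v) (i + 1)) (qq (mom v) i) (Dm v A δ1)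
    ≤ Real.sqrt eps / 10 / (theta ^ wid (mom v) i) ^ 3
  δ2_mat : wn (Fs (mom v) (i + 1)) (qq (mom v) i) (Dm v A δ2)
    ≤ Real.sqrt eps / 10 / (theta ^ wid (mom v) i) ^ 3
  part_eq : ∀ j < 2 ^ wid (mom v) i, ∃ a1 a2 : ℝ, |a1| ≤ 1 ∧ |a2| ≤ 1 ∧
    ∃ j1 ≤ 2 ^ wid (mom v) i - 2, ∃ j2 ≤ 2 ^ wid (mom v) i - 2, ∀ f : ι → ℝ,
      ∑ k ∈ A with part k = j, f k = (∑ k ∈ A, f k) / 2 ^ wid (mom v) i
        + a1 * (∑ k ∈ A, δ1 k * f k + ∑ k ∈ A, x1 k * f k)
        + a2 * (∑ k ∈ A, δ2 k * f k + ∑ k ∈ A, x2 k * f k)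
        + (∑ k ∈ A, ξ j1 k * f k - ∑ k ∈ A, ξ j2 k * f k)
  point_le : ∀ j, 1 ≤ j → j < 2 ^ wid (mom v) i → ∃ j1 ≤ 2 ^ wid (mom v) i - 2, ∀ u,
    (u ∈ Fs (mom v) (i + 1) → |a u + ∑ k ∈ A with part k < j, v k u|
      ≤ max (max |a u| |b u| - qq (mom v) (i + 1) u) 0
        + (|ev v A x1 u| + |ev v A x2 u| + |ev v A (ξ j1) u|)) ∧
    (u ∉ Fs (mom v) (i + 1) → |a u + ∑ k ∈ A with part k < j, v k u|
      ≤ max |a u| |b u| + (|ev v A δ1 u| + |ev v A δ2 u| + |ev v A x1 u| + |ev v A x2 u|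
        + |ev v A (ξ j1) u|))

omit [Fintype ι] in
theorem ev_add (A : Finset ι) (x y : ι → ℝ) (u : Fin d) :
    ev v A (fun k => x k + y k) u = ev v A x u + ev v A y u := by
  simp [ev, add_mul, sum_add_distrib]

/-- The two extreme parts. -/
theorem exists_extremes [DecidableEq ι] (hv : ∀ k, ∑ u, v k u ^ 2 ≤ 1) (N i : ℕ) {A : Finset ι}
    {a b : Fin d → ℝ} (hab : b = a + ∑ k ∈ A, v k)
    (hS : wn (Fs (mom v) (i + 1)) (qq (mom v) i)
      (fun u w => Gm v A u w - if u = w then qq (mom v) i u ^ 4 else 0) ≤ rho) :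
    ∃ (first last : Finset ι) (δ1 δ2 x1 x2 : ι → ℝ),
      first ⊆ A ∧ last ⊆ A \ first ∧ Good v N i A x1 ∧ Good v N i A x2 ∧
      ((∀ k, |δ1 k| ≤ 12 * eps ^ 2 / 2 ^ wid (mom v) i) ∧
        ∑ k ∈ A, δ1 k ^ 2 ≤ 300 * eps / 2 ^ wid (mom v) i ∧
        wn (Fs (mom v) (i + 1)) (qq (mom v) i) (Dm v A δ1)
          ≤ Real.sqrt eps / 10 / (theta ^ wid (mom v) i) ^ 3) ∧
      ((∀ k, |δ2 k| ≤ 12 * eps ^ 2 / 2 ^ wid (mom v) i) ∧
        ∑ k ∈ A, δ2 k ^ 2 ≤ 300 * eps / 2 ^ wid (mom v) i ∧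
        wn (Fs (mom v) (i + 1)) (qq (mom v) i) (Dm v A δ2)
          ≤ Real.sqrt eps / 10 / (theta ^ wid (mom v) i) ^ 3) ∧
      (∀ k ∈ A, δ1 k + x1 k = (if k ∈ first then (1 : ℝ) else 0) - 1 / 2 ^ wid (mom v) i) ∧
      (∀ k ∈ A, δ2 k + x2 k = (if k ∈ last then (1 : ℝ) else 0)
        - 1 / (2 ^ wid (mom v) i - 1) * (1 - if k ∈ first then 1 else 0)) ∧
      (∀ u ∈ Fs (mom v) (i + 1), ev v A δ1 u
        = -clamp (qq (mom v) (i + 1) u) (a u + (b u - a u) / 2 ^ wid (mom v) i)) ∧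
      (∀ u ∈ Fs (mom v) (i + 1), ev v A δ2 u
        = clamp (qq (mom v) (i + 1) u) (b u - (b u - a u) / 2 ^ wid (mom v) i)
          + 1 / (2 ^ wid (mom v) i - 1) * (ev v A δ1 u + ev v A x1 u)) := by
  set g := mom v with hg
  set W := wid g i with hW
  set F := Fs g (i + 1) with hF
  set q := qq g i with hq
  set q' := qq g (i + 1) with hq'
  have hW2 : 2 ≤ W := two_le_wid g i
  have hM4 : (4 : ℝ) ≤ 2 ^ W := by
    calc (4 : ℝ) = 2 ^ 2 := by norm_num
      _ ≤ 2 ^ W := pow_le_pow_right₀ one_le_two hW2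
  set M : ℝ := 2 ^ W with hM
  set p0 : ℝ := 1 / (M - 1) with hp0
  have hp0' : p0 * (1 - 1 / M) = 1 / M := by
    have : M - 1 ≠ 0 := by linarith
    have : M ≠ 0 := by linarith
    rw [hp0]; field_simp
  have hp01 : 0 ≤ p0 ∧ p0 ≤ 1 / 3 :=
    ⟨div_nonneg zero_le_one (by linarith), one_div_le_one_div_of_le (by norm_num) (by linarith)⟩
  have hq0 : ∀ u, 0 ≤ q' u := qq_nonneg g (i + 1)
  have hrho : 0 ≤ rho ∧ rho + 2 * Real.sqrt eps ≤ 1 / 4 := by
    have h1 : Real.sqrt eps ≤ 1 / 10 ^ 9 :=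
      Real.sqrt_le_iff.2 ⟨by norm_num, by norm_num [eps]⟩
    unfold rho
    constructor
    · positivity
    · linarith
  have hGdiag : ∀ u ∈ F, Gm v A u u ≤ 2 * q u ^ 4 := by
    intro u hu
    have h1 := abs_form_le_wn F q (fun u hu => ((mem_Fs_succ g).1 hu).trans (qq_succ_le g i u))
      (qq_nonneg g i) (fun u w => Gm v A u w - if u = w then q u ^ 4 else 0)
      (fun w => if w = u then 1 else 0)
    simp only [mul_ite, mul_one, mul_zero, sum_ite_eq', hu, if_true, ite_pow, one_pow,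
      zero_pow two_ne_zero] at h1
    have h3 : 0 ≤ q u ^ 4 := pow_nonneg (qq_nonneg g i u) _
    have h2 : wn F q (fun u w => Gm v A u w - if u = w then q u ^ 4 else 0) * q u ^ 4
        ≤ 1 * q u ^ 4 := mul_le_mul_of_nonneg_right
          (hS.trans (by linarith [hrho.2, Real.sqrt_nonneg eps])) h3
    linarith [(abs_le.1 h1).2]
  let S : Fin d → ℝ := fun u => b u - a u
  have hS' : ∀ u, ∑ k ∈ A, v k u = S u := fun u => by
    simp only [S, hab, Pi.add_apply, Finset.sum_apply]; ring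
  let a' : Fin d → ℝ := fun u => a u + S u / M
  let b' : Fin d → ℝ := fun u => b u - S u / M
  obtain ⟨δ1, hδ1z, hδ1t, hδ1a, hδ1s, hδ1m⟩ := exists_bias v i (Subset.refl A) hv
    (c0 := 1) (r := rho) (by simpa [one_mul] using hS) (by linarith [hrho.2, Real.sqrt_nonneg eps])
    (by linarith [hrho.2, Real.sqrt_nonneg eps])
    (fun u => -clamp (q' u) (a' u)) (fun u _ => by
      rw [abs_neg]
      exact (abs_clamp_le (hq0 u) _).trans (by linarith [hq0 u]))
  have hδM : (12 * eps ^ 2 / M : ℝ) ≤ 1 / (2 * M) := by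
    rw [div_le_div_iff₀ (by linarith) (by linarith)]
    nlinarith [show (24 : ℝ) * eps ^ 2 ≤ 1 by norm_num [eps]]
  obtain ⟨first, hfA, x1, hx1z, hx1, hg1, hp1⟩ := exists_peel v hv N i (Subset.refl A)
    (fun k => 1 / M + δ1 k) (fun k _ => by
      have h1 := abs_le.1 ((hδ1a k).trans hδM)
      have h2 : 1 / (2 * M) = (1 / M) / 2 := by ring
      have h4 : 1 / M ≤ 1 / 4 := one_div_le_one_div_of_le (by norm_num) hM4
      have h5 : 0 ≤ 1 / M := by positivity
      constructor <;> linarith)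
  set R1 := A \ first with hR1
  have hR1A : R1 ⊆ A := sdiff_subset
  have ind1 : ∀ k ∈ A, (if k ∈ first then (1 : ℝ) else 0) = 1 / M + δ1 k + x1 k := by
    intro k hk
    rw [hx1 k, if_pos hk]; ring
  have hsum1 : ∀ f : ι → ℝ, ∑ k ∈ first, f k
      = (∑ k ∈ A, f k) / M + ∑ k ∈ A, δ1 k * f k + ∑ k ∈ A, x1 k * f k := by
    intro f
    rw [sum_div, ← sum_add_distrib, ← sum_add_distrib]
    calc ∑ k ∈ first, f k = ∑ k ∈ A, (if k ∈ first then (1 : ℝ) else 0) * f k := by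
          simp only [ite_mul, one_mul, zero_mul, sum_ite_mem, inter_eq_right.2 hfA]
      _ = _ := sum_congr rfl fun k hk => by rw [ind1 k hk]; ring
  have hev1 : ∀ u, ∑ k ∈ first, v k u = S u / M + ev v A δ1 u + ev v A x1 u := fun u => by
    rw [hsum1 (fun k => v k u), hS']; rfl
  have hGR1 : ∀ u w, Gm v R1 u w
      = (1 - 1 / M) * Gm v A u w - Dm v A δ1 u w - Zm v A x1 u w := fun u w => by
    simp only [Gm, Dm, Zm]
    rw [hR1, sum_sdiff_eq_sub hfA, hsum1]
    ring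
  have hZ1 : wn F q (Zm v A x1) ≤ Real.sqrt eps := by
    refine Real.le_sqrt_of_sq_le ?_
    rw [wn_sq F q (qq_nonneg g i)]
    exact hp1.1
  have hc0 : 3 / 4 ≤ 1 - 1 / M ∧ 1 - 1 / M ≤ 1 := by
    have : 1 / M ≤ 1 / 4 := one_div_le_one_div_of_le (by norm_num) hM4
    have : 0 ≤ 1 / M := by positivity
    constructor <;> linarith
  have hμ1 : (1 : ℝ) ≤ theta ^ W := one_le_pow₀ one_lt_theta.le
  have hH1 : wn F q (fun u w => Gm v R1 u w - (1 - 1 / M) * if u = w then q u ^ 4 else 0)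
      ≤ rho + 2 * Real.sqrt eps := by
    have heq : (fun u w => Gm v R1 u w - (1 - 1 / M) * if u = w then q u ^ 4 else 0)
        = fun u w => (1 - 1 / M) * (Gm v A u w - if u = w then q u ^ 4 else 0)
          + ((-1) * Dm v A δ1 u w + (-1) * Zm v A x1 u w) := by
      ext u w; rw [hGR1]; ring
    rw [heq]
    refine (wn_add_le _ _ _ _).trans ?_
    refine (add_le_add le_rfl (wn_add_le _ _ _ _)).trans ?_
    rw [wn_const_mul, wn_const_mul, wn_const_mul, abs_neg, abs_one, one_mul, one_mul,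
      abs_of_nonneg (by linarith [hc0.1])]
    have h1 : Real.sqrt eps / 10 / (theta ^ W) ^ 3 ≤ Real.sqrt eps / 10 :=
      div_le_self (by positivity) (one_le_pow₀ hμ1)
    have h2 : (1 - 1 / M) * wn F q (fun u w => Gm v A u w - if u = w then q u ^ 4 else 0) ≤ rho :=
      (mul_le_of_le_one_left (wn_nonneg _ _ _) hc0.2).trans hS
    linarith [hδ1m hGdiag, Real.sqrt_nonneg eps]
  let t2 : Fin d → ℝ := fun u => clamp (q' u) (b' u) + p0 * (ev v A δ1 u + ev v A x1 u)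
  obtain ⟨δ2, hδ2z, hδ2t, hδ2a, hδ2s, hδ2m⟩ := exists_bias v i hR1A hv
    (c0 := 1 - 1 / M) (r := rho + 2 * Real.sqrt eps) hH1
    (by linarith [hrho.2, hrho.1, hc0.1, Real.sqrt_nonneg eps])
    (by linarith [hrho.2, hc0.2]) t2 (fun u hu => by
      have hu' : u ∈ F := hu
      have h1 : |ev v A δ1 u + ev v A x1 u| ≤ 2 * q' u := by
        rw [hδ1t u hu]
        refine (abs_add_le _ _).trans ?_
        rw [abs_neg]
        have h3 : 16 * |ev v A x1 u| ≤ q' u / 4 := hp1.2 u hu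
        linarith [abs_clamp_le (hq0 u) (a' u), abs_nonneg (ev v A x1 u), hq0 u]
      calc |t2 u| ≤ |clamp (q' u) (b' u)| + |p0 * (ev v A δ1 u + ev v A x1 u)| := abs_add_le _ _
        _ ≤ q' u + 1 / 3 * (2 * q' u) := by
            rw [abs_mul, abs_of_nonneg hp01.1]
            exact add_le_add (abs_clamp_le (hq0 u) _)
              (mul_le_mul hp01.2 h1 (abs_nonneg _) (by norm_num))
        _ ≤ 3 * q' u := by linarith [hq0 u])
  obtain ⟨last, hlR1, x2, hx2z, hx2, hg2, -⟩ := exists_peel v hv N i hR1A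
    (fun k => p0 + δ2 k) (fun k _ => by
      have h1 := abs_le.1 ((hδ2a k).trans hδM)
      have h6 : 1 / (2 * M) ≤ p0 := one_div_le_one_div_of_le (by linarith) (by linarith)
      have h7 : 1 / (2 * M) ≤ 1 / 8 := one_div_le_one_div_of_le (by norm_num) (by linarith)
      constructor <;> linarith [hp01.2])
  have hlA : last ⊆ A := hlR1.trans hR1A
  have ind2 : ∀ k ∈ A, (if k ∈ last then (1 : ℝ) else 0)
      = p0 * (1 - if k ∈ first then 1 else 0) + δ2 k + x2 k := by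
    intro k hk
    by_cases hkf : k ∈ first
    · have hnot : k ∉ R1 := by simp [hR1, hkf]
      have hnl : k ∉ last := fun h => hnot (hlR1 h)
      simp [hnl, hkf, hδ2z k hnot, hx2z k hnot]
    · have hin : k ∈ R1 := by simp [hR1, hkf, hk]
      rw [hx2 k, if_pos hin, if_neg hkf]; ring
  exact ⟨first, last, δ1, δ2, x1, x2, hfA, hlR1, hg1, hg2, ⟨hδ1a, hδ1s, hδ1m hGdiag⟩,
    ⟨hδ2a, hδ2s, hδ2m hGdiag⟩, fun k hk => by linarith [ind1 k hk],
    fun k hk => by linarith [ind2 k hk], hδ1t, hδ2t⟩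

theorem abs_convex_le {l x y V : ℝ} (h0 : 0 ≤ l) (h1 : l ≤ 1) (hx : |x| ≤ V) (hy : |y| ≤ V) :
    |(1 - l) * x + l * y| ≤ V := by
  refine (abs_add_le _ _).trans ?_
  rw [abs_mul, abs_mul, abs_of_nonneg (show 0 ≤ 1 - l by linarith), abs_of_nonneg h0]
  nlinarith [mul_le_mul_of_nonneg_left hx (show 0 ≤ 1 - l by linarith),
    mul_le_mul_of_nonneg_left hy h0]

theorem abs_mul_add_le {l x y : ℝ} (h0 : 0 ≤ l) (h1 : l ≤ 1) :
    |l * (x + y)| ≤ |x| + |y| := by
  rw [abs_mul, abs_of_nonneg h0]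
  exact (mul_le_of_le_one_left (abs_nonneg _) h1).trans (abs_add_le _ _)

/-- The position of an interior boundary: on a surviving coordinate and elsewhere. -/
theorem boundary_le {a b M l c e1 e2 f1 f2 g : ℝ} (hM : 4 ≤ M) (hl0 : 0 ≤ l) (hl1 : l ≤ 1)
    {p : ℝ} (hp : p = a + (1 / M + l * (1 - 2 / M)) * (b - a)
      + (1 - l * (1 - 1 / (M - 1))) * (f1 + e1) - l * (f2 + e2) + g) :
    (0 ≤ c → f1 = -clamp c (a + (b - a) / M) →
      f2 = clamp c (b - (b - a) / M) + 1 / (M - 1) * (f1 + e1) →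
      |p| ≤ max (max |a| |b| - c) 0 + (|e1| + |e2| + |g|)) ∧
    |p| ≤ max |a| |b| + (|f1| + |f2| + |e1| + |e2| + |g|) := by
  set V := max |a| |b| with hV
  have hi : 1 / M ≤ 1 := by rw [div_le_one (by linarith)]; linarith
  have hi0 : 0 ≤ 1 / M := by positivity
  have ha : |a + (b - a) / M| ≤ V := by
    rw [show a + (b - a) / M = (1 - 1 / M) * a + 1 / M * b by ring]
    exact abs_convex_le hi0 hi (le_max_left _ _) (le_max_right _ _)
  have hb : |b - (b - a) / M| ≤ V := by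
    rw [show b - (b - a) / M = (1 - 1 / M) * b + 1 / M * a by ring]
    exact abs_convex_le hi0 hi (le_max_right _ _) (le_max_left _ _)
  constructor
  · intro hc h1 h2
    have heq : p = ((1 - l) * ((a + (b - a) / M) - clamp c (a + (b - a) / M))
        + l * ((b - (b - a) / M) - clamp c (b - (b - a) / M)))
        + ((1 - l) * e1 + -l * e2 + g) := by
      rw [hp, h2, h1]; ring
    rw [heq]
    refine (abs_add_le _ _).trans (add_le_add
      (abs_convex_le hl0 hl1 (abs_sub_clamp_le hc ha) (abs_sub_clamp_le hc hb)) ?_)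
    refine (abs_add_three _ _ _).trans ?_
    rw [abs_mul, abs_mul, abs_neg, abs_of_nonneg hl0, abs_of_nonneg (show 0 ≤ 1 - l by linarith)]
    linarith [mul_le_of_le_one_left (abs_nonneg e1) (show 1 - l ≤ 1 by linarith),
      mul_le_of_le_one_left (abs_nonneg e2) hl1]
  · have hθ : 0 ≤ 1 - l * (1 - 1 / (M - 1)) ∧ 1 - l * (1 - 1 / (M - 1)) ≤ 1 := by
      have h3 : 0 ≤ 1 / (M - 1) := div_nonneg zero_le_one (by linarith)
      have h4 : 1 / (M - 1) ≤ 1 := by rw [div_le_one (by linarith)]; linarith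
      have h5 : l * (1 - 1 / (M - 1)) ≤ 1 * (1 - 1 / (M - 1)) :=
        mul_le_mul_of_nonneg_right hl1 (by linarith)
      have h6 : 0 ≤ l * (1 - 1 / (M - 1)) := mul_nonneg hl0 (by linarith)
      constructor <;> linarith
    have heq : p = ((1 - l) * (a + (b - a) / M) + l * (b - (b - a) / M))
        + (1 - l * (1 - 1 / (M - 1))) * (f1 + e1) - l * (f2 + e2) + g := by rw [hp]; ring
    rw [heq]
    refine (abs_add_le _ _).trans ?_
    have h7 := (abs_sub _ _).trans (add_le_add ((abs_add_le _ _).trans (add_le_add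
      (abs_convex_le hl0 hl1 ha hb) (abs_mul_add_le (x := f1) (y := e1) hθ.1 hθ.2)))
      (abs_mul_add_le (x := f2) (y := e2) hl0 hl1))
    linarith

omit [Fintype ι] in
/-- The indicator of an initial run of parts. -/
theorem cut_indicator [DecidableEq ι] {A first last : Finset ι} {δ1 δ2 x1 x2 : ι → ℝ} {W n2 : ℕ}
    (hW : n2 + 2 = 2 ^ W) (hn : 0 < n2) (π : ι → Fin n2) (hfl : last ⊆ A \ first)
    (e1 : ∀ k ∈ A, δ1 k + x1 k = (if k ∈ first then (1 : ℝ) else 0) - 1 / 2 ^ W)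
    (e2 : ∀ k ∈ A, δ2 k + x2 k = (if k ∈ last then (1 : ℝ) else 0)
      - 1 / (2 ^ W - 1) * (1 - if k ∈ first then 1 else 0))
    {j : ℕ} (hj : j ≤ n2) {k : ι} (hk : k ∈ A) :
    (if (if k ∈ first then 0 else if k ∈ last then 2 ^ W - 1 else 1 + (π k : ℕ)) < j + 1
        then (1 : ℝ) else 0)
      = (1 / 2 ^ W + (j : ℝ) / n2 * (1 - 2 / 2 ^ W))
        + (1 - (j : ℝ) / n2 * (1 - 1 / (2 ^ W - 1))) * (δ1 k + x1 k)
        + (-((j : ℝ) / n2)) * (δ2 k + x2 k)
        + (if k ∈ (A \ first) \ last then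
            (if (π k : ℕ) < j then (1 : ℝ) else 0) - (j : ℝ) / n2 else 0) := by
  have hcast : (2 : ℝ) ^ W = (n2 : ℝ) + 2 := by exact_mod_cast hW.symm
  have hn' : (1 : ℝ) ≤ n2 := by exact_mod_cast hn
  rw [e1 k hk, e2 k hk, hcast]
  have h1 : (n2 : ℝ) + 2 ≠ 0 := by linarith
  have h2 : (n2 : ℝ) + 2 - 1 ≠ 0 := by linarith
  by_cases hkf : k ∈ first
  · have hnl : k ∉ last := fun h => (mem_sdiff.1 (hfl h)).2 hkf
    simp only [hkf, hnl, mem_sdiff, not_true_eq_false, and_false, false_and, if_true, if_false,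
      Nat.succ_pos]
    field_simp
    ring
  · by_cases hkl : k ∈ last
    · simp only [hkf, hkl, mem_sdiff, not_true_eq_false, and_false, if_true, if_false,
        show ¬ 2 ^ W - 1 < j + 1 by omega]
      field_simp
      ring
    · simp only [hkf, hkl, hk, mem_sdiff, not_false_eq_true, and_self, if_true, if_false,
        show (1 + (π k : ℕ) < j + 1) ↔ (π k : ℕ) < j by omega]
      field_simp
      ring

theorem exists_cut (hv : ∀ k, ∑ u, v k u ^ 2 ≤ 1) (N i : ℕ) {A : Finset ι} {a b : Fin d → ℝ}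
    (hab : b = a + ∑ k ∈ A, v k)
    (hS : wn (Fs (mom v) (i + 1)) (qq (mom v) i)
      (fun u w => Gm v A u w - if u = w then qq (mom v) i u ^ 4 else 0) ≤ rho) :
    Nonempty (Cut v N i A a b) := by
  classical
  obtain ⟨first, last, δ1, δ2, x1, x2, hfA, hfl, hg1, hg2, ⟨hδ1a, hδ1s, hδ1m⟩,
    ⟨hδ2a, hδ2s, hδ2m⟩, e1, e2, ht1, ht2⟩ := exists_extremes v hv N i hab hS
  obtain ⟨π, hπ⟩ := exists_middle v hv N i
    (show (A \ first) \ last ⊆ A from sdiff_subset.trans sdiff_subset)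
  have hW2 : 2 ≤ wid (mom v) i := two_le_wid _ i
  have hn : 2 * (2 ^ (wid (mom v) i - 1) - 1) + 2 = 2 ^ wid (mom v) i ∧
      0 < 2 * (2 ^ (wid (mom v) i - 1) - 1) := by
    have h1 : 2 ^ wid (mom v) i = 2 * 2 ^ (wid (mom v) i - 1) := by
      rw [← pow_succ']; congr 1; omega
    have h2 : 2 ^ 1 ≤ 2 ^ (wid (mom v) i - 1) := Nat.pow_le_pow_right two_pos (by omega)
    omega
  generalize hn2 : 2 * (2 ^ (wid (mom v) i - 1) - 1) = n2 at π hπ hn
  have hM4 : (4 : ℝ) ≤ 2 ^ wid (mom v) i := by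
    calc (4 : ℝ) = 2 ^ 2 := by norm_num
      _ ≤ 2 ^ wid (mom v) i := pow_le_pow_right₀ one_le_two hW2
  set ξ : ℕ → ι → ℝ := fun j k => if k ∈ (A \ first) \ last then
    (if (π k : ℕ) < j then (1 : ℝ) else 0) - (j : ℝ) / n2 else 0 with hξ
  set part : ι → ℕ := fun k =>
    if k ∈ first then 0 else if k ∈ last then 2 ^ wid (mom v) i - 1 else 1 + (π k : ℕ) with hpart
  have key : ∀ j, j ≤ n2 → ∀ f : ι → ℝ, ∑ k ∈ A with part k < j + 1, f k
      = (1 / 2 ^ wid (mom v) i + (j : ℝ) / n2 * (1 - 2 / 2 ^ wid (mom v) i)) * ∑ k ∈ A, f k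
        + (1 - (j : ℝ) / n2 * (1 - 1 / (2 ^ wid (mom v) i - 1)))
            * (∑ k ∈ A, δ1 k * f k + ∑ k ∈ A, x1 k * f k)
        - (j : ℝ) / n2 * (∑ k ∈ A, δ2 k * f k + ∑ k ∈ A, x2 k * f k)
        + ∑ k ∈ A, ξ j k * f k := by
    intro j hj f
    rw [sum_filter, ← sum_add_distrib, ← sum_add_distrib, mul_sum, mul_sum, mul_sum,
      ← sum_add_distrib, ← sum_sub_distrib, ← sum_add_distrib]
    refine sum_congr rfl fun k hk => ?_
    calc (if part k < j + 1 then f k else 0)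
        = (if part k < j + 1 then (1 : ℝ) else 0) * f k := by split_ifs <;> simp
      _ = _ := by
          rw [hpart, cut_indicator hn.1 hn.2 π hfl e1 e2 hj hk]
          simp only [hξ]
          ring
  have hcast : ((2 : ℝ) ^ wid (mom v) i) = (n2 : ℝ) + 2 := by exact_mod_cast hn.1.symm
  have hn' : (1 : ℝ) ≤ n2 := by exact_mod_cast hn.2
  have hpn : ∀ k, part k < 2 ^ wid (mom v) i := fun k => by
    have := (π k).isLt
    simp only [hpart]
    split_ifs <;> omega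
  have hξ0 : ∀ f : ι → ℝ, ∑ k ∈ A, ξ 0 k * f k = 0 := fun f =>
    sum_eq_zero fun k _ => by simp [hξ]
  have hξn : ∀ f : ι → ℝ, ∑ k ∈ A, ξ n2 k * f k = 0 := fun f =>
    sum_eq_zero fun k _ => by
      have := (π k).isLt
      simp [hξ, this, div_self (show (n2 : ℝ) ≠ 0 by linarith)]
  refine ⟨⟨part, δ1, δ2, x1, x2, ξ, fun k _ => hpn k, hg1, hg2,
    fun j hj => hπ j (by omega), hδ1a, hδ2a, hδ1s, hδ2s, hδ1m, hδ2m, ?_, ?_⟩⟩
  · intro j hj
    rcases Nat.eq_zero_or_pos j with h0 | h0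
    · subst h0
      refine ⟨1, 0, by simp, by simp, 0, Nat.zero_le _, 0, Nat.zero_le _, fun f => ?_⟩
      rw [filter_congr (q := fun k => part k < 0 + 1) (fun k _ => by omega),
        key 0 (Nat.zero_le _) f, hξ0]
      simp [div_eq_inv_mul]
    obtain ⟨j', rfl⟩ : ∃ j', j = j' + 1 := ⟨j - 1, by omega⟩
    have hdiff : ∀ f : ι → ℝ, ∑ k ∈ A with part k = j' + 1, f k
        = ∑ k ∈ A with part k < j' + 1 + 1, f k - ∑ k ∈ A with part k < j' + 1, f k := by
      intro f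
      simp only [sum_filter, ← sum_sub_distrib]
      refine sum_congr rfl fun k _ => ?_
      rcases lt_trichotomy (part k) (j' + 1) with h | h | h
      · simp [h, h.ne, Nat.lt_succ_of_lt h]
      · simp [h]
      · simp [h.not_gt, h.ne', show ¬ part k < j' + 1 + 1 by omega]
    have h1n : |(1 : ℝ) / n2| ≤ 1 := by
      rw [abs_of_nonneg (by positivity)]
      exact div_le_one_of_le₀ hn' (Nat.cast_nonneg _)
    have h4 : (0 : ℝ) ≤ 1 / (2 ^ wid (mom v) i - 1) ∧ 1 / (2 ^ wid (mom v) i - 1) ≤ (1 : ℝ) :=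
      ⟨div_nonneg zero_le_one (by linarith), by rw [div_le_one (by linarith)]; linarith⟩
    rcases Nat.lt_or_ge j' n2 with h1 | h1
    · refine ⟨-(1 / n2 * (1 - 1 / (2 ^ wid (mom v) i - 1))), -(1 / n2), ?_, by rwa [abs_neg],
        j' + 1, by omega, j', by omega, fun f => ?_⟩
      · rw [abs_neg, abs_mul]
        exact mul_le_one₀ h1n (abs_nonneg _) (abs_le.2 ⟨by linarith, by linarith⟩)
      rw [hdiff, key (j' + 1) h1 f, key j' h1.le f, hcast]
      push_cast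
      have : (n2 : ℝ) ≠ 0 := by linarith
      have : (n2 : ℝ) + 2 ≠ 0 := by linarith
      field_simp
      ring
    · obtain rfl : j' = n2 := by omega
      refine ⟨-(1 / (2 ^ wid (mom v) i - 1)), 1, by rw [abs_neg, abs_of_nonneg h4.1]; exact h4.2,
        by simp, 0, Nat.zero_le _, 0, Nat.zero_le _, fun f => ?_⟩
      have hall : ∑ k ∈ A with part k < j' + 1 + 1, f k = ∑ k ∈ A, f k := by
        rw [filter_true_of_mem fun k _ => by have := hpn k; omega]
      rw [hdiff, hall, key j' le_rfl f, hξn, hξ0, div_self (by linarith : (j' : ℝ) ≠ 0), hcast]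
      have : (j' : ℝ) + 2 ≠ 0 := by linarith
      have : (j' : ℝ) + 2 - 1 ≠ 0 := by linarith
      field_simp
      ring
  · intro j hj1 hj
    obtain ⟨j', rfl⟩ : ∃ j', j = j' + 1 := ⟨j - 1, by omega⟩
    refine ⟨j', by omega, fun u => ?_⟩
    have hS' : ∑ k ∈ A, v k u = b u - a u := by
      rw [hab, Pi.add_apply, Finset.sum_apply]; ring
    have hl1 : (j' : ℝ) / n2 ≤ 1 :=
      div_le_one_of_le₀ (by exact_mod_cast (show j' ≤ n2 by omega)) (Nat.cast_nonneg _)
    have hp := boundary_le (a := a u) (b := b u) (c := qq (mom v) (i + 1) u)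
      (e1 := ev v A x1 u) (e2 := ev v A x2 u) (f1 := ev v A δ1 u) (f2 := ev v A δ2 u)
      (g := ev v A (ξ j') u) (p := a u + ∑ k ∈ A with part k < j' + 1, v k u)
      hM4 (by positivity) hl1 (by
        rw [key j' (by omega) (fun k => v k u), hS']
        simp only [ev]
        ring)
    exact ⟨fun hu => hp.1 (qq_nonneg _ _ _) (ht1 u hu) (ht2 u hu), fun _ => hp.2⟩

end Vale.Agent.P262
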