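import Vale.Agent.P262.Defs
import Vale.Agent.P262.ProductStar

/-!
Banaszczyk's monotonicity lemma.
-/

open MeasureTheory ProbabilityTheory
open scoped ENNReal Pointwise

namespace Vale.Agent.P262

variable {E : Type*} [NormedAddCommGroup E] [InnerProductSpace ℝ E] [FiniteDimensional ℝ E]
  [MeasurableSpace E] [BorelSpace E]

theorem starBody_zero (K : Set E) : starBody K (0 : E) = K := by
  ext x
  constructor
  · rintro ⟨p, σ, -, hp, -, rfl⟩
    simpa using hp
  · intro hx
    exact ⟨x, 0, by norm_num, by simpa using hx, by simpa using hx, by simp⟩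

omit [FiniteDimensional ℝ E] [MeasurableSpace E] [BorelSpace E] in
theorem isClosed_starBody {K : Set E} (hc : IsClosed K) (v : E) : IsClosed (starBody K v) := by
  have hP : IsClosed {p : E | p + v ∈ K ∧ p - v ∈ K} :=
    (hc.preimage (by fun_prop)).inter (hc.preimage (by fun_prop))
  have hS : IsCompact ((fun σ : ℝ => σ • v) '' Set.Icc (-2) 2) :=
    isCompact_Icc.image (by fun_prop)
  have e : starBody K v
      = {p : E | p + v ∈ K ∧ p - v ∈ K} + (fun σ : ℝ => σ • v) '' Set.Icc (-2) 2 := by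
    ext x
    simp only [starBody, Set.mem_setOf_eq, Set.mem_add, Set.mem_image]
    constructor
    · rintro ⟨p, σ, hσ, h1, h2, rfl⟩
      exact ⟨p, ⟨h1, h2⟩, σ • v, ⟨σ, hσ, rfl⟩, rfl⟩
    · rintro ⟨p, ⟨h1, h2⟩, w, ⟨σ, hσ, rfl⟩, rfl⟩
      exact ⟨p, σ, hσ, h1, h2, rfl⟩
  rw [e]
  exact hP.add_right_of_isCompact hS

/-- Banaszczyk's monotonicity lemma for the standard Gaussian measure. -/
theorem stdGaussian_le_starBody {K : Set E} (hc : IsClosed K) (hx : Convex ℝ K)
    (hK : ENNReal.ofReal (9 / 10) ≤ stdGaussian E K) {v : E} (hv : ‖v‖ ≤ 1 / 4000) :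
    stdGaussian E K ≤ stdGaussian E (starBody K v) := by
  rcases eq_or_ne v 0 with rfl | hv0
  · rw [starBody_zero]
  have hne : 0 < ‖v‖ := norm_pos_iff.2 hv0
  haveI : Nontrivial E := ⟨⟨v, 0, hv0⟩⟩
  obtain ⟨m, hm⟩ := Nat.exists_eq_succ_of_ne_zero (Module.finrank_pos (R := ℝ) (M := E)).ne'
  have hfr : Module.finrank ℝ E = Fintype.card (Fin (m + 1)) := by simp [hm]
  obtain ⟨b, hb⟩ := Orthonormal.exists_orthonormalBasis_extension_of_card_eq hfr
    (v := fun _ : Fin (m + 1) => ‖v‖⁻¹ • v) (s := {0}) (by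
      rw [orthonormal_iff_ite]
      rintro ⟨i, hi⟩ ⟨j, hj⟩
      rw [Set.mem_singleton_iff] at hi hj
      subst hi; subst hj
      simp only [Set.domRestrict_apply, real_inner_self_eq_norm_sq, norm_smul, norm_inv, norm_norm,
        if_true]
      field_simp)
  have hb0 : b 0 = ‖v‖⁻¹ • v := hb 0 rfl
  let Φ : (Fin m → ℝ) × ℝ →L[ℝ] E :=
    LinearMap.toContinuousLinearMap
      { toFun := fun q => q.2 • b 0 + ∑ i, q.1 i • b i.succ
        map_add' := fun p q => by
          simp only [Prod.snd_add, Prod.fst_add, Pi.add_apply, add_smul, Finset.sum_add_distrib]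
          abel
        map_smul' := fun c q => by
          simp [smul_add, Finset.smul_sum, smul_smul] }
  have hΦ : ∀ q, Φ q = q.2 • b 0 + ∑ i, q.1 i • b i.succ := fun _ => rfl
  have hlaw : ∀ S : Set E, MeasurableSet S →
      stdGaussian E S = (gaussPi m).prod (gaussianReal 0 1) (Φ ⁻¹' S) := by
    intro S hS
    let e := MeasurableEquiv.piFinSuccAbove (fun _ : Fin (m + 1) => ℝ) 0
    have he : MeasurePreserving (fun q => e.symm q.swap)
        ((gaussPi m).prod (gaussianReal 0 1)) (gaussPi (m + 1)) :=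
      ((measurePreserving_piFinSuccAbove (fun _ : Fin (m + 1) => gaussianReal 0 1) 0).symm e).comp
        Measure.measurePreserving_swap
    rw [stdGaussian_eq_map_pi_orthonormalBasis b, Measure.map_apply (by fun_prop) hS,
      ← he.measure_preimage ((by fun_prop : Measurable fun x : Fin (m + 1) → ℝ => ∑ i, x i • b i) hS).nullMeasurableSet]
    congr 1
    ext q
    simp [e, hΦ, Fin.sum_univ_succ, Fin.insertNth_zero, Fin.consEquiv]
  have hstar := isClosed_starBody hc v
  rw [hlaw K hc.measurableSet] at hK ⊢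
  rw [hlaw _ hstar.measurableSet]
  refine prod_le_star (hc.preimage Φ.continuous) (hx.linear_preimage Φ.toLinearMap)
    (hstar.preimage Φ.continuous).measurableSet hne hv (fun y x hx => ?_) hK
  obtain ⟨p, σ, hσ, h1, h2, rfl⟩ := hx
  have hv' : v = ‖v‖ • b 0 := by rw [hb0, smul_smul, mul_inv_cancel₀ hne.ne', one_smul]
  have hsplit : ∀ r, Φ (y, p + r) = Φ (y, p) + r • b 0 := fun r => by
    simp only [hΦ, add_smul]; abel
  refine ⟨Φ (y, p), σ, hσ, ?_, ?_, ?_⟩
  · conv in (_ + v) => rw [hv', ← hsplit]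
    exact h1
  · conv in (_ - v) => rw [hv', sub_eq_add_neg, ← neg_smul, ← hsplit, ← sub_eq_add_neg]
    exact h2
  · rw [hsplit, mul_smul, ← hv']

end Vale.Agent.P262
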