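import Vale.Agent.P262.NewPoint

/-!
One step of the partition tree.
-/

open Finset

namespace Vale.Agent.P262

variable {ι : Type*} [Fintype ι] {d : ℕ} {v : ι → Fin d → ℝ} {N i : ℕ} {A : Finset ι}
  {a b : Fin d → ℝ}

/-- The control available to the children: old part and old own parts at the next scale. -/
noncomputable def S1 (g : Fin d → ℝ) (i : ℕ) (R oa ob : Fin d → ℝ) (u : Fin d) : ℝ :=
  R u + sh g (i + 1) oa u ^ 2 + sh g (i + 1) ob u ^ 2

theorem PosData.S1_nonneg {g : Fin d → ℝ} (D : PosData g N i a b) (u : Fin d) :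
    0 ≤ S1 g i D.R D.oa D.ob u := by
  have := D.R_nonneg u; unfold S1; positivity

theorem PosData.Sg_le_S1 {g : Fin d → ℝ} (D : PosData g N i a b) (u : Fin d) :
    Sg g i D.R D.oa D.ob u ≤ S1 g i D.R D.oa D.ob u := by
  unfold Sg S1
  linarith [sh_sq_mono g (Nat.le_succ i) D.oa u, sh_sq_mono g (Nat.le_succ i) D.ob u]

theorem PosData.Sg_or {g : Fin d → ℝ} (D : PosData g N i a b) {u : Fin d} (hu : u ∈ Fs g i) :
    Sg g i D.R D.oa D.ob u = 0 ∨ (qq g i u / 2) ^ 2 ≤ Sg g i D.R D.oa D.ob u := by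
  have hc : cth g i u = qq g i u := if_pos hu
  have ha := sh_or g (n := i) (o := D.oa) (u := u)
  have hb := sh_or g (n := i) (o := D.ob) (u := u)
  rw [hc] at ha hb
  have h0 := D.R_nonneg u
  have h1 := sq_nonneg (sh g i D.oa u)
  have h2 := sq_nonneg (sh g i D.ob u)
  unfold Sg
  rcases D.R_or u hu with hR | hR <;> rcases ha with ha | ha <;> rcases hb with hb | hb <;>
    first
      | (left; linarith)
      | (right; linarith)

theorem posFac_le_succ (g : Fin d → ℝ) (i : ℕ) (u : Fin d) :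
    posFac g i u ≤ posFac g (i + 1) u := by
  by_cases hu : u ∈ Fs g (i + 1)
  · exact (posFac_grow g hu).1
  · obtain ⟨h1, -⟩ := posFac_le_lost g hu
    refine le_of_sq_le_sq ?_ (posFac_nonneg g _ _)
    have : 0 ≤ (if u ∈ Fs g i then 1 else qq g i u) := by
      split_ifs
      · exact zero_le_one
      · exact qq_nonneg g i u
    linarith

/-- An old end point stays controlled at the next scale. -/
theorem PosData.keep {g : Fin d → ℝ} (D : PosData g N i a b) {o : Fin d → ℝ} {p : ℝ} {u : Fin d}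
    (hp : |p| ≤ max (o u) (posFac g i u * Real.sqrt (Sg g i D.R D.oa D.ob u))) {T : ℝ}
    (hT : S1 g i D.R D.oa D.ob u ≤ T) :
    |p| ≤ max (o u) (posFac g (i + 1) u * Real.sqrt T) :=
  hp.trans (max_le_max le_rfl (mul_le_mul (posFac_le_succ g i u)
    (Real.sqrt_le_sqrt ((D.Sg_le_S1 u).trans hT)) (Real.sqrt_nonneg _) (posFac_nonneg g _ _)))

/-- A new end point is controlled at the next scale. -/
theorem NewPoint.bound {p : Fin d → ℝ} (P : NewPoint v N i a b p)
    (D : PosData (mom v) N i a b) (u : Fin d) {T : ℝ}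
    (hT : S1 (mom v) i D.R D.oa D.ob u + sh (mom v) (i + 1) P.o u ^ 2
      + zcost (mom v) i P.z u ≤ T) :
    |p u| ≤ max (P.o u) (posFac (mom v) (i + 1) u * Real.sqrt T) := by
  set S := S1 (mom v) i D.R D.oa D.ob u with hS
  set S0 := Sg (mom v) i D.R D.oa D.ob u with hS0
  have hS1 : 0 ≤ S := D.S1_nonneg u
  have hzc := zcost_nonneg (mom v) i P.z u
  have hsq := sq_nonneg (sh (mom v) (i + 1) P.o u)
  have hV : max |a u| |b u| ≤ max (max (D.oa u) (D.ob u)) (posFac (mom v) i u * Real.sqrt S0) := by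
    refine max_le ((D.bound_a u).trans ?_) ((D.bound_b u).trans ?_)
    · exact max_le_max (le_max_left _ _) le_rfl
    · exact max_le_max (le_max_right _ _) le_rfl
  have hoaS : sh (mom v) (i + 1) D.oa u ^ 2 ≤ S := by
    have := D.R_nonneg u; rw [hS]; unfold S1; linarith [sq_nonneg (sh (mom v) (i + 1) D.ob u)]
  have hobS : sh (mom v) (i + 1) D.ob u ^ 2 ≤ S := by
    have := D.R_nonneg u; rw [hS]; unfold S1; linarith [sq_nonneg (sh (mom v) (i + 1) D.oa u)]
  by_cases hu : u ∈ Fs (mom v) (i + 1)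
  · have hu' : u ∈ Fs (mom v) i := Fs_anti (mom v) (Nat.le_succ i) hu
    have hc : cth (mom v) (i + 1) u = qq (mom v) (i + 1) u := if_pos hu
    obtain ⟨hgr1, hgr2⟩ := posFac_grow (mom v) hu
    refine point_surv (cn := qq (mom v) (i + 1) u) (S0 := S0) (S1 := S) (co := qq (mom v) i u)
      (L := Kx * Real.sqrt (wid (mom v) i))
      (oa' := sh (mom v) (i + 1) D.oa u) (ob' := sh (mom v) (i + 1) D.ob u)
      (qq_nonneg (mom v) _ u) (posFac_nonneg (mom v) i u) (two_le_posFac (mom v) hu).1 (P.surv u hu) (P.o_nonneg u)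
      hV ?_ ?_ hoaS hobS (D.Sg_le_S1 u) (D.Sg_or hu') (P.grow u hu) hgr2 hgr1
      (qq_nonneg (mom v) i u) (by linarith) ?_
    · intro h; unfold sh; rw [hc, if_pos h]
    · intro h; unfold sh; rw [hc, if_pos h]
    · intro h
      have : sh (mom v) (i + 1) P.o u = P.o u := by unfold sh; rw [hc, if_pos h]
      rw [← this]
      linarith
  · refine le_trans ?_ (le_max_right _ _)
    obtain ⟨hle, hone⟩ := posFac_le_lost (mom v) hu
    have hVS : max |a u| |b u| ≤ posFac (mom v) i u * Real.sqrt S := by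
      have hr : ∀ {o : ℝ}, 0 ≤ o → o ^ 2 ≤ S → o ≤ posFac (mom v) i u * Real.sqrt S := fun h0 h2 => by
        refine le_trans ?_ (le_mul_of_one_le_left (Real.sqrt_nonneg _) hone)
        rw [← Real.sqrt_sq h0]; exact Real.sqrt_le_sqrt h2
      refine hV.trans (max_le (max_le ?_ ?_) ?_)
      · exact hr (D.oa_nonneg u) (by rwa [sh_eq_of_lost (mom v) (D.oa_nonneg u) hu] at hoaS)
      · exact hr (D.ob_nonneg u) (by rwa [sh_eq_of_lost (mom v) (D.ob_nonneg u) hu] at hobS)
      · exact mul_le_mul_of_nonneg_left (Real.sqrt_le_sqrt (D.Sg_le_S1 u)) (posFac_nonneg (mom v) i u)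
    have hp := P.lost u hu
    by_cases hu' : u ∈ Fs (mom v) i
    · have hz : zcost (mom v) i P.z u = P.z u ^ 2 / 1 := by simp [zcost, hu, hu']
      rw [if_pos hu'] at hle
      exact point_lost hp hVS hS1 one_pos (by rw [← hz]; linarith) (posFac_nonneg (mom v) _ _) hle
    · rw [if_neg hu'] at hle
      rcases eq_or_lt_of_le (qq_nonneg (mom v) i u) with h0 | h0
      · have hz0 : P.z u = 0 := P.z_zero u h0.symm
        rw [hz0, add_zero] at hp
        exact hp.trans (hVS.trans (mul_le_mul (posFac_le_succ (mom v) i u)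
          (Real.sqrt_le_sqrt (by linarith)) (Real.sqrt_nonneg _) (posFac_nonneg (mom v) _ _)))
      · have hz : zcost (mom v) i P.z u = P.z u ^ 2 / qq (mom v) i u := by simp [zcost, hu, hu']
        exact point_lost hp hVS hS1 h0 (by rw [← hz]; linarith) (posFac_nonneg (mom v) _ _) hle

theorem sh_or_succ {g : Fin d → ℝ} {o : Fin d → ℝ} {u : Fin d} (hu : u ∈ Fs g (i + 1)) :
    sh g (i + 1) o u ^ 2 = 0 ∨ (qq g (i + 1) u / 2) ^ 2 ≤ sh g (i + 1) o u ^ 2 := by
  have h := sh_or g (n := i + 1) (o := o) (u := u)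
  rwa [cth, if_pos hu] at h

theorem PosData.R_or_succ {g : Fin d → ℝ} (D : PosData g N i a b) {u : Fin d}
    (hu : u ∈ Fs g (i + 1)) : D.R u = 0 ∨ (qq g (i + 1) u / 2) ^ 2 ≤ D.R u := by
  rcases D.R_or u (Fs_anti g (Nat.le_succ i) hu) with h | h
  · exact Or.inl h
  · right
    refine le_trans (pow_le_pow_left₀ (div_nonneg (qq_nonneg g _ u) zero_le_two) ?_ 2) h
    exact div_le_div_of_nonneg_right (qq_succ_le g i u) zero_le_two

theorem or_add {x y c : ℝ} (hx : 0 ≤ x) (hy : 0 ≤ y) (h1 : x = 0 ∨ c ≤ x) (h2 : y = 0 ∨ c ≤ y) :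
    x + y = 0 ∨ c ≤ x + y := by
  rcases h1 with h1 | h1 <;> rcases h2 with h2 | h2 <;>
    first
      | (left; linarith)
      | (right; linarith)

theorem PosData.budget {g : Fin d → ℝ} (D : PosData g N i a b) (hiN : i < N) :
    (∑ u, sh g (i + 1) D.oa u ^ 2
      ≤ Ko * ((Bud g i : ℝ) + cost g i - Bud g D.ja)) ∧
    (∑ u, sh g (i + 1) D.ob u ^ 2
      ≤ Ko * ((Bud g i : ℝ) + cost g i - Bud g D.jb)) := by
  have h1 := D.future_a (i + 1) (mem_Icc.2 ⟨Nat.le_succ i, hiN⟩)
  have h2 := D.future_b (i + 1) (mem_Icc.2 ⟨Nat.le_succ i, hiN⟩)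
  rw [Bud_succ] at h1 h2
  push_cast at h1 h2
  exact ⟨h1, h2⟩

theorem PosData.slack {g : Fin d → ℝ} (D : PosData g N i a b) :
    (Bud g D.ja : ℝ) ≤ Bud g i ∧ (Bud g D.jb : ℝ) ≤ Bud g i ∧ (0 : ℝ) ≤ cost g i ∧
      0 ≤ (wid g i : ℝ) * Xb g i :=
  ⟨by exact_mod_cast Bud_mono g D.ja_le, by exact_mod_cast Bud_mono g D.jb_le,
    Nat.cast_nonneg _, mul_nonneg (Nat.cast_nonneg _) (Xb_nonneg g i)⟩

theorem PosData.toFirst (D : PosData (mom v) N i a b) (hiN : i < N) {q : Fin d → ℝ}
    (Q : NewPoint v N i a b q) : Nonempty (PosData (mom v) N (i + 1) a q) := by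
  set g := mom v with hg
  refine ⟨⟨fun u => D.R u + sh g (i + 1) D.ob u ^ 2 + zcost g i Q.z u, D.oa, Q.o, D.ja, i,
    fun u => ?_, D.oa_nonneg, Q.o_nonneg, D.ja_le.trans (Nat.le_succ i), Nat.le_succ i,
    fun u => ?_, fun u => ?_, fun u hu => ?_, ?_, fun n hn => ?_, Q.future⟩⟩
  · have := D.R_nonneg u; have := zcost_nonneg g i Q.z u; positivity
  · refine D.keep (D.bound_a u) ?_
    unfold Sg S1
    linarith [zcost_nonneg g i Q.z u, sq_nonneg (sh g (i + 1) Q.o u)]
  · refine Q.bound D u ?_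
    unfold Sg S1
    linarith
  · have hz : zcost g i Q.z u = 0 := if_pos hu
    simp only [hz, add_zero]
    exact or_add (D.R_nonneg u) (sq_nonneg _) (D.R_or_succ hu) (sh_or_succ hu)
  · simp only [sum_add_distrib]
    obtain ⟨hA, hB⟩ := D.budget hiN
    obtain ⟨s1, s2, s3, s4⟩ := D.slack
    have := Q.cost_le
    rw [Bud_succ, Zs_succ]
    push_cast
    have hK1 : Ko ≤ KR := by norm_num [Ko, KR]
    have hK2 : Ko + Kz ≤ 3 * KR := by norm_num [Ko, Kz, KR]
    have hK3 : Kz ≤ KR := by norm_num [Kz, KR]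
    linarith [D.sum_R, mul_le_mul_of_nonneg_right hK1 (sub_nonneg.2 s2),
      mul_le_mul_of_nonneg_right hK2 s3, mul_le_mul_of_nonneg_right hK3 s4]
  · exact D.future_a n (mem_Icc.2 ⟨(Nat.le_succ i).trans (mem_Icc.1 hn).1, (mem_Icc.1 hn).2⟩)

theorem PosData.toLast (D : PosData (mom v) N i a b) (hiN : i < N) {q : Fin d → ℝ}
    (Q : NewPoint v N i a b q) : Nonempty (PosData (mom v) N (i + 1) q b) := by
  set g := mom v with hg
  refine ⟨⟨fun u => D.R u + sh g (i + 1) D.oa u ^ 2 + zcost g i Q.z u, Q.o, D.ob, i, D.jb,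
    fun u => ?_, Q.o_nonneg, D.ob_nonneg, Nat.le_succ i, D.jb_le.trans (Nat.le_succ i),
    fun u => ?_, fun u => ?_, fun u hu => ?_, ?_, Q.future, fun n hn => ?_⟩⟩
  · have := D.R_nonneg u; have := zcost_nonneg g i Q.z u; positivity
  · refine Q.bound D u ?_
    unfold Sg S1
    linarith
  · refine D.keep (D.bound_b u) ?_
    unfold Sg S1
    linarith [zcost_nonneg g i Q.z u, sq_nonneg (sh g (i + 1) Q.o u)]
  · have hz : zcost g i Q.z u = 0 := if_pos hu
    simp only [hz, add_zero]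
    exact or_add (D.R_nonneg u) (sq_nonneg _) (D.R_or_succ hu) (sh_or_succ hu)
  · simp only [sum_add_distrib]
    obtain ⟨hA, hB⟩ := D.budget hiN
    obtain ⟨s1, s2, s3, s4⟩ := D.slack
    have := Q.cost_le
    rw [Bud_succ, Zs_succ]
    push_cast
    have hK1 : Ko ≤ KR := by norm_num [Ko, KR]
    have hK2 : Ko + Kz ≤ 3 * KR := by norm_num [Ko, Kz, KR]
    have hK3 : Kz ≤ KR := by norm_num [Kz, KR]
    linarith [D.sum_R, mul_le_mul_of_nonneg_right hK1 (sub_nonneg.2 s1),
      mul_le_mul_of_nonneg_right hK2 s3, mul_le_mul_of_nonneg_right hK3 s4]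
  · exact D.future_b n (mem_Icc.2 ⟨(Nat.le_succ i).trans (mem_Icc.1 hn).1, (mem_Icc.1 hn).2⟩)

theorem PosData.toMiddle (D : PosData (mom v) N i a b) (hiN : i < N) {p q : Fin d → ℝ}
    (P : NewPoint v N i a b p) (Q : NewPoint v N i a b q) :
    Nonempty (PosData (mom v) N (i + 1) p q) := by
  set g := mom v with hg
  refine ⟨⟨fun u => (D.R u + sh g (i + 1) D.oa u ^ 2 + sh g (i + 1) D.ob u ^ 2)
      + (zcost g i P.z u + zcost g i Q.z u), P.o, Q.o, i, i,
    fun u => ?_, P.o_nonneg, Q.o_nonneg, Nat.le_succ i, Nat.le_succ i,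
    fun u => ?_, fun u => ?_, fun u hu => ?_, ?_, P.future, Q.future⟩⟩
  · have := D.R_nonneg u; have := zcost_nonneg g i P.z u; have := zcost_nonneg g i Q.z u
    positivity
  · refine P.bound D u ?_
    unfold Sg S1
    linarith [zcost_nonneg g i Q.z u, sq_nonneg (sh g (i + 1) Q.o u)]
  · refine Q.bound D u ?_
    unfold Sg S1
    linarith [zcost_nonneg g i P.z u, sq_nonneg (sh g (i + 1) P.o u)]
  · have hz : zcost g i P.z u = 0 := if_pos hu
    have hz' : zcost g i Q.z u = 0 := if_pos hu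
    simp only [hz, hz', add_zero]
    exact or_add (add_nonneg (D.R_nonneg u) (sq_nonneg _)) (sq_nonneg _)
      (or_add (D.R_nonneg u) (sq_nonneg _) (D.R_or_succ hu) (sh_or_succ hu)) (sh_or_succ hu)
  · simp only [sum_add_distrib]
    obtain ⟨hA, hB⟩ := D.budget hiN
    obtain ⟨s1, s2, s3, s4⟩ := D.slack
    have := P.cost_le
    have := Q.cost_le
    rw [Bud_succ, Zs_succ]
    push_cast
    have hK1 : Ko ≤ KR := by norm_num [Ko, KR]
    have hK2 : 2 * Ko + 2 * Kz ≤ 3 * KR := by norm_num [Ko, Kz, KR]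
    have hK3 : 2 * Kz ≤ KR := by norm_num [Kz, KR]
    linarith [D.sum_R, mul_le_mul_of_nonneg_right hK1 (sub_nonneg.2 s1),
      mul_le_mul_of_nonneg_right hK1 (sub_nonneg.2 s2),
      mul_le_mul_of_nonneg_right hK2 s3, mul_le_mul_of_nonneg_right hK3 s4]

omit [Fintype ι] in
theorem listing_union [DecidableEq ι] {P Q : Finset ι} {s : Fin d → ℝ} (hP : Listing v P s)
    (hQ : Listing v Q (s + ∑ k ∈ P, v k)) (hdis : Disjoint P Q) : Listing v (P ∪ Q) s := by
  obtain ⟨L1, hn1, hm1, hb1⟩ := hP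
  obtain ⟨L2, hn2, hm2, hb2⟩ := hQ
  refine ⟨L1 ++ L2, ?_, fun k => by simp [hm1, hm2], fun m => ?_⟩
  · rw [List.nodup_append]
    exact ⟨hn1, hn2, fun x hx y hy hxy =>
      disjoint_left.1 hdis ((hm1 x).1 hx) ((hm2 x).1 (hxy ▸ hy))⟩
  rcases Nat.le_total m L1.length with hm | hm
  · rw [List.take_append_of_le_length hm]
    exact hb1 m
  · have hP : L1.toFinset = P := by ext k; simp [hm1]
    have hsum : (L1.map v).sum = ∑ k ∈ P, v k := by rw [← hP, List.sum_toFinset _ hn1]
    rw [List.take_append, List.take_of_length_le hm, List.map_append, List.sum_append, hsum,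
      ← add_assoc]
    exact hb2 _

omit [Fintype ι] in
theorem listing_empty {s : Fin d → ℝ} (hs : ∑ u, s u ^ 2 ≤ Krad * d) : Listing v ∅ s :=
  ⟨[], List.nodup_nil, fun k => by simp, fun m => by simpa using hs⟩

/-- A few vectors may be listed in any order next to a short point. -/
theorem listing_small (hd : 1 ≤ d) (hv : ∀ k, ∑ u, v k u ^ 2 ≤ 1) {R : Finset ι}
    (hR : (R.card : ℝ) ≤ Kc * Real.sqrt (wid (mom v) i)) {q s : Fin d → ℝ}
    (hq : ∑ u, q u ^ 2 ≤ Kend * d) (hs : s = q ∨ s = q - ∑ k ∈ R, v k) : Listing v R s := by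
  classical
  refine ⟨R.toList, R.nodup_toList, fun k => by simp, fun m => ?_⟩
  have hnd : (R.toList.take m).Nodup := R.nodup_toList.sublist (List.take_sublist _ _)
  rw [← List.sum_toFinset _ hnd]
  set S := (R.toList.take m).toFinset
  have hSR : S ⊆ R := fun k hk => by
    simpa using List.mem_of_mem_take (List.mem_toFinset.1 hk)
  obtain ⟨S', σ, hσ, hS', heq⟩ : ∃ (S' : Finset ι) (σ : ℝ), |σ| ≤ 1 ∧ S' ⊆ R ∧
      ∀ u, (s + ∑ k ∈ S, v k) u = q u + σ * ∑ k ∈ S', v k u := by
    rcases hs with rfl | rfl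
    · exact ⟨S, 1, by simp, hSR, fun u => by simp⟩
    · refine ⟨R \ S, -1, by simp, sdiff_subset, fun u => ?_⟩
      simp only [Pi.add_apply, Pi.sub_apply, Finset.sum_apply, sum_sdiff_eq_sub hSR]
      ring
  have hcard : (S'.card : ℝ) ≤ Kc * Real.sqrt (wid (mom v) i) :=
    le_trans (by exact_mod_cast card_le_card hS') hR
  have hw : ∑ u, (∑ k ∈ S', v k u) ^ 2 ≤ Kc ^ 2 * wid (mom v) i := by
    calc ∑ u, (∑ k ∈ S', v k u) ^ 2
        = ∑ u, (∑ k ∈ S', v k u) ^ 2 / (fun _ : Fin d => (1 : ℝ)) u := by simp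
      _ ≤ (S'.card : ℝ) * ∑ k ∈ S', ∑ u, v k u ^ 2 / 1 :=
          sum_sq_small_le S' v univ _ fun _ => zero_le_one
      _ ≤ (S'.card : ℝ) * S'.card := by
          refine mul_le_mul_of_nonneg_left ?_ (Nat.cast_nonneg _)
          simp only [div_one]
          exact (sum_le_card_nsmul _ _ (1 : ℝ) fun k _ => hv k).trans (by simp)
      _ ≤ (Kc * Real.sqrt (wid (mom v) i)) * (Kc * Real.sqrt (wid (mom v) i)) :=
          mul_le_mul hcard hcard (Nat.cast_nonneg _) ((Nat.cast_nonneg _).trans hcard)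
      _ = Kc ^ 2 * wid (mom v) i := by
          rw [show Kc * Real.sqrt (wid (mom v) i) * (Kc * Real.sqrt (wid (mom v) i))
            = Kc ^ 2 * (Real.sqrt (wid (mom v) i) * Real.sqrt (wid (mom v) i)) by ring,
            Real.mul_self_sqrt (Nat.cast_nonneg _)]
  have hW : (wid (mom v) i : ℝ) ≤ 31 * d / eps := by
    have h1 := wid_le (mom v) i
    have h2 := Bud_le (mom v) (i + 1)
    rw [Bud_succ] at h2
    push_cast at h2
    have h3 : (1 : ℝ) ≤ d / eps :=
      le_trans (by exact_mod_cast hd) (le_div_self (Nat.cast_nonneg _) eps_pos eps_lt_one.le)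
    have h4 : (0 : ℝ) ≤ Bud (mom v) i := Nat.cast_nonneg _
    calc (wid (mom v) i : ℝ) ≤ 2 * (d / eps) + 29 * d / eps := by linarith
      _ = 31 * d / eps := by ring
  simp only [heq]
  calc ∑ u, (q u + σ * ∑ k ∈ S', v k u) ^ 2
      ≤ ∑ u, (2 * q u ^ 2 + 2 * (∑ k ∈ S', v k u) ^ 2) := by
        refine sum_le_sum fun u _ => ?_
        have h2 : (σ * ∑ k ∈ S', v k u) ^ 2 ≤ (∑ k ∈ S', v k u) ^ 2 := by
          rw [mul_pow]
          refine mul_le_of_le_one_left (sq_nonneg _) ?_
          rw [← sq_abs]; exact pow_le_one₀ (abs_nonneg _) hσ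
        linarith [sq_nonneg (q u - σ * ∑ k ∈ S', v k u), add_sq (q u) (σ * ∑ k ∈ S', v k u),
          sub_sq (q u) (σ * ∑ k ∈ S', v k u)]
    _ = 2 * ∑ u, q u ^ 2 + 2 * ∑ u, (∑ k ∈ S', v k u) ^ 2 := by
        rw [sum_add_distrib, ← mul_sum, ← mul_sum]
    _ ≤ 2 * (Kend * d) + 2 * (Kc ^ 2 * (31 * d / eps)) := by
        linarith [mul_le_mul_of_nonneg_left hW (sq_nonneg Kc)]
    _ ≤ Krad * d := by
        norm_num [Kend, Kc, eps, Krad]
        linarith [Nat.cast_nonneg (α := ℝ) d]

omit [Fintype ι] in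
open Classical in
/-- Joining the listings of consecutive parts. -/
theorem listing_parts (A : Finset ι) (part : ι → ℕ) (M : ℕ) (hM : ∀ k ∈ A, part k < M)
    (a : Fin d → ℝ) (ha : ∑ u, a u ^ 2 ≤ Krad * d)
    (h : ∀ j < M, Listing v (A.filter fun k => part k = j)
      (a + ∑ k ∈ A with part k < j, v k)) : Listing v A a := by
  have key : ∀ j ≤ M, Listing v (A.filter fun k => part k < j) a := by
    intro j
    induction j with
    | zero =>
      intro _
      rw [filter_false_of_mem (fun k _ => Nat.not_lt_zero _)]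
      exact listing_empty ha
    | succ j ih =>
      intro hj
      have := listing_union (ih (by omega)) (h j (by omega))
        (disjoint_filter.2 fun k _ h1 h2 => by omega)
      convert this using 1
      rw [← filter_or]
      exact filter_congr fun k _ => by omega
  simpa [filter_true_of_mem hM] using key M le_rfl

theorem node_step (hd : 1 ≤ d) (hv : ∀ k, ∑ u, v k u ^ 2 ≤ 1)
    {N i : ℕ} (hiN : i < N)
    (hN : Fs (mom v) N = ∅) {A : Finset ι} {a b : Fin d → ℝ} (h : Node v N i A a b)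
    (ih : ∀ (C : Finset ι) (a' b' : Fin d → ℝ), Node v N (i + 1) C a' b' → Listing v C a') :
    Listing v A a := by
  classical
  obtain ⟨C⟩ := exists_cut v hv N i h.total h.matrix
  obtain ⟨D⟩ := h.pos
  set M := 2 ^ wid (mom v) i with hM
  have hM4 : 4 ≤ M := by
    calc 4 = 2 ^ 2 := by norm_num
      _ ≤ _ := Nat.pow_le_pow_right two_pos (two_le_wid _ i)
  set pre : ℕ → Fin d → ℝ := fun j => a + ∑ k ∈ A with C.part k < j, v k with hpre
  have hpre_succ : ∀ j, pre (j + 1) = pre j + ∑ k ∈ C.child j, v k + ∑ k ∈ C.removed j, v k := by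
    intro j
    simp only [hpre, add_assoc, Cut.child, Cut.removed]
    congr 1
    rw [sum_filter, sum_filter, sum_filter, sum_filter, ← sum_add_distrib, ← sum_add_distrib]
    refine sum_congr rfl fun k _ => ?_
    by_cases hb : IsBig v A i k <;>
      simp only [hb, not_true_eq_false, not_false_eq_true, and_true, and_false, if_false,
        add_zero, zero_add] <;>
      split_ifs <;> first | omega | simp
  have hpreM : pre M = b := by
    rw [h.total]
    simp only [hpre]
    rw [filter_true_of_mem C.part_lt]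
  have hpre0 : pre 0 = a := by simp [hpre]
  have hend := node_pos_le h hiN.le hN
  have hmk : ∀ {j : ℕ}, j < M → ∀ {a' b' : Fin d → ℝ}, b' = a' + ∑ k ∈ C.child j, v k →
      Nonempty (PosData (mom v) N (i + 1) a' b') → Node v N (i + 1) (C.child j) a' b' :=
    fun hj _ _ he hp => ⟨he, C.matrix h hv hj, C.born_le h hj, C.old_le h hj, hp⟩
  refine listing_parts A C.part M C.part_lt a (hend.1.trans ?_) fun j hj => ?_
  · exact mul_le_mul_of_nonneg_right (by norm_num [Kend, Krad]) (Nat.cast_nonneg _)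
  have hsplit : A.filter (fun k => C.part k = j) = C.child j ∪ C.removed j := by
    ext k
    simp only [Cut.child, Cut.removed, mem_filter, mem_union]
    by_cases hb : IsBig v A i k <;> simp [hb]
  have hdis : Disjoint (C.child j) (C.removed j) := disjoint_filter.2 fun k _ h1 h2 => h1.2 h2.2
  have hRA : C.removed j ⊆ A := filter_subset _ _
  have hRc : ((C.removed j).card : ℝ) ≤ Kc * Real.sqrt (wid (mom v) i) := C.card_removed h hj
  have hchild_end : ∀ {a' b' : Fin d → ℝ}, Node v N (i + 1) (C.child j) a' b' →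
      ∑ u, a' u ^ 2 ≤ Kend * d ∧ ∑ u, b' u ^ 2 ≤ Kend * d :=
    fun hn => node_pos_le hn hiN hN
  rw [hsplit]
  change Listing v (C.child j ∪ C.removed j) (pre j)
  rcases Nat.lt_or_ge (j + 1) M with hjM | hjM
  · -- the part is followed by its removed vectors
    obtain ⟨Q⟩ : Nonempty (NewPoint v N i a b (pre (j + 1) - ∑ k ∈ C.removed j, v k)) :=
      h.exists_newPoint hv hiN C (Nat.le_add_left 1 j) hjM (C.removed j) hRA hRc (-1) (by simp) _
        fun u => by simp [hpre, Finset.sum_apply, sub_eq_add_neg]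
    have hb' : pre (j + 1) - ∑ k ∈ C.removed j, v k = pre j + ∑ k ∈ C.child j, v k := by
      rw [hpre_succ]; abel
    have hpos : Nonempty (PosData (mom v) N (i + 1) (pre j)
        (pre (j + 1) - ∑ k ∈ C.removed j, v k)) := by
      rcases Nat.eq_zero_or_pos j with h0 | h0
      · subst h0; rw [hpre0]; exact D.toFirst hiN Q
      · obtain ⟨P⟩ : Nonempty (NewPoint v N i a b (pre j)) :=
          h.exists_newPoint hv hiN C h0 hj ∅ (empty_subset _)
            (by
              simp only [card_empty, Nat.cast_zero]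
              exact mul_nonneg (by norm_num [Kc]) (Real.sqrt_nonneg _)) 0 (by simp) _
            fun u => by simp [hpre, Finset.sum_apply]
        exact D.toMiddle hiN P Q
    have hnode := hmk hj hb' hpos
    refine listing_union (ih _ _ _ hnode) ?_ hdis
    rw [← hb']
    exact listing_small hd hv hRc (hchild_end hnode).2 (Or.inl rfl)
  · -- the last part is preceded by its removed vectors
    have hjlast : j + 1 = M := by omega
    obtain ⟨Q⟩ : Nonempty (NewPoint v N i a b (pre j + ∑ k ∈ C.removed j, v k)) :=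
      h.exists_newPoint hv hiN C (by omega) hj (C.removed j) hRA hRc 1 (by simp) _
        fun u => by simp [hpre, Finset.sum_apply]
    have hb' : b = pre j + ∑ k ∈ C.removed j, v k + ∑ k ∈ C.child j, v k := by
      exact hpreM.symm.trans (by rw [← hjlast, hpre_succ]; abel)
    have hnode := hmk hj hb' (D.toLast hiN Q)
    rw [union_comm]
    refine listing_union ?_ (ih _ _ _ hnode) hdis.symm
    exact listing_small hd hv hRc (hchild_end hnode).1 (Or.inr (by abel))

end Vale.Agent.P262
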