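import Vale.Agent.P262.MidpointPL

/-!
One-dimensional sections seen through symmetric windows, and the ratio bound from log-concavity.
-/

open MeasureTheory ProbabilityTheory
open scoped ENNReal

namespace Vale.Agent.P262

/-- The operation of `starBody` on the line, for a step of length `e`. -/
def lineStar (J : Set ℝ) (e : ℝ) : Set ℝ :=
  {x | ∃ p : ℝ, ∃ σ ∈ Set.Icc (-2 : ℝ) 2, p + e ∈ J ∧ p - e ∈ J ∧ x = p + σ * e}

/-- The length of `J` inside `[-T,T]`. -/
noncomputable def winLen (J : Set ℝ) (T : ℝ) : ℝ≥0∞ := volume (J ∩ Set.Icc (-T) T)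

theorem winLen_mono {J J' : Set ℝ} {S T : ℝ} (hJ : J ⊆ J') (hST : S ≤ T) :
    winLen J S ≤ winLen J' T :=
  measure_mono (Set.inter_subset_inter hJ (Set.Icc_subset_Icc (by linarith) hST))

theorem winLen_ne_top (J : Set ℝ) (T : ℝ) : winLen J T ≠ ∞ :=
  ne_top_of_le_ne_top (by simp) (measure_mono Set.inter_subset_right)

theorem subset_lineStar {J : Set ℝ} (hJ : Convex ℝ J) {e : ℝ} (he : 0 < e) {a b : ℝ}
    (ha : a ∈ J) (hb : b ∈ J) (hab : 2 * e ≤ b - a) : J ⊆ lineStar J e := by
  intro x hx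
  -- a subinterval of length `2e` containing `x`, between the extreme points among `a`, `b`, `x`
  let p := max (min a x + e) (min x (max b x - e))
  have hmin : min a x ∈ J := by rcases min_cases a x with ⟨h, -⟩ | ⟨h, -⟩ <;> rwa [h]
  have hmax : max b x ∈ J := by rcases max_cases b x with ⟨h, -⟩ | ⟨h, -⟩ <;> rwa [h]
  have hmem : ∀ y, min a x ≤ y → y ≤ max b x → y ∈ J := fun y h1 h2 =>
    hJ.ordConnected.out hmin hmax ⟨h1, h2⟩
  have h1 : min a x + e ≤ p := le_max_left _ _
  have h2 : p ≤ max b x - e :=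
    max_le (by linarith [min_le_left a x, le_max_left b x]) (min_le_right _ _)
  have h3 : p ≤ x + e := max_le (by linarith [min_le_right a x]) (by linarith [min_le_left x (max b x - e)])
  have h4 : x - e ≤ p :=
    le_trans (le_min (by linarith) (by linarith [le_max_right b x])) (le_max_right _ _)
  refine ⟨p, (x - p) / e, ⟨?_, ?_⟩, hmem _ (by linarith) (by linarith),
    hmem _ (by linarith) (by linarith), by field_simp; ring⟩
  · rw [le_div_iff₀ he]; linarith
  · rw [div_le_iff₀ he]; linarith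

theorem exists_pair_of_lt_volume {A : Set ℝ} {r : ℝ} (hr : 0 ≤ r)
    (hA : ENNReal.ofReal r < volume A) : ∃ a ∈ A, ∃ b ∈ A, r < b - a := by
  by_contra h
  push_neg at h
  refine absurd hA (not_lt.2 ?_)
  refine (Real.volume_le_diam A).trans (Metric.ediam_le fun x hx y hy => ?_)
  rw [edist_dist, Real.dist_eq]
  exact ENNReal.ofReal_le_ofReal (abs_sub_le_iff.2 ⟨h y hy x hx, h x hx y hy⟩)

/-- At most `D` is lost, and only on sections of length at most `D`. -/
theorem winLen_le_add {J : Set ℝ} (hJ : Convex ℝ J) {e D : ℝ} (he : 0 < e) (hD : 2 * e ≤ D)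
    {T S : ℝ} (hTS : T ≤ S) :
    winLen J T ≤ winLen (lineStar J e) T
      + {u : ℝ≥0∞ | 0 < u ∧ u ≤ ENNReal.ofReal D}.indicator (fun _ => ENNReal.ofReal D)
          (winLen J S) := by
  by_cases h : ENNReal.ofReal (2 * e) < winLen J S
  · obtain ⟨a, ha, b, hb, hab⟩ := exists_pair_of_lt_volume (by positivity) h
    exact le_add_right (winLen_mono (subset_lineStar hJ he ha.1 hb.1 hab.le) le_rfl)
  · have h1 : winLen J T ≤ ENNReal.ofReal D :=
      (winLen_mono le_rfl hTS).trans ((not_lt.1 h).trans (ENNReal.ofReal_le_ofReal hD))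
    rcases eq_or_ne (winLen J T) 0 with h0 | h0
    · simp [h0]
    refine le_add_left (h1.trans (le_of_eq ?_))
    rw [Set.indicator_of_mem]
    exact ⟨(pos_iff_ne_zero.2 h0).trans_le (winLen_mono le_rfl hTS),
      (not_lt.1 h).trans (ENNReal.ofReal_le_ofReal hD)⟩

/-- A section of moderate length inside a window gains `e`. -/
theorem winLen_add_le {J : Set ℝ} (hc : IsClosed J) (hJ : Convex ℝ J) {e S T : ℝ} (he : 0 < e)
    (he1 : e ≤ 1) (hS : 2 ≤ S) (hST : S ≤ T) (h1 : ENNReal.ofReal (2 * e) < winLen J S)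
    (h2 : winLen J S ≤ 1) :
    winLen J T + ENNReal.ofReal e ≤ winLen (lineStar J e) T := by
  obtain ⟨a₀, ha₀, b₀, hb₀, hab₀⟩ := exists_pair_of_lt_volume (by positivity) h1
  have hsub : J ⊆ lineStar J e := subset_lineStar hJ he ha₀.1 hb₀.1 hab₀.le
  set I := J ∩ Set.Icc (-S) S with hI
  have hIc : IsCompact I := isCompact_Icc.inter_left hc
  have hne : I.Nonempty := ⟨a₀, ha₀⟩
  set a := sInf I
  set b := sSup I
  have ha : a ∈ I := hIc.sInf_mem hne
  have hb : b ∈ I := hIc.sSup_mem hne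
  have haI : ∀ x ∈ I, a ≤ x := fun x hx => csInf_le hIc.bddBelow hx
  have hbI : ∀ x ∈ I, x ≤ b := fun x hx => le_csSup hIc.bddAbove hx
  have hlen : b - a ≤ 1 := by
    have h3 : Set.Icc a b ⊆ I := fun x hx =>
      ⟨hJ.ordConnected.out ha.1 hb.1 hx, ha.2.1.trans hx.1, hx.2.trans hb.2.2⟩
    have h4 := (measure_mono h3).trans h2
    rw [Real.volume_Icc] at h4
    exact ENNReal.ofReal_le_one.1 h4
  have hgap : 2 * e ≤ b - a := by linarith [haI _ ha₀, hbI _ hb₀]
  have hm : MeasurableSet (J ∩ Set.Icc (-T) T) := hc.measurableSet.inter measurableSet_Icc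
  have key : ∀ U : Set ℝ, MeasurableSet U → volume U = ENNReal.ofReal e →
      Disjoint (J ∩ Set.Icc (-T) T) U → U ⊆ lineStar J e ∩ Set.Icc (-T) T →
      winLen J T + ENNReal.ofReal e ≤ winLen (lineStar J e) T := by
    intro U hU hv hd hs
    rw [winLen, winLen, ← hv, ← measure_union hd hU]
    exact measure_mono (Set.union_subset (Set.inter_subset_inter hsub le_rfl) hs)
  rcases le_or_gt b (S - e) with hside | hside
  · have hbd : ∀ x ∈ J, x ≤ b := by
      intro x hx
      by_contra hxb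
      have hmem : min x S ∈ I := ⟨hJ.ordConnected.out hb.1 hx
        ⟨le_min (le_of_not_ge hxb) hb.2.2, min_le_left _ _⟩,
        le_min (by linarith [hb.2.1]) (by linarith [hb.2.1, hb.2.2]), min_le_right _ _⟩
      have := hbI _ hmem
      rcases min_cases x S with ⟨h', -⟩ | ⟨h', -⟩ <;> rw [h'] at this <;> linarith
    refine key (Set.Ioc b (b + e)) measurableSet_Ioc (by simp)
      (Set.disjoint_left.2 fun x hx hx' => by linarith [hx'.1, hbd x hx.1]) fun x hx => ?_
    refine ⟨⟨b - e, (x - (b - e)) / e, ⟨?_, ?_⟩, by simpa using hb.1,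
      hJ.ordConnected.out ha.1 hb.1 ⟨by linarith, by linarith⟩, by field_simp; ring⟩,
      by linarith [hx.1, hb.2.1], by linarith [hx.2]⟩
    · rw [le_div_iff₀ he]; linarith [hx.1]
    · rw [div_le_iff₀ he]; linarith [hx.2]
  · have hbd : ∀ x ∈ J, a ≤ x := by
      intro x hx
      by_contra hxa
      have hmem : max x (-S) ∈ I := ⟨hJ.ordConnected.out hx ha.1
        ⟨le_max_left _ _, max_le (le_of_not_ge hxa) ha.2.1⟩,
        le_max_right _ _, max_le (by linarith [ha.2.2]) (by linarith [ha.2.1, ha.2.2])⟩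
      have := haI _ hmem
      rcases max_cases x (-S) with ⟨h', -⟩ | ⟨h', -⟩ <;> rw [h'] at this <;> linarith
    refine key (Set.Ico (a - e) a) measurableSet_Ico (by simp)
      (Set.disjoint_left.2 fun x hx hx' => by linarith [hx'.2, hbd x hx.1]) fun x hx => ?_
    refine ⟨⟨a + e, (x - (a + e)) / e, ⟨?_, ?_⟩,
      hJ.ordConnected.out ha.1 hb.1 ⟨by linarith, by linarith⟩, by simpa using ha.1,
      by field_simp; ring⟩, by linarith [hx.1], by linarith [hx.2, ha.2.2]⟩
    · rw [le_div_iff₀ he]; linarith [hx.1]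
    · rw [div_le_iff₀ he]; linarith [hx.2]

theorem le_of_midpoint_chain {u : ℕ → ℝ} {la : ℝ} (h : ∀ k, la + u k ≤ 2 * u (k + 1)) :
    ∀ k, ((1 : ℝ) / 2) ^ k * (u 0 - la) ≤ u k - la := by
  intro k
  induction k with
  | zero => simp
  | succ k ih =>
    rw [pow_succ]
    have := h k
    linarith

/-- The one-parameter log-concave ratio bound: `a - b ≤ 5 D (b - c)`. -/
theorem ratio_bound {p : ℕ → ℝ} {a : ℝ} (ha : 0 < a) (ha1 : a ≤ 1) (hp : ∀ k, 0 ≤ p k)
    (hc : 2 / 5 ≤ p 0) (hca : p 0 ≤ a) (hstep : ∀ k, a * p k ≤ p (k + 1) ^ 2) {k : ℕ}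
    (hk : 1 ≤ k) : a - p k ≤ 5 * ((1 : ℝ) / 2) ^ k * (p k - p 0) := by
  have hpos : ∀ j, 0 < p j := by
    intro j
    induction j with
    | zero => linarith
    | succ j ih =>
      rcases (hp (j + 1)).lt_or_eq with h | h
      · exact h
      · have := hstep j
        rw [← h] at this
        nlinarith
  set D := ((1 : ℝ) / 2) ^ k
  have hD0 : 0 < D := by positivity
  have hD : D ≤ 1 / 2 := pow_le_of_le_one (by norm_num) (by norm_num) (by omega)
  set l := Real.log a - Real.log (p 0) with hl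
  have hl0 : 0 ≤ l := sub_nonneg.2 (Real.log_le_log (hpos 0) hca)
  have hlog := le_of_midpoint_chain (u := fun j => Real.log (p j)) (la := Real.log a) (fun j => by
    rw [← Real.log_mul ha.ne' (hpos j).ne', show (2 : ℝ) * Real.log (p (j + 1))
      = Real.log (p (j + 1) ^ 2) by rw [Real.log_pow]; push_cast; ring]
    exact Real.log_le_log (mul_pos ha (hpos j)) (hstep j)) k
  have h1 : a * Real.exp (-(D * l)) ≤ p k := by
    rw [← Real.exp_log ha, ← Real.exp_add, ← Real.exp_log (hpos k), Real.exp_le_exp]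
    simp only [hl, D]
    linarith
  have h2 : p 0 * Real.exp ((1 - D) * l) ≤ p k := by
    refine le_trans (le_of_eq ?_) h1
    rw [show a * Real.exp (-(D * l)) = p 0 * ((a / p 0) * Real.exp (-(D * l))) by
      have := (hpos 0).ne'; field_simp]
    congr 1
    rw [← Real.exp_log (div_pos ha (hpos 0)), ← Real.exp_add, Real.log_div ha.ne' (hpos 0).ne']
    congr 1
    simp only [hl]
    ring
  have h3 : a - p k ≤ D * l := by
    have h4 := Real.add_one_le_exp (-(D * l))
    have h5 := mul_le_mul_of_nonneg_left h4 ha.le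
    have h6 : a * (D * l) ≤ 1 * (D * l) := mul_le_mul_of_nonneg_right ha1 (by positivity)
    linarith
  have h7 : l / 5 ≤ p k - p 0 := by
    have h4 := mul_le_mul_of_nonneg_left (Real.add_one_le_exp ((1 - D) * l)) (hp 0)
    have h5 : (2 / 5) * ((1 - D) * l) ≤ p 0 * ((1 - D) * l) :=
      mul_le_mul_of_nonneg_right hc (mul_nonneg (by linarith) hl0)
    have h6 : D * l ≤ 1 / 2 * l := mul_le_mul_of_nonneg_right hD hl0
    nlinarith
  calc a - p k ≤ D * l := h3
    _ = 5 * D * (l / 5) := by ring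
    _ ≤ 5 * D * (p k - p 0) := mul_le_mul_of_nonneg_left h7 (by positivity)

end Vale.Agent.P262
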